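import Crest.Agent.R168.Defs

/-!
Product-measure lemmas for the label spaces: splitting labels, resampling one coordinate.
-/

set_option autoImplicit false

open MeasureTheory unitInterval Filter Topology
open Crest.ProbabilityR Crest.ProbabilityR.Labels

noncomputable section

namespace Crest.Agent.R168

instance isProbabilityMeasure_labelMeasure (V : Type*) : IsProbabilityMeasure (labelMeasure V) := by
  unfold labelMeasure; infer_instance

theorem measurable_xi : Measurable xi :=
  (Measure.exists_measurable_map_eq (labelMeasure ℕ)).choose_spec.1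

theorem map_xi : (volume : Measure I).map xi = labelMeasure ℕ :=
  (Measure.exists_measurable_map_eq (labelMeasure ℕ)).choose_spec.2

theorem measurePreserving_comp_inj {A B : Type*} (f : A → B) (hf : Function.Injective f) :
    MeasurePreserving (fun z : B → I => z ∘ f) (labelMeasure B) (labelMeasure A) :=
  ⟨by fun_prop, Measure.map_infinitePi_infinitePi_of_inj (P := fun _ : B => (volume : Measure I)) hf⟩

theorem measurePreserving_sumElim {A B : Type*} :
    MeasurePreserving (fun p : (A → I) × (B → I) => Sum.elim p.1 p.2)
      ((labelMeasure A).prod (labelMeasure B)) (labelMeasure (A ⊕ B)) := by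
  classical
  have hm : Measurable (fun p : (A → I) × (B → I) => Sum.elim p.1 p.2) := by
    refine measurable_pi_lambda _ fun c => ?_
    rcases c with a | b
    · simp only [Sum.elim_inl]; fun_prop
    · simp only [Sum.elim_inr]; fun_prop
  refine ⟨hm, ?_⟩
  unfold labelMeasure
  refine Measure.eq_infinitePi _ fun s t ht => ?_
  rw [Measure.map_apply hm (MeasurableSet.pi s.countable_toSet fun _ _ => ht _)]
  have : (fun p : (A → I) × (B → I) => Sum.elim p.1 p.2) ⁻¹' (Set.pi (s : Set (A ⊕ B)) t) =
      (Set.pi (s.toLeft : Set A) (fun a => t (Sum.inl a))) ×ˢ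
        (Set.pi (s.toRight : Set B) (fun b => t (Sum.inr b))) := by
    ext p
    simp [Set.mem_pi, Sum.forall]
  rw [this, Measure.prod_prod, Measure.infinitePi_pi _ (fun _ _ => ht _),
    Measure.infinitePi_pi _ (fun _ _ => ht _), Finset.prod_sum_eq_prod_toLeft_mul_prod_toRight]

theorem measurePreserving_sumSplit {A B : Type*} :
    MeasurePreserving (fun w : A ⊕ B → I => (w ∘ Sum.inl, w ∘ Sum.inr))
      (labelMeasure (A ⊕ B)) ((labelMeasure A).prod (labelMeasure B)) := by
  have hm : Measurable (fun w : A ⊕ B → I => (w ∘ Sum.inl, w ∘ Sum.inr)) := by fun_prop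
  refine ⟨hm, ?_⟩
  rw [← (measurePreserving_sumElim (A := A) (B := B)).map_eq,
    Measure.map_map hm (measurePreserving_sumElim (A := A) (B := B)).measurable]
  have : ((fun w : A ⊕ B → I => (w ∘ Sum.inl, w ∘ Sum.inr)) ∘
      fun p : (A → I) × (B → I) => Sum.elim p.1 p.2) = id := by
    funext p; simp
  rw [this, Measure.map_id]

theorem measurePreserving_uncurry_xi {V : Type*} :
    MeasurePreserving (fun (z : V → I) (b : V × ℕ) => xi (z b.1) b.2) (labelMeasure V)
      (labelMeasure (V × ℕ)) := by
  have h1 : MeasurePreserving (fun (z : V → I) (j : V) => xi (z j)) (labelMeasure V)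
      (Measure.infinitePi fun _ : V => labelMeasure ℕ) := by
    refine ⟨measurable_pi_lambda _ fun j => measurable_xi.comp (measurable_pi_apply j), ?_⟩
    have := Measure.infinitePi_map_pi (fun _ : V => (volume : Measure I))
      (f := fun _ => xi) (fun _ => measurable_xi)
    unfold labelMeasure
    rw [this]
    congr 1
    funext j
    exact map_xi
  have h2 : MeasurePreserving (MeasurableEquiv.curry V ℕ I).symm
      (Measure.infinitePi fun _ : V => labelMeasure ℕ) (labelMeasure (V × ℕ)) :=
    ⟨(MeasurableEquiv.curry V ℕ I).symm.measurable,
      Measure.infinitePi_map_curry_symm (fun (_ : V) (_ : ℕ) => (volume : Measure I))⟩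
  exact h2.comp h1

theorem measurePreserving_split {V : Type*} :
    MeasurePreserving (fun z : V → I => (splitT z, splitU z)) (labelMeasure V)
      ((labelMeasure V).prod (labelMeasure (V × ℕ))) := by
  have hinj : Function.Injective
      (Sum.elim (fun j : V => (j, 0)) (fun b : V × ℕ => (b.1, b.2 + 1)) : V ⊕ V × ℕ → V × ℕ) := by
    rintro (a | ⟨a, k⟩) (b | ⟨b, l⟩) h <;> simp_all
  exact (measurePreserving_sumSplit.comp
    ((measurePreserving_comp_inj _ hinj).comp measurePreserving_uncurry_xi))

theorem measurable_splitT {V : Type*} : Measurable (splitT : (V → I) → (V → I)) :=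
  measurable_fst.comp measurePreserving_split.measurable

theorem measurable_splitU {V : Type*} : Measurable (splitU : (V → I) → (V × ℕ → I)) :=
  measurable_snd.comp measurePreserving_split.measurable

/-- Almost every family of labels is injective. -/
theorem ae_injective_labels {V : Type*} [Countable V] :
    ∀ᵐ t ∂(labelMeasure V), Function.Injective t := by
  have : ∀ i j : V, ∀ᵐ t ∂(labelMeasure V), t i = t j → i = j := by
    intro i j
    by_cases hij : i = j
    · exact Eventually.of_forall fun _ _ => hij
    · have h := Measure.infinitePi_map_eval_prod (P := fun _ : V => (volume : Measure I)) hij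
      have hd : MeasurableSet {p : I × I | p.1 = p.2} := measurableSet_eq_fun measurable_fst measurable_snd
      have h0 : ((volume : Measure I).prod volume) {p : I × I | p.1 = p.2} = 0 := by
        rw [Measure.prod_apply hd]
        have : ∀ x : I, (volume : Measure I) (Prod.mk x ⁻¹' {p : I × I | p.1 = p.2}) = 0 := by
          intro x
          have : Prod.mk x ⁻¹' {p : I × I | p.1 = p.2} = {x} := by ext y; simp [eq_comm]
          rw [this]; simp
        simp only [this, lintegral_const, zero_mul]
      rw [← h, Measure.map_apply (by fun_prop) hd] at h0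
      rw [ae_iff]
      unfold labelMeasure
      convert h0 using 2
      ext t; simp [hij]
  filter_upwards [ae_all_iff.2 fun i => ae_all_iff.2 fun j => this i j] with t ht i j hij
  exact ht i j hij

/-- Resampling one coordinate preserves the product law. -/
theorem measurePreserving_update {A : Type*} [DecidableEq A] (a : A) :
    MeasurePreserving (fun p : (A → I) × I => Function.update p.1 a p.2)
      ((labelMeasure A).prod volume) (labelMeasure A) := by
  have hm : Measurable (fun p : (A → I) × I => Function.update p.1 a p.2) := by fun_prop
  refine ⟨hm, ?_⟩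
  unfold labelMeasure
  refine Measure.eq_infinitePi _ fun s t ht => ?_
  rw [Measure.map_apply hm (MeasurableSet.pi s.countable_toSet fun _ _ => ht _)]
  by_cases ha : a ∈ s
  · have : (fun p : (A → I) × I => Function.update p.1 a p.2) ⁻¹' (Set.pi (s : Set A) t) =
        (Set.pi (s.erase a : Set A) t) ×ˢ t a := by
      ext p
      simp only [Set.mem_preimage, Set.mem_pi, Finset.mem_coe, Set.mem_prod, Finset.mem_erase]
      constructor
      · intro h
        refine ⟨fun i hi => ?_, ?_⟩
        · have := h i hi.2
          rwa [Function.update_of_ne hi.1] at this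
        · have := h a ha
          rwa [Function.update_self] at this
      · rintro ⟨h1, h2⟩ i hi
        by_cases hia : i = a
        · subst hia; rwa [Function.update_self]
        · rw [Function.update_of_ne hia]; exact h1 i ⟨hia, hi⟩
    rw [this, Measure.prod_prod, Measure.infinitePi_pi _ (fun _ _ => ht _),
      Finset.prod_erase_mul _ _ ha]
  · have : (fun p : (A → I) × I => Function.update p.1 a p.2) ⁻¹' (Set.pi (s : Set A) t) =
        (Set.pi (s : Set A) t) ×ˢ Set.univ := by
      ext p
      simp only [Set.mem_preimage, Set.mem_pi, Finset.mem_coe, Set.mem_prod, Set.mem_univ,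
        and_true]
      refine forall₂_congr fun i hi => ?_
      rw [Function.update_of_ne (fun h : i = a => ha (h ▸ hi))]
    rw [this, Measure.prod_prod, Measure.infinitePi_pi _ (fun _ _ => ht _)]
    simp

/-- A bounded measurable real function is integrable on a finite measure space. -/
theorem integrable_of_abs_le {Ω : Type*} [MeasurableSpace Ω] {μ : Measure Ω} [IsFiniteMeasure μ]
    {f : Ω → ℝ} (hf : Measurable f) (C : ℝ) (hC : ∀ x, |f x| ≤ C) : Integrable f μ :=
  Integrable.of_bound hf.aestronglyMeasurable C (Eventually.of_forall hC)

theorem integral_eq_integral_update {A : Type*} [DecidableEq A] (a : A) {f : (A → I) → ℝ}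
    (hf : Measurable f) (C : ℝ) (hC : ∀ x, |f x| ≤ C) :
    ∫ s, f s ∂(labelMeasure A) = ∫ s, ∫ y, f (Function.update s a y) ∂volume ∂(labelMeasure A) := by
  have h := measurePreserving_update (A := A) a
  rw [← h.map_eq, integral_map h.measurable.aemeasurable hf.aestronglyMeasurable, h.map_eq]
  exact integral_prod (fun p : (A → I) × I => f (Function.update p.1 a p.2))
    (integrable_of_abs_le (hf.comp h.measurable) C fun _ => hC _)

end Crest.Agent.R168

end
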