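import Crest.Agent.R168.Cauchy

/-!
The decoded bit as a function of one label per site, and a canonical limit of Cauchy sequences of
events.
-/

set_option autoImplicit false

open MeasureTheory unitInterval Filter Topology
open Crest.ProbabilityR Crest.ProbabilityR.Labels

noncomputable section

namespace Crest.Agent.R168

/-! ### Canonical limits of sequences of events -/

section Limit

variable {Ω : Type*} [MeasurableSpace Ω]

/-- The first index after which the events are `2^{-j}`-close to one another (junk `0`). -/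
def fastIdx (μ : Measure Ω) (E : ℕ → Set Ω) (j : ℕ) : ℕ :=
  sInf {n | ∀ m m', n ≤ m → n ≤ m' → μ.real {ω | ¬ (ω ∈ E m ↔ ω ∈ E m')} ≤ (1 / 2) ^ j}

/-- The limit of the events along the canonical fast subsequence. -/
def limSet (μ : Measure Ω) (E : ℕ → Set Ω) : Set Ω :=
  {ω | ∃ j₀, ∀ j, j₀ ≤ j → ω ∈ E (fastIdx μ E j)}

theorem measurableSet_xor {A B : Set Ω} (hA : MeasurableSet A) (hB : MeasurableSet B) :
    MeasurableSet {ω | ¬ (ω ∈ A ↔ ω ∈ B)} := (hA.iff hB).compl

theorem measurableSet_limSet (μ : Measure Ω) {E : ℕ → Set Ω} (hE : ∀ n, MeasurableSet (E n)) :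
    MeasurableSet (limSet μ E) := by
  have : limSet μ E = ⋃ j₀, ⋂ j, ⋂ _ : j₀ ≤ j, E (fastIdx μ E j) := by
    ext; simp [limSet]
  rw [this]
  exact MeasurableSet.iUnion fun _ => MeasurableSet.iInter fun _ => MeasurableSet.iInter fun _ =>
    hE _

theorem real_xor_le (μ : Measure Ω) [IsFiniteMeasure μ] (A B C : Set Ω) :
    μ.real {ω | ¬ (ω ∈ A ↔ ω ∈ C)} ≤
      μ.real {ω | ¬ (ω ∈ A ↔ ω ∈ B)} + μ.real {ω | ¬ (ω ∈ B ↔ ω ∈ C)} := by
  refine (measureReal_mono ?_).trans (measureReal_union_le _ _)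
  intro ω h
  simp only [Set.mem_union, Set.mem_ofPred_eq] at h ⊢
  tauto

omit [MeasurableSpace Ω] in
theorem xor_comm_set (A B : Set Ω) : {ω | ¬ (ω ∈ A ↔ ω ∈ B)} = {ω | ¬ (ω ∈ B ↔ ω ∈ A)} := by
  ext; simp only [Set.mem_ofPred_eq]; tauto

theorem tendsto_limSet (μ : Measure Ω) [IsFiniteMeasure μ] {E : ℕ → Set Ω}
    (hE : Tendsto (fun p : ℕ × ℕ => μ.real {ω | ¬ (ω ∈ E p.1 ↔ ω ∈ E p.2)}) atTop (𝓝 0)) :
    Tendsto (fun m => μ.real {ω | ¬ (ω ∈ limSet μ E ↔ ω ∈ E m)}) atTop (𝓝 0) := by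
  have hspec : ∀ j m m', fastIdx μ E j ≤ m → fastIdx μ E j ≤ m' →
      μ.real {ω | ¬ (ω ∈ E m ↔ ω ∈ E m')} ≤ (1 / 2) ^ j := by
    intro j
    have hne : {n | ∀ m m', n ≤ m → n ≤ m' →
        μ.real {ω | ¬ (ω ∈ E m ↔ ω ∈ E m')} ≤ (1 / 2) ^ j}.Nonempty := by
      have := hE.eventually (eventually_le_nhds (show (0 : ℝ) < (1 / 2) ^ j by positivity))
      obtain ⟨p, hp⟩ := eventually_atTop.1 this
      exact ⟨max p.1 p.2, fun m m' hm hm' =>
        hp (m, m') ⟨(le_max_left _ _).trans hm, (le_max_right _ _).trans hm'⟩⟩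
    exact Nat.sInf_mem hne
  have hmono : ∀ j, fastIdx μ E j ≤ fastIdx μ E (j + 1) := by
    intro j
    refine Nat.sInf_le fun m m' hm hm' => (hspec (j + 1) m m' hm hm').trans ?_
    exact pow_le_pow_of_le_one (by norm_num) (by norm_num) (Nat.le_succ j)
  have hstep : ∀ j, μ.real {ω | ¬ (ω ∈ limSet μ E ↔ ω ∈ E (fastIdx μ E j))} ≤ 2 * (1 / 2) ^ j := by
    intro j
    have hsub : {ω | ¬ (ω ∈ limSet μ E ↔ ω ∈ E (fastIdx μ E j))} ⊆
        ⋃ l : ℕ, {ω | ¬ (ω ∈ E (fastIdx μ E (l + j)) ↔ ω ∈ E (fastIdx μ E (l + j + 1)))} := by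
      intro ω hω
      by_contra hcon
      simp only [Set.mem_iUnion, Set.mem_ofPred_eq, not_exists, not_not] at hcon
      have hall : ∀ l, ω ∈ E (fastIdx μ E (l + j)) ↔ ω ∈ E (fastIdx μ E j) := by
        intro l
        induction l with
        | zero => rw [zero_add]
        | succ l ih => rw [← ih, hcon l, show l + 1 + j = l + j + 1 by ring]
      apply hω
      constructor
      · rintro ⟨j₀, hj₀⟩
        exact (hall j₀).1 (hj₀ _ (Nat.le_add_right _ _))
      · intro h
        refine ⟨j, fun j' hj' => ?_⟩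
        obtain ⟨l, rfl⟩ := Nat.exists_eq_add_of_le' hj'
        exact (hall l).2 h
    have hsum : Summable fun l : ℕ => ((1 : ℝ) / 2) ^ (l + j) :=
      (summable_nat_add_iff j).2 summable_geometric_two
    have hle : μ (⋃ l : ℕ,
        {ω | ¬ (ω ∈ E (fastIdx μ E (l + j)) ↔ ω ∈ E (fastIdx μ E (l + j + 1)))}) ≤
        ENNReal.ofReal (2 * (1 / 2) ^ j) := by
      refine (measure_iUnion_le _).trans ?_
      have : (2 : ℝ) * (1 / 2) ^ j = ∑' l : ℕ, ((1 : ℝ) / 2) ^ (l + j) := by
        simp_rw [pow_add]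
        rw [tsum_mul_right, tsum_geometric_two]
      rw [this, ENNReal.ofReal_tsum_of_nonneg (fun _ => by positivity) hsum]
      refine ENNReal.tsum_le_tsum fun l => ?_
      rw [← ENNReal.ofReal_toReal (measure_ne_top μ _)]
      exact ENNReal.ofReal_le_ofReal (hspec (l + j) _ _ le_rfl (hmono _))
    exact ENNReal.toReal_le_of_le_ofReal (by positivity) ((measure_mono hsub).trans hle)
  rw [Metric.tendsto_atTop]
  intro ε hε
  obtain ⟨j, hj⟩ := exists_pow_lt_of_lt_one (show 0 < ε / 3 by positivity)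
    (show (1 : ℝ) / 2 < 1 by norm_num)
  refine ⟨fastIdx μ E j, fun m hm => ?_⟩
  rw [Real.dist_eq, sub_zero, abs_of_nonneg measureReal_nonneg]
  have h1 := real_xor_le μ (limSet μ E) (E (fastIdx μ E j)) (E m)
  have h2 := hstep j
  have h3 := hspec j _ _ le_rfl hm
  linarith

theorem limSet_preimage {Ω' : Type*} [MeasurableSpace Ω'] {μ : Measure Ω} {μ' : Measure Ω'}
    {φ : Ω → Ω'} (hφ : MeasurePreserving φ μ μ') {E : ℕ → Set Ω'}
    (hE : ∀ n, MeasurableSet (E n)) : limSet μ (fun n => φ ⁻¹' E n) = φ ⁻¹' limSet μ' E := by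
  have : fastIdx μ (fun n => φ ⁻¹' E n) = fastIdx μ' E := by
    funext j
    unfold fastIdx
    congr 1
    ext n
    simp only [Set.mem_ofPred_eq]
    refine forall₄_congr fun m m' _ _ => ?_
    rw [← hφ.measureReal_preimage (measurableSet_xor (hE m) (hE m')).nullMeasurableSet]
    rfl
  unfold limSet
  rw [this]
  rfl

theorem measurableSet_limSet_param {Θ : Type*} [MeasurableSpace Θ] (μ : Measure Ω)
    [IsFiniteMeasure μ] {E : Θ → ℕ → Set Ω}
    (hE : ∀ n, MeasurableSet {p : Θ × Ω | p.2 ∈ E p.1 n}) :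
    MeasurableSet {p : Θ × Ω | p.2 ∈ limSet μ (E p.1)} := by
  have h1 : ∀ m m', Measurable fun θ => μ.real {ω | ¬ (ω ∈ E θ m ↔ ω ∈ E θ m')} := fun m m' =>
    (measurable_measure_prodMk_left (ν := μ) (measurableSet_xor (hE m) (hE m'))).ennreal_toReal
  have h2 : ∀ j n, MeasurableSet {θ | ∀ m m', n ≤ m → n ≤ m' →
      μ.real {ω | ¬ (ω ∈ E θ m ↔ ω ∈ E θ m')} ≤ (1 / 2) ^ j} := by
    intro j n
    simp only [Set.ofPred_forall]
    exact MeasurableSet.iInter fun m => MeasurableSet.iInter fun m' => MeasurableSet.iInter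
      fun _ => MeasurableSet.iInter fun _ => measurableSet_le (h1 m m') measurable_const
  have h3 : ∀ j, Measurable fun θ => fastIdx μ (E θ) j := by
    intro j
    refine measurable_to_countable' fun n => ?_
    have : (fun θ => fastIdx μ (E θ) j) ⁻¹' {n} =
        ({θ | ∀ m m', n ≤ m → n ≤ m' →
          μ.real {ω | ¬ (ω ∈ E θ m ↔ ω ∈ E θ m')} ≤ (1 / 2) ^ j} ∩
        ⋂ k, ⋂ _ : k < n, {θ | ∀ m m', k ≤ m → k ≤ m' →
          μ.real {ω | ¬ (ω ∈ E θ m ↔ ω ∈ E θ m')} ≤ (1 / 2) ^ j}ᶜ) ∪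
        ((⋂ _ : n ≠ 0, ∅) ∩ ⋂ k, {θ | ∀ m m', k ≤ m → k ≤ m' →
          μ.real {ω | ¬ (ω ∈ E θ m ↔ ω ∈ E θ m')} ≤ (1 / 2) ^ j}ᶜ) := by
      ext θ
      simp only [Set.mem_preimage, Set.mem_singleton_iff, Set.mem_union, Set.mem_inter_iff,
        Set.mem_iInter, Set.mem_compl_iff, Set.mem_empty_iff_false]
      unfold fastIdx
      set T := {n | ∀ m m', n ≤ m → n ≤ m' →
        μ.real {ω | ¬ (ω ∈ E θ m ↔ ω ∈ E θ m')} ≤ (1 / 2) ^ j} with hT
      change sInf T = n ↔ (n ∈ T ∧ ∀ k, k < n → k ∉ T) ∨ ((n ≠ 0 → False) ∧ ∀ k, k ∉ T)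
      rcases T.eq_empty_or_nonempty with h | h
      · simp [h, eq_comm]
      · constructor
        · rintro rfl
          exact Or.inl ⟨Nat.sInf_mem h, fun k hk => Nat.notMem_of_lt_sInf hk⟩
        · rintro (⟨h1, h2⟩ | ⟨_, h2⟩)
          · refine le_antisymm (Nat.sInf_le h1) (not_lt.1 fun h3 => h2 _ h3 (Nat.sInf_mem h))
          · exact absurd h.some_mem (h2 _)
    rw [this]
    exact ((h2 j n).inter (MeasurableSet.iInter fun k => MeasurableSet.iInter fun _ =>
      (h2 j k).compl)).union ((MeasurableSet.iInter fun _ => MeasurableSet.empty).inter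
        (MeasurableSet.iInter fun k => (h2 j k).compl))
  have h4 : ∀ j, MeasurableSet {p : Θ × Ω | p.2 ∈ E p.1 (fastIdx μ (E p.1) j)} := by
    intro j
    have : {p : Θ × Ω | p.2 ∈ E p.1 (fastIdx μ (E p.1) j)} =
        ⋃ n, ({p : Θ × Ω | fastIdx μ (E p.1) j = n} ∩ {p : Θ × Ω | p.2 ∈ E p.1 n}) := by
      ext p; simp
    rw [this]
    exact MeasurableSet.iUnion fun n =>
      (measurableSet_eq_fun ((h3 j).comp measurable_fst) measurable_const).inter (hE n)
  have : {p : Θ × Ω | p.2 ∈ limSet μ (E p.1)} =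
      ⋃ j₀, ⋂ j, ⋂ _ : j₀ ≤ j, {p : Θ × Ω | p.2 ∈ E p.1 (fastIdx μ (E p.1) j)} := by
    ext; simp [limSet]
  rw [this]
  exact MeasurableSet.iUnion fun _ => MeasurableSet.iInter fun _ => MeasurableSet.iInter fun _ =>
    h4 _

theorem abs_real_forall_sub_le (μ : Measure Ω) [IsFiniteMeasure μ] {ι : Type*} (A : Finset ι)
    (X Y : ι → Set Ω) :
    |μ.real {ω | ∀ i ∈ A, ω ∈ X i} - μ.real {ω | ∀ i ∈ A, ω ∈ Y i}| ≤
      ∑ i ∈ A, μ.real {ω | ¬ (ω ∈ X i ↔ ω ∈ Y i)} := by
  have key : ∀ X Y : ι → Set Ω, μ.real {ω | ∀ i ∈ A, ω ∈ X i} - μ.real {ω | ∀ i ∈ A, ω ∈ Y i} ≤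
      ∑ i ∈ A, μ.real {ω | ¬ (ω ∈ X i ↔ ω ∈ Y i)} := by
    intro X Y
    have hsub : {ω | ∀ i ∈ A, ω ∈ X i} ⊆
        {ω | ∀ i ∈ A, ω ∈ Y i} ∪ ⋃ i ∈ A, {ω | ¬ (ω ∈ X i ↔ ω ∈ Y i)} := by
      intro ω hω
      by_contra hcon
      simp only [Set.mem_union, Set.mem_iUnion, Set.mem_ofPred_eq, not_or, not_exists,
        not_not] at hcon hω
      exact hcon.1 fun i hi => (hcon.2 i hi).1 (hω i hi)
    have := (measureReal_mono (μ := μ) hsub).trans ((measureReal_union_le _ _).trans
      (add_le_add le_rfl (measureReal_biUnion_finset_le A _)))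
    linarith
  rw [abs_le]
  refine ⟨?_, key X Y⟩
  have := key Y X
  simp_rw [xor_comm_set (Y _)] at this
  linarith

end Limit

/-! ### The bit as a function of one label per site -/

variable {V : Type*} [DecidableEq V]

/-- The key ordering the slots: by round first, then by the ordering label of the site. -/
def keyOf (t : V → I) : V × ℕ → ℝ := fun b => b.2 + (t b.1 : ℝ) / 2

omit [DecidableEq V] in
theorem keyOf_le (t : V → I) (a b : V × ℕ) (h : keyOf t b < keyOf t a) : b.2 ≤ a.2 := by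
  unfold keyOf at h
  have h1 := (t a.1).2.2
  have h2 := (t b.1).2.1
  have : (b.2 : ℝ) < a.2 + 1 := by linarith
  exact Nat.lt_succ_iff.1 (by exact_mod_cast this)

omit [DecidableEq V] in
theorem keyOf_injective {t : V → I} (ht : Function.Injective t) : Function.Injective (keyOf t) := by
  intro a b h
  unfold keyOf at h
  have h1 := (t a.1).2
  have h2 := (t b.1).2
  have e1 : (b.2 : ℝ) < a.2 + 1 := by linarith [h1.1, h1.2, h2.1, h2.2]
  have e2 : (a.2 : ℝ) < b.2 + 1 := by linarith [h1.1, h1.2, h2.1, h2.2]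
  have e : a.2 = b.2 := le_antisymm (Nat.lt_succ_iff.1 (by exact_mod_cast e2))
    (Nat.lt_succ_iff.1 (by exact_mod_cast e1))
  rw [e] at h
  exact Prod.ext (ht (Subtype.ext (by linarith))) e

/-- The labels for which the finite-volume rule puts a one at the site `i`. -/
def zbit (M : Finset V → ℝ) (F : Finset V) (K : ℕ) (i : V) : Set (V → I) :=
  {z | splitU z ∈ bitSet M F K (keyOf (splitT z)) i}

theorem measurableSet_bitSet_param {Θ : Type*} [MeasurableSpace Θ] {M : Θ → Finset V → ℝ}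
    (hM : ∀ A, Measurable fun θ => M θ A) (F : Finset V) (K : ℕ) (i : V) {t : Θ → V → I}
    (ht : Measurable t) {u : Θ → V × ℕ → I} (hu : Measurable u) :
    MeasurableSet {θ | u θ ∈ bitSet (M θ) F K (keyOf (t θ)) i} := by
  have hτ : ∀ b, Measurable fun θ => keyOf (t θ) b := fun b =>
    measurable_const.add ((measurable_subtype_coe.comp
      ((measurable_pi_apply b.1).comp ht)).div_const 2)
  exact measurableSet_lt measurable_const
    ((measurable_lratio i K).comp (measurable_samp hM (slots F K) hτ hu))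

theorem measurableSet_zbit_param {Θ : Type*} [MeasurableSpace Θ] {M : Θ → Finset V → ℝ}
    (hM : ∀ A, Measurable fun θ => M θ A) (F : Finset V) (K : ℕ) (i : V) {z : Θ → V → I}
    (hz : Measurable z) : MeasurableSet {θ | z θ ∈ zbit (M θ) F K i} :=
  measurableSet_bitSet_param hM F K i (measurable_splitT.comp hz) (measurable_splitU.comp hz)

theorem measurableSet_zbit (M : Finset V → ℝ) (F : Finset V) (K : ℕ) (i : V) :
    MeasurableSet (zbit M F K i) :=
  measurableSet_zbit_param (M := fun _ => M) (fun _ => measurable_const) F K i measurable_id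

theorem zbit_map {W : Type*} [DecidableEq W] (e : W ≃ V) (M : Finset V → ℝ) (F : Finset W)
    (K : ℕ) (i : W) : zbit M (F.map e.toEmbedding) K (e i) =
      (fun z : V → I => z ∘ e) ⁻¹' zbit (fun B => M (B.map e.toEmbedding)) F K i := by
  ext z
  have hs : slots (F.map e.toEmbedding) K = (slots F K).map (slotEquiv e).toEmbedding := by
    ext b
    rw [Finset.mem_map_equiv, mem_slots, mem_slots, Finset.mem_map_equiv]
    rfl
  have h := samp_map e M (slots F K) (keyOf (splitT z)) (splitU z)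
  simp only [zbit, bitSet, Set.mem_ofPred_eq, Set.mem_preimage]
  rw [hs]
  have : lratio (e i) K (samp M ((slots F K).map (slotEquiv e).toEmbedding) (keyOf (splitT z))
      (splitU z)) = lratio i K (samp (fun B => M (B.map e.toEmbedding)) (slots F K)
        (keyOf (splitT (z ∘ e))) (splitU (z ∘ e))) := by
    have h' : samp (fun B => M (B.map e.toEmbedding)) (slots F K)
        (keyOf (splitT (z ∘ e))) (splitU (z ∘ e)) = _ := h.symm
    rw [h']
    rfl
  rw [this]

omit [DecidableEq V] in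
theorem real_split_eq {D : Set ((V → I) × (V × ℕ → I))} (hD : MeasurableSet D) :
    (labelMeasure V).real {z | (splitT z, splitU z) ∈ D} =
      ∫ t, (labelMeasure (V × ℕ)).real {u | (t, u) ∈ D} ∂(labelMeasure V) := by
  have h1 := (measurePreserving_split (V := V)).measureReal_preimage hD.nullMeasurableSet
  rw [show {z | (splitT z, splitU z) ∈ D} = (fun z : V → I => (splitT z, splitU z)) ⁻¹' D from rfl,
    h1, measureReal_def, Measure.prod_apply hD,
    ← integral_toReal (measurable_measure_prodMk_left hD).aemeasurable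
      (Eventually.of_forall fun _ => measure_lt_top _ _)]
  rfl

variable [Countable V] (ν : Measure (V → Bool)) [IsProbabilityMeasure ν]

theorem zbit_cauchy (hν : TiltLip ν 4) (i : V) {F G : ℕ → Finset V} (hF : Tendsto F atTop atTop)
    (hG : Tendsto G atTop atTop) :
    Tendsto (fun p : ℕ × ℕ => (labelMeasure V).real
      {z | ¬ (z ∈ zbit (mom ν) (F p.1) p.1 i ↔ z ∈ zbit (mom ν) (G p.2) p.2 i)}) atTop (𝓝 0) := by
  have hD : ∀ p : ℕ × ℕ, MeasurableSet {q : (V → I) × (V × ℕ → I) |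
      ¬ (q.2 ∈ bitSet (mom ν) (F p.1) p.1 (keyOf q.1) i ↔
        q.2 ∈ bitSet (mom ν) (G p.2) p.2 (keyOf q.1) i)} := fun p =>
    ((measurableSet_bitSet_param (M := fun _ => mom ν) (fun _ => measurable_const) _ _ i
      measurable_fst measurable_snd).iff
    (measurableSet_bitSet_param (M := fun _ => mom ν) (fun _ => measurable_const) _ _ i
      measurable_fst measurable_snd)).compl
  have h1 : ∀ p : ℕ × ℕ, (labelMeasure V).real
      {z | ¬ (z ∈ zbit (mom ν) (F p.1) p.1 i ↔ z ∈ zbit (mom ν) (G p.2) p.2 i)} =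
      ∫ t, (labelMeasure (V × ℕ)).real {u | ¬ (u ∈ bitSet (mom ν) (F p.1) p.1 (keyOf t) i ↔
        u ∈ bitSet (mom ν) (G p.2) p.2 (keyOf t) i)} ∂(labelMeasure V) := fun p =>
    real_split_eq (hD p)
  simp_rw [h1]
  have h0 : (0 : ℝ) = ∫ _t, (0 : ℝ) ∂(labelMeasure V) := by simp
  rw [h0]
  refine tendsto_integral_filter_of_dominated_convergence (fun _ => 1)
    (Eventually.of_forall fun p => ?_) (Eventually.of_forall fun p => Eventually.of_forall
      fun t => ?_) (integrable_const _) ?_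
  · exact (measurable_measure_prodMk_left (ν := labelMeasure (V × ℕ))
      (hD p)).ennreal_toReal.aestronglyMeasurable
  · rw [Real.norm_eq_abs, abs_of_nonneg measureReal_nonneg]
    exact measureReal_le_one
  · filter_upwards [ae_injective_labels (V := V)] with t ht
    rw [Metric.tendsto_nhds]
    intro ε hε
    obtain ⟨E, K₀, h⟩ := bitSet_cauchy ν hν (keyOf_injective ht) (keyOf_le t) i
      (η := ε / 2) (by positivity)
    have t1 : Tendsto (fun p : ℕ × ℕ => p.1) atTop atTop := by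
      rw [← prod_atTop_atTop_eq]; exact tendsto_fst
    have t2 : Tendsto (fun p : ℕ × ℕ => p.2) atTop atTop := by
      rw [← prod_atTop_atTop_eq]; exact tendsto_snd
    filter_upwards [(hF.comp t1).eventually (eventually_ge_atTop E),
      (hG.comp t2).eventually (eventually_ge_atTop E), t1.eventually (eventually_ge_atTop K₀),
      t2.eventually (eventually_ge_atTop K₀)] with p h1 h2 h3 h4
    rw [Real.dist_eq, sub_zero, abs_of_nonneg measureReal_nonneg]
    exact (h _ _ _ _ h1 h2 h3 h4).trans_lt (by linarith)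

theorem abs_real_zbit_sub_mom_le {F A : Finset V} (hA : A ⊆ F) (K : ℕ) :
    |(labelMeasure V).real {z | ∀ i ∈ A, z ∈ zbit (mom ν) F K i} - mom ν A| ≤
      A.card * (2 * rho ^ K) := by
  have hD : MeasurableSet {q : (V → I) × (V × ℕ → I) |
      ∀ i ∈ A, q.2 ∈ bitSet (mom ν) F K (keyOf q.1) i} := by
    simp only [Set.ofPred_forall]
    exact Finset.measurableSet_biInter _ fun i _ =>
      measurableSet_bitSet_param (M := fun _ => mom ν) (fun _ => measurable_const) _ _ i
        measurable_fst measurable_snd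
  have h1 : (labelMeasure V).real {z | ∀ i ∈ A, z ∈ zbit (mom ν) F K i} =
      ∫ t, (labelMeasure (V × ℕ)).real {u | ∀ i ∈ A, u ∈ bitSet (mom ν) F K (keyOf t) i}
        ∂(labelMeasure V) := real_split_eq hD
  have hi : Integrable (fun t => (labelMeasure (V × ℕ)).real
      {u | ∀ i ∈ A, u ∈ bitSet (mom ν) F K (keyOf t) i}) (labelMeasure V) :=
    integrable_of_abs_le (measurable_measure_prodMk_left (ν := labelMeasure (V × ℕ))
      hD).ennreal_toReal 1 fun t => by
        rw [abs_of_nonneg measureReal_nonneg]; exact measureReal_le_one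
  have h2 : mom ν A = ∫ _t, mom ν A ∂(labelMeasure V) := by simp
  rw [h1, h2, ← integral_sub hi (integrable_const _), ← Real.norm_eq_abs]
  refine (norm_integral_le_of_norm_le_const (C := A.card * (2 * rho ^ K)) ?_).trans (by simp)
  filter_upwards [ae_injective_labels (V := V)] with t ht
  exact abs_real_sub_mom_le ν (keyOf_injective ht) hA K

/-- Events that are limits of the finite-volume bits have the moments of the law. -/
theorem real_forall_eq_mom (hν : TiltLip ν 4) (L : V → Set (V → I)) (F : V → ℕ → Finset V)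
    (hF : ∀ i, Tendsto (F i) atTop atTop)
    (hL : ∀ i, Tendsto (fun m => (labelMeasure V).real
      {z | ¬ (z ∈ L i ↔ z ∈ zbit (mom ν) (F i m) m i)}) atTop (𝓝 0)) (A : Finset V) :
    (labelMeasure V).real {z | ∀ i ∈ A, z ∈ L i} = mom ν A := by
  obtain ⟨G, hG⟩ := exists_seq_tendsto (atTop : Filter (Finset V))
  have h1 : ∀ i, Tendsto (fun m => (labelMeasure V).real
      {z | ¬ (z ∈ L i ↔ z ∈ zbit (mom ν) (G m) m i)}) atTop (𝓝 0) := by
    intro i
    have t : Tendsto (fun m : ℕ => (m, m)) atTop atTop := by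
      rw [← prod_atTop_atTop_eq]; exact tendsto_id.prodMk tendsto_id
    have h2 := (hL i).add ((zbit_cauchy ν hν i (hF i) hG).comp t)
    rw [add_zero] at h2
    exact squeeze_zero (fun _ => measureReal_nonneg) (fun m => real_xor_le _ _ _ _) h2
  have h2 : Tendsto (fun m => ∑ i ∈ A, (labelMeasure V).real
      {z | ¬ (z ∈ L i ↔ z ∈ zbit (mom ν) (G m) m i)} + A.card * (2 * rho ^ m)) atTop (𝓝 0) := by
    have t1 := tendsto_finsetSum A fun i _ => h1 i
    have t2 := ((tendsto_pow_atTop_nhds_zero_of_lt_one rho_pos.le rho_lt_one).const_mul 2).const_mul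
      (A.card : ℝ)
    simpa using t1.add t2
  rw [← sub_eq_zero, ← abs_nonpos_iff]
  refine ge_of_tendsto h2 ?_
  filter_upwards [hG.eventually (eventually_ge_atTop A)] with m hm
  exact (abs_sub_le _ _ _).trans (add_le_add (abs_real_forall_sub_le _ A _ _)
    (abs_real_zbit_sub_mom_le ν hm m))

end Crest.Agent.R168

end
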