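import Crest.Agent.R168.Law

/-!
Finite-volume samplers form a Cauchy family, for a fixed ordering of the slots.
-/

set_option autoImplicit false

open MeasureTheory unitInterval Filter Topology
open Crest.ProbabilityR Crest.ProbabilityR.Labels

noncomputable section

namespace Crest.Agent.R168

variable {V : Type*} [DecidableEq V]
variable (ν : Measure (V → Bool)) [IsProbabilityMeasure ν]

theorem real_samp_eq {τ : V × ℕ → ℝ} (hτ : Function.Injective τ) (J : Finset (V × ℕ))
    {E : Set (V × ℕ → I)} (hE : MeasurableSet E) :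
    (labelMeasure (V × ℕ)).real (samp (mom ν) J τ ⁻¹' E) =
      ∫ s, E.indicator 1 s * dens ν J ∅ s ∂(labelMeasure (V × ℕ)) := by
  rw [← integral_samp ν hτ J (measurable_one.indicator hE) 1 (fun s => by
    by_cases h : s ∈ E <;> simp [h]),
    ← integral_indicator_one (measurable_samp_fixed (mom ν) J τ hE)]
  rfl

theorem real_samp_le {τ : V × ℕ → ℝ} (hτ : Function.Injective τ) (J : Finset (V × ℕ))
    {E : Set (V × ℕ → I)} (hE : MeasurableSet E) {g : (V × ℕ → I) → ℝ}
    (hg : Integrable g (labelMeasure (V × ℕ))) (hg0 : ∀ s, 0 ≤ g s)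
    (hle : ∀ s ∈ E, dens ν J ∅ s ≤ g s) :
    (labelMeasure (V × ℕ)).real (samp (mom ν) J τ ⁻¹' E) ≤ ∫ s, g s ∂(labelMeasure (V × ℕ)) := by
  rw [real_samp_eq ν hτ J hE]
  refine integral_mono (integrable_of_abs_le ((measurable_one.indicator hE).mul
    (measurable_dens ν J ∅)) (1 * _) fun s => abs_mul_le_mul_of (by
      by_cases h : s ∈ E <;> simp [h]) (abs_dens_le ν J ∅ s)) hg fun s => ?_
  by_cases h : s ∈ E
  · simpa [h] using hle s h
  · simpa [h] using hg0 s

omit [DecidableEq V] in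
theorem bad_nonneg (J : Finset (V × ℕ)) (i : V) (K : ℕ) (s : V × ℕ → I) : 0 ≤ bad ν J i K s := by
  have h1 := dens_nonneg ν J {i} s
  have h2 := sub_nonneg.2 (dens_le_dens_empty ν J {i} s)
  unfold bad
  split_ifs <;> linarith

omit [DecidableEq V] [IsProbabilityMeasure ν] in
theorem le_bad_of_half_le (J : Finset (V × ℕ)) {i : V} {K : ℕ} {s : V × ℕ → I}
    (h : 1 / 2 ≤ lratio i K s) : dens ν J ∅ s - dens ν J {i} s ≤ bad ν J i K s := by
  have h1 := dens_nonneg ν J {i} s
  unfold bad
  rw [if_pos h]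
  split_ifs <;> linarith

omit [DecidableEq V] in
theorem le_bad_of_le_two (J : Finset (V × ℕ)) {i : V} {K : ℕ} {s : V × ℕ → I}
    (h : lratio i K s ≤ 2) : dens ν J {i} s ≤ bad ν J i K s := by
  have h2 := sub_nonneg.2 (dens_le_dens_empty ν J {i} s)
  unfold bad
  rw [if_pos h]
  split_ifs <;> linarith

omit [DecidableEq V] in
theorem measurableSet_one_lt_lratio (i : V) (K : ℕ) :
    MeasurableSet {s : V × ℕ → I | 1 < lratio i K s} :=
  measurableSet_lt measurable_const (measurable_lratio i K)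

/-- Decoding after `K` or after `K₀` rounds rarely differs. -/
theorem real_rounds_le {τ : V × ℕ → ℝ} (hτ : Function.Injective τ) {J : Finset (V × ℕ)} {i : V}
    {K K₀ : ℕ} (hK : slots {i} K ⊆ J) (hK₀ : slots {i} K₀ ⊆ J) :
    (labelMeasure (V × ℕ)).real {u | ¬ (1 < lratio i K (samp (mom ν) J τ u) ↔
      1 < lratio i K₀ (samp (mom ν) J τ u))} ≤ 2 * rho ^ K + 2 * rho ^ K₀ := by
  have hE : MeasurableSet {s : V × ℕ → I | ¬ (1 < lratio i K s ↔ 1 < lratio i K₀ s)} :=
    ((measurableSet_one_lt_lratio i K).iff (measurableSet_one_lt_lratio i K₀)).compl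
  refine (real_samp_le ν hτ J hE ((integrable_bad ν J i K).add (integrable_bad ν J i K₀))
    (fun s => add_nonneg (bad_nonneg ν J i K s) (bad_nonneg ν J i K₀ s)) fun s hs => ?_).trans ?_
  · simp only [Set.mem_ofPred_eq] at hs
    by_cases h : 1 < lratio i K s
    · have h' : ¬ 1 < lratio i K₀ s := fun h' => hs (iff_of_true h h')
      have h1 := le_bad_of_half_le ν J (i := i) (K := K) (s := s) (by linarith)
      have h2 := le_bad_of_le_two ν J (i := i) (K := K₀) (s := s) (by linarith [not_lt.1 h'])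
      simp only [Pi.add_apply]; linarith
    · have h' : 1 < lratio i K₀ s := by
        by_contra h'
        exact hs (iff_of_false h h')
      have h1 := le_bad_of_half_le ν J (i := i) (K := K₀) (s := s) (by linarith)
      have h2 := le_bad_of_le_two ν J (i := i) (K := K) (s := s) (by linarith [not_lt.1 h])
      simp only [Pi.add_apply]; linarith
  · simp only [Pi.add_apply]
    rw [integral_add (integrable_bad ν J i K) (integrable_bad ν J i K₀)]
    exact add_le_add (integral_bad_le ν hK) (integral_bad_le ν hK₀)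

/-- The likelihood ratio is rarely in the margin `[1/2, 2]`. -/
theorem real_margin_le {τ : V × ℕ → ℝ} (hτ : Function.Injective τ) {J : Finset (V × ℕ)} {i : V}
    {K : ℕ} (hK : slots {i} K ⊆ J) :
    (labelMeasure (V × ℕ)).real {u | 1 / 2 ≤ lratio i K (samp (mom ν) J τ u) ∧
      lratio i K (samp (mom ν) J τ u) ≤ 2} ≤ 2 * rho ^ K := by
  have hE : MeasurableSet {s : V × ℕ → I | 1 / 2 ≤ lratio i K s ∧ lratio i K s ≤ 2} :=
    (measurableSet_le measurable_const (measurable_lratio i K)).inter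
      (measurableSet_le (measurable_lratio i K) measurable_const)
  refine (real_samp_le ν hτ J hE (integrable_bad ν J i K)
    (fun s => bad_nonneg ν J i K s) fun s hs => ?_).trans (integral_bad_le ν hK)
  unfold bad
  rw [if_pos hs.1, if_pos hs.2]
  linarith

omit [DecidableEq V] in
theorem bad_eq_integral (J : Finset (V × ℕ)) (i : V) (K : ℕ) (s : V × ℕ → I) :
    bad ν J i K s = ∫ x, ((if 1 / 2 ≤ lratio i K s then 1 else 0) * (1 - bitVal (x i)) +
      (if lratio i K s ≤ 2 then 1 else 0) * bitVal (x i)) * lik J x s ∂ν := by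
  unfold bad dens
  have i0 := integrable_ind_mul_lik ν J ∅ s
  have i1 := integrable_ind_mul_lik ν J {i} s
  have i2 : Integrable (fun x => ind ∅ x * lik J x s - ind {i} x * lik J x s) ν := i0.sub i1
  rw [← integral_sub i0 i1, ← integral_const_mul, ← integral_const_mul,
    ← integral_add (i2.const_mul _) (i1.const_mul _)]
  congr 1
  funext x
  rw [ind_empty, ind_singleton]
  ring

omit [DecidableEq V] in
theorem abs_indicator_dens_sub_le (J : Finset (V × ℕ)) (A : Finset V) (K : ℕ) (s : V × ℕ → I) :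
    |{s : V × ℕ → I | ∀ i ∈ A, 1 < lratio i K s}.indicator 1 s * dens ν J ∅ s - dens ν J A s| ≤
      ∑ i ∈ A, bad ν J i K s := by
  set c : ℝ := {s : V × ℕ → I | ∀ i ∈ A, 1 < lratio i K s}.indicator 1 s with hc
  set w : V → (V → Bool) → ℝ := fun i x =>
    (if 1 / 2 ≤ lratio i K s then 1 else 0) * (1 - bitVal (x i)) +
      (if lratio i K s ≤ 2 then 1 else 0) * bitVal (x i) with hw
  have hw0 : ∀ i x, 0 ≤ w i x := by
    intro i x
    have := bitVal_nonneg (x i)
    have := bitVal_le_one (x i)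
    simp only [hw]
    split_ifs <;> linarith
  have hw2 : ∀ i x, |w i x| ≤ 2 := by
    intro i x
    have := bitVal_nonneg (x i)
    have := bitVal_le_one (x i)
    rw [abs_of_nonneg (hw0 i x)]
    simp only [hw]
    split_ifs <;> linarith
  have hwm : ∀ i, Measurable (w i) := fun i =>
    (measurable_const.mul (measurable_const.sub (measurable_bitVal_apply i))).add
      (measurable_const.mul (measurable_bitVal_apply i))
  have hwi : ∀ i, Integrable (fun x => w i x * lik J x s) ν := fun i =>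
    integrable_of_abs_le ((hwm i).mul (measurable_lik J s)) (2 * 2 ^ J.card) fun x =>
      abs_mul_le_mul_of (hw2 i x) (by rw [abs_of_pos (lik_pos J x s)]; exact lik_le J x s)
  have hpt : ∀ x, |c - ind A x| ≤ ∑ i ∈ A, w i x := by
    intro x
    have hsum : 0 ≤ ∑ i ∈ A, w i x := Finset.sum_nonneg fun i _ => hw0 i x
    have hone : ∀ i ∈ A, 1 ≤ w i x → 1 ≤ ∑ i ∈ A, w i x := fun i hi h =>
      h.trans (Finset.single_le_sum (fun j _ => hw0 j x) hi)
    rw [ind_eq]
    by_cases h1 : ∀ i ∈ A, 1 < lratio i K s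
    · have hc1 : c = 1 := by rw [hc, Set.indicator_of_mem (by exact h1)]; rfl
      by_cases h2 : ∀ i ∈ A, x i = true
      · rw [Set.indicator_of_mem (by exact h2), hc1]; simpa using hsum
      · rw [Set.indicator_of_notMem (by exact h2), hc1]
        push Not at h2
        obtain ⟨i, hi, hx⟩ := h2
        have : 1 ≤ w i x := by
          have h3 : 1 / 2 ≤ lratio i K s := by linarith [h1 i hi]
          simp only [hw, if_pos h3]
          simp [bitVal, hx]
        simpa using hone i hi this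
    · have hc0 : c = 0 := by rw [hc, Set.indicator_of_notMem (by exact h1)]
      by_cases h2 : ∀ i ∈ A, x i = true
      · rw [Set.indicator_of_mem (by exact h2), hc0]
        push Not at h1
        obtain ⟨i, hi, hx⟩ := h1
        have : 1 ≤ w i x := by
          have h3 : lratio i K s ≤ 2 := by linarith
          simp only [hw, if_pos h3]
          simp [bitVal, h2 i hi]
        simpa using hone i hi this
      · rw [Set.indicator_of_notMem (by exact h2), hc0]; simpa using hsum
  have i0 := integrable_ind_mul_lik ν J ∅ s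
  have i1 := integrable_ind_mul_lik ν J A s
  simp_rw [bad_eq_integral]
  rw [← integral_finsetSum _ fun i _ => hwi i]
  unfold dens
  rw [← integral_const_mul, ← integral_sub (i0.const_mul c) i1]
  refine (abs_integral_le_integral_abs).trans (integral_mono ((i0.const_mul c).sub i1).abs
    (integrable_finsetSum _ fun i _ => hwi i) fun x => ?_)
  have hl := (lik_pos J x s).le
  simp only [ind_empty, one_mul]
  rw [← sub_mul, abs_mul, abs_of_nonneg hl, ← Finset.sum_mul]
  exact mul_le_mul_of_nonneg_right (hpt x) hl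

omit [DecidableEq V] in
theorem measurableSet_forall_one_lt_lratio (A : Finset V) (K : ℕ) :
    MeasurableSet {s : V × ℕ → I | ∀ i ∈ A, 1 < lratio i K s} := by
  have : {s : V × ℕ → I | ∀ i ∈ A, 1 < lratio i K s} = ⋂ i ∈ A, {s | 1 < lratio i K s} := by
    ext; simp
  rw [this]
  exact Finset.measurableSet_biInter _ fun i _ => measurableSet_one_lt_lratio i K

/-- The decoded bits have nearly the right moments. -/
theorem abs_real_sub_mom_le {τ : V × ℕ → ℝ} (hτ : Function.Injective τ) {F A : Finset V}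
    (hA : A ⊆ F) (K : ℕ) :
    |(labelMeasure (V × ℕ)).real {u | ∀ i ∈ A, 1 < lratio i K (samp (mom ν) (slots F K) τ u)} -
      mom ν A| ≤ A.card * (2 * rho ^ K) := by
  have hE := measurableSet_forall_one_lt_lratio A K
  have h1 := real_samp_eq ν hτ (slots F K) hE
  have i0 : Integrable (fun s => {s : V × ℕ → I | ∀ i ∈ A, 1 < lratio i K s}.indicator 1 s *
      dens ν (slots F K) ∅ s) (labelMeasure (V × ℕ)) :=
    integrable_of_abs_le ((measurable_one.indicator hE).mul
      (measurable_dens ν _ ∅)) (1 * _) fun s => abs_mul_le_mul_of (by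
        by_cases h : s ∈ {s : V × ℕ → I | ∀ i ∈ A, 1 < lratio i K s}
        · rw [Set.indicator_of_mem h]; simp
        · rw [Set.indicator_of_notMem h]; simp) (abs_dens_le ν _ ∅ s)
  have i1 : Integrable (dens ν (slots F K) A) (labelMeasure (V × ℕ)) :=
    integrable_of_abs_le (measurable_dens ν _ _) _ (abs_dens_le ν _ _)
  rw [show {u | ∀ i ∈ A, 1 < lratio i K (samp (mom ν) (slots F K) τ u)} =
    samp (mom ν) (slots F K) τ ⁻¹' {s : V × ℕ → I | ∀ i ∈ A, 1 < lratio i K s} from rfl, h1,
    ← integral_dens ν (slots F K) A, ← integral_sub i0 i1]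
  refine (abs_integral_le_integral_abs).trans ((integral_mono (i0.sub i1).abs
    (integrable_finsetSum _ fun i _ => integrable_bad ν (slots F K) i K)
    fun s => abs_indicator_dens_sub_le ν _ A K s).trans ?_)
  rw [integral_finsetSum _ fun i _ => integrable_bad ν (slots F K) i K, ← nsmul_eq_mul,
    ← Finset.sum_const]
  exact Finset.sum_le_sum fun i hi =>
    integral_bad_le ν (slots_mono (Finset.singleton_subset_iff.2 (hA hi)) le_rfl)

/-! ### The contraction -/

/-- The change of the posterior mean at the slot `a` when the volume shrinks from `F` to `E`. -/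
def err (ν : Measure (V → Bool)) (τ : V × ℕ → ℝ) (K : ℕ) (F E : Finset V) (a : V × ℕ)
    (s : V × ℕ → I) : ℝ :=
  |post ν (past (slots F K) τ a) a.1 s - post ν (past (slots E K) τ a) a.1 s|

omit [DecidableEq V] in
theorem measurable_err (τ : V × ℕ → ℝ) (K : ℕ) (F E : Finset V) (a : V × ℕ) :
    Measurable (err ν τ K F E a) :=
  ((measurable_post ν _ _).sub (measurable_post ν _ _)).abs

omit [DecidableEq V] in
theorem abs_err_le (τ : V × ℕ → ℝ) (K : ℕ) (F E : Finset V) (a : V × ℕ) (s : V × ℕ → I) :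
    |err ν τ K F E a s| ≤ 1 := by
  unfold err; rw [abs_abs]; exact abs_post_sub_le ν _ _ _ s s

theorem contraction_step (hν : TiltLip ν 4) {τ : V × ℕ → ℝ}
    (hτk : ∀ a b : V × ℕ, τ b < τ a → b.2 ≤ a.2) {K : ℕ} {F F' E : Finset V} (u : V × ℕ → I)
    {B : ℝ} (hB : 0 ≤ B)
    (h : ∀ b ∈ slots E K, (1 / 2) ^ b.2 * |(samp (mom ν) (slots F K) τ u b : ℝ) -
      samp (mom ν) (slots F' K) τ u b| ≤ B)
    {a : V × ℕ} (ha : a ∈ slots F K) (ha' : a ∈ slots F' K) :
    (1 / 2) ^ a.2 * |(samp (mom ν) (slots F K) τ u a : ℝ) - samp (mom ν) (slots F' K) τ u a| ≤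
      err ν τ K F E a (samp (mom ν) (slots F K) τ u) +
        err ν τ K F' E a (samp (mom ν) (slots F' K) τ u) + B / 2 := by
  set S := samp (mom ν) (slots F K) τ u with hS
  set S' := samp (mom ν) (slots F' K) τ u with hS'
  have e1 : S a = quant (post ν (past (slots F K) τ a) a.1 S) (u a) := by
    rw [hS, samp_of_mem _ τ u ha, postM_mom]
  have e2 : S' a = quant (post ν (past (slots F' K) τ a) a.1 S') (u a) := by
    rw [hS', samp_of_mem _ τ u ha', postM_mom]
  have h1 : |(S a : ℝ) - S' a| ≤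
      |post ν (past (slots F K) τ a) a.1 S - post ν (past (slots F' K) τ a) a.1 S'| / 12 := by
    rw [e1, e2]
    exact abs_quant_sub_le (post_nonneg ν _ _ _) (post_le_one ν _ _ _) (post_nonneg ν _ _ _)
      (post_le_one ν _ _ _) _
  have h2 : |post ν (past (slots E K) τ a) a.1 S - post ν (past (slots E K) τ a) a.1 S'| ≤
      4 * (2 / 3 * (2 ^ (a.2 + 1) * B)) := by
    refine abs_post_sub_post_le ν hν _ _ _ _ (by positivity) fun j => ?_
    have hb : ∀ b ∈ (past (slots E K) τ a).filter (fun b => b.1 = j),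
        |(S b : ℝ) - S' b| ≤ 2 ^ b.2 * B := by
      intro b hb
      have h3 := h b (Finset.mem_filter.1 (Finset.mem_filter.1 hb).1).1
      have h4 : (0 : ℝ) < 2 ^ b.2 := by positivity
      rw [one_div, inv_pow, inv_mul_le_iff₀ h4] at h3
      exact h3
    refine (Finset.sum_le_sum hb).trans ?_
    rw [← Finset.sum_mul]
    refine mul_le_mul_of_nonneg_right ?_ hB
    have hinj : Set.InjOn Prod.snd
        (((past (slots E K) τ a).filter (fun b => b.1 = j) : Finset (V × ℕ)) : Set (V × ℕ)) := by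
      intro b hb c hc hbc
      exact Prod.ext ((Finset.mem_filter.1 hb).2.trans (Finset.mem_filter.1 hc).2.symm) hbc
    rw [← Finset.sum_image (f := fun l : ℕ => (2 : ℝ) ^ l) hinj]
    refine (Finset.sum_le_sum_of_subset_of_nonneg (t := Finset.range (a.2 + 1)) ?_
      fun _ _ _ => by positivity).trans ?_
    · intro l hl
      obtain ⟨b, hb, rfl⟩ := Finset.mem_image.1 hl
      exact Finset.mem_range.2 (Nat.lt_succ_of_le
        (hτk a b (Finset.mem_filter.1 (Finset.mem_filter.1 hb).1).2))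
    · rw [geom_sum_eq (by norm_num)]
      norm_num
  have h3 : |post ν (past (slots F K) τ a) a.1 S - post ν (past (slots F' K) τ a) a.1 S'| ≤
      err ν τ K F E a S + err ν τ K F' E a S' + 4 * (2 / 3 * (2 ^ (a.2 + 1) * B)) := by
    unfold err
    have t1 := abs_sub_le (post ν (past (slots F K) τ a) a.1 S)
      (post ν (past (slots E K) τ a) a.1 S) (post ν (past (slots F' K) τ a) a.1 S')
    have t2 := abs_sub_le (post ν (past (slots E K) τ a) a.1 S)
      (post ν (past (slots E K) τ a) a.1 S') (post ν (past (slots F' K) τ a) a.1 S')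
    rw [abs_sub_comm (post ν (past (slots E K) τ a) a.1 S')] at t2
    linarith
  have h4 : (0 : ℝ) ≤ (1 / 2) ^ a.2 := by positivity
  have h5 : ((1 : ℝ) / 2) ^ a.2 ≤ 1 := pow_le_one₀ (by norm_num) (by norm_num)
  have h6 : ((1 : ℝ) / 2) ^ a.2 * 2 ^ (a.2 + 1) = 2 := by
    rw [pow_succ, ← mul_assoc, ← mul_pow]; norm_num
  have h7 : 0 ≤ err ν τ K F E a S := abs_nonneg _
  have h8 : 0 ≤ err ν τ K F' E a S' := abs_nonneg _
  calc (1 / 2) ^ a.2 * |(S a : ℝ) - S' a|
      ≤ (1 / 2) ^ a.2 * ((err ν τ K F E a S + err ν τ K F' E a S' +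
          4 * (2 / 3 * (2 ^ (a.2 + 1) * B))) / 12) :=
        mul_le_mul_of_nonneg_left (h1.trans (by linarith)) h4
    _ = (1 / 2) ^ a.2 * (err ν τ K F E a S + err ν τ K F' E a S') / 12 +
          2 / 9 * (((1 / 2) ^ a.2 * 2 ^ (a.2 + 1)) * B) := by ring
    _ ≤ err ν τ K F E a S + err ν τ K F' E a S' + B / 2 := by
        rw [h6]
        nlinarith

theorem eventually_sub_le_of_monotone {g : Finset V → ℝ} (hg : Monotone g) (hb : ∀ F, g F ≤ 1)
    {η : ℝ} (hη : 0 < η) : ∀ᶠ E in atTop, ∀ F, E ⊆ F → g F - g E ≤ η := by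
  have hbdd : BddAbove (Set.range g) := ⟨1, by rintro _ ⟨F, rfl⟩; exact hb F⟩
  obtain ⟨F₀, hF₀⟩ := exists_lt_of_lt_ciSup (show (⨆ F, g F) - η < ⨆ F, g F by linarith)
  filter_upwards [eventually_ge_atTop F₀] with E hE F _
  have h1 := le_ciSup hbdd F
  have h2 := hg hE
  linarith

omit [DecidableEq V] in
theorem past_mono {J J' : Finset (V × ℕ)} (h : J ⊆ J') (τ : V × ℕ → ℝ) (a : V × ℕ) :
    past J τ a ⊆ past J' τ a := Finset.filter_subset_filter _ h

theorem exists_superset_err {τ : V × ℕ → ℝ} (hτ : Function.Injective τ) (K : ℕ) (E : Finset V)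
    {η : ℝ} (hη : 0 < η) : ∃ E₁, E ⊆ E₁ ∧ ∀ F, E₁ ⊆ F →
      ∫ u, ∑ a ∈ slots E K, err ν τ K F E₁ a (samp (mom ν) (slots F K) τ u)
        ∂(labelMeasure (V × ℕ)) ≤ η := by
  set η' : ℝ := η / (2 * ((slots E K).card + 1)) with hη'
  have hη'0 : 0 < η' := by positivity
  have h1 : ∀ᶠ E₁ in atTop, ∀ a ∈ slots E K, ∀ F, E₁ ⊆ F →
      energy ν (past (slots F K) τ a) a.1 - energy ν (past (slots E₁ K) τ a) a.1 ≤ η' ^ 2 := by
    rw [eventually_all_finset]
    intro a _
    exact eventually_sub_le_of_monotone (g := fun F => energy ν (past (slots F K) τ a) a.1)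
      (fun F F' h => energy_mono ν (past_mono (slots_mono h le_rfl) τ a) a.1)
      (fun F => energy_le_one ν _ _) (by positivity)
  obtain ⟨E₁, hE₁, hE₁'⟩ := ((eventually_ge_atTop E).and h1).exists
  refine ⟨E₁, hE₁, fun F hF => ?_⟩
  rw [integral_finsetSum (f := fun a u => err ν τ K F E₁ a (samp (mom ν) (slots F K) τ u)) _
    fun a _ => integrable_of_abs_le
    ((measurable_err ν τ K F E₁ a).comp (measurable_samp_fixed _ _ _)) 1
    fun u => abs_err_le ν τ K F E₁ a _]
  have h2 : ∀ a ∈ slots E K, ∫ u, err ν τ K F E₁ a (samp (mom ν) (slots F K) τ u)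
      ∂(labelMeasure (V × ℕ)) ≤ 2 * η' := by
    intro a ha
    rw [integral_samp ν hτ _ (measurable_err ν τ K F E₁ a) 1 (abs_err_le ν τ K F E₁ a)]
    refine (integral_abs_post_sub_le ν (past_mono (slots_mono hF le_rfl) τ a)
      (Finset.filter_subset _ _) a.1 hη'0).trans ?_
    have := hE₁' a ha F hF
    have h3 : (energy ν (past (slots F K) τ a) a.1 - energy ν (past (slots E₁ K) τ a) a.1) / η' ≤
        η' := by
      rw [div_le_iff₀ hη'0]; nlinarith
    linarith
  refine (Finset.sum_le_sum h2).trans ?_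
  rw [Finset.sum_const, nsmul_eq_mul, hη']
  have h4 : (0 : ℝ) ≤ (slots E K).card := Nat.cast_nonneg _
  rw [show ((slots E K).card : ℝ) * (2 * (η / (2 * ((slots E K).card + 1)))) =
    η * ((slots E K).card / ((slots E K).card + 1)) by field_simp]
  exact mul_le_of_le_one_right hη.le ((div_le_one (by positivity)).2 (by linarith))

theorem exists_superset_close (hν : TiltLip ν 4) {τ : V × ℕ → ℝ} (hτ : Function.Injective τ)
    (hτk : ∀ a b : V × ℕ, τ b < τ a → b.2 ≤ a.2) (K n : ℕ) (E : Finset V) {η : ℝ} (hη : 0 < η) :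
    ∃ E₁, E ⊆ E₁ ∧ ∀ F F', E₁ ⊆ F → E₁ ⊆ F' → ∃ e : (V × ℕ → I) → ℝ,
      Integrable e (labelMeasure (V × ℕ)) ∧ (∀ u, 0 ≤ e u) ∧
      ∫ u, e u ∂(labelMeasure (V × ℕ)) ≤ η ∧ ∀ u, ∀ a ∈ slots E K,
        (1 / 2) ^ a.2 * |(samp (mom ν) (slots F K) τ u a : ℝ) - samp (mom ν) (slots F' K) τ u a| ≤
          e u + (1 / 2) ^ n := by
  induction n generalizing E η with
  | zero =>
    refine ⟨E, subset_rfl, fun F F' _ _ => ⟨fun _ => 0, integrable_const _, fun _ => le_rfl,
      by simpa using hη.le, fun u a _ => ?_⟩⟩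
    have h1 := (samp (mom ν) (slots F K) τ u a).2
    have h2 := (samp (mom ν) (slots F' K) τ u a).2
    rw [zero_add, pow_zero]
    refine mul_le_one₀ (pow_le_one₀ (by norm_num) (by norm_num)) (abs_nonneg _) ?_
    rw [abs_le]; constructor <;> linarith [h1.1, h1.2, h2.1, h2.2]
  | succ n ih =>
    obtain ⟨E₁, hE₁, h₁⟩ := exists_superset_err ν hτ K E (η := η / 4) (by positivity)
    obtain ⟨E₂, hE₂, h₂⟩ := ih E₁ hη
    refine ⟨E₂, hE₁.trans hE₂, fun F F' hF hF' => ?_⟩
    obtain ⟨e, hei, he0, heη, he⟩ := h₂ F F' hF hF'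
    have hi : ∀ G : Finset V, Integrable
        (fun u => ∑ a ∈ slots E K, err ν τ K G E₁ a (samp (mom ν) (slots G K) τ u))
        (labelMeasure (V × ℕ)) := fun G =>
      integrable_finsetSum _ fun a _ => integrable_of_abs_le
        ((measurable_err ν τ K G E₁ a).comp (measurable_samp_fixed _ _ _)) 1
        fun u => abs_err_le ν τ K G E₁ a _
    have hi2 : Integrable
        (fun u => ∑ a ∈ slots E K, err ν τ K F E₁ a (samp (mom ν) (slots F K) τ u) +
          ∑ a ∈ slots E K, err ν τ K F' E₁ a (samp (mom ν) (slots F' K) τ u))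
        (labelMeasure (V × ℕ)) := (hi F).add (hi F')
    refine ⟨fun u => ∑ a ∈ slots E K, err ν τ K F E₁ a (samp (mom ν) (slots F K) τ u) +
      ∑ a ∈ slots E K, err ν τ K F' E₁ a (samp (mom ν) (slots F' K) τ u) + e u / 2,
      hi2.add (hei.div_const 2), fun u => ?_, ?_, fun u a ha => ?_⟩
    · have := he0 u
      refine add_nonneg (add_nonneg ?_ ?_) (by positivity) <;>
        exact Finset.sum_nonneg fun a _ => abs_nonneg _
    · rw [integral_add hi2 (hei.div_const 2), integral_add (hi F) (hi F'), integral_div]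
      have t1 := h₁ F (hE₂.trans hF)
      have t2 := h₁ F' (hE₂.trans hF')
      linarith
    · have hB : 0 ≤ e u + (1 / 2) ^ n := add_nonneg (he0 u) (by positivity)
      have t := contraction_step ν hν hτk u hB (he u)
        (slots_mono (hE₁.trans (hE₂.trans hF)) le_rfl ha)
        (slots_mono (hE₁.trans (hE₂.trans hF')) le_rfl ha)
      have t1 : err ν τ K F E₁ a (samp (mom ν) (slots F K) τ u) ≤
          ∑ a ∈ slots E K, err ν τ K F E₁ a (samp (mom ν) (slots F K) τ u) :=
        Finset.single_le_sum (f := fun a => err ν τ K F E₁ a (samp (mom ν) (slots F K) τ u))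
          (fun a _ => abs_nonneg _) ha
      have t2 : err ν τ K F' E₁ a (samp (mom ν) (slots F' K) τ u) ≤
          ∑ a ∈ slots E K, err ν τ K F' E₁ a (samp (mom ν) (slots F' K) τ u) :=
        Finset.single_le_sum (f := fun a => err ν τ K F' E₁ a (samp (mom ν) (slots F' K) τ u))
          (fun a _ => abs_nonneg _) ha
      rw [pow_succ]
      linarith

omit [DecidableEq V] in
theorem abs_log_lratio_sub_le (i : V) (K : ℕ) (s s' : V × ℕ → I) :
    |Real.log (lratio i K s) - Real.log (lratio i K s')| ≤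
      2 / 3 * ∑ k ∈ Finset.range K, |(s (i, k) : ℝ) - s' (i, k)| := by
  unfold lratio
  rw [Real.log_prod fun k _ => (one_add_chan_pos _).ne',
    Real.log_prod fun k _ => (one_add_chan_pos _).ne', ← Finset.sum_sub_distrib, Finset.mul_sum]
  exact (Finset.abs_sum_le_sum_abs _ _).trans
    (Finset.sum_le_sum fun k _ => abs_log_chan_sub_le _ _)

theorem exists_superset_bit (hν : TiltLip ν 4) {τ : V × ℕ → ℝ} (hτ : Function.Injective τ)
    (hτk : ∀ a b : V × ℕ, τ b < τ a → b.2 ≤ a.2) (K : ℕ) (i : V) {η : ℝ} (hη : 0 < η) :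
    ∃ E, i ∈ E ∧ ∀ F F', E ⊆ F → E ⊆ F' →
      (labelMeasure (V × ℕ)).real {u | ¬ (1 < lratio i K (samp (mom ν) (slots F K) τ u) ↔
        1 < lratio i K (samp (mom ν) (slots F' K) τ u))} ≤ 2 * rho ^ K + η := by
  set c : ℝ := (1 / 2) ^ (K + 2) with hc
  have hc0 : 0 < c := by positivity
  obtain ⟨E, hE, h⟩ := exists_superset_close ν hν hτ hτk K (K + 2) {i} (η := c * η)
    (by positivity)
  refine ⟨E, hE (Finset.mem_singleton_self i), fun F F' hF hF' => ?_⟩
  obtain ⟨e, hei, he0, heη, he⟩ := h F F' hF hF'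
  have hsub : {u | ¬ (1 < lratio i K (samp (mom ν) (slots F K) τ u) ↔
        1 < lratio i K (samp (mom ν) (slots F' K) τ u))} ⊆
      {u | 1 / 2 ≤ lratio i K (samp (mom ν) (slots F K) τ u) ∧
        lratio i K (samp (mom ν) (slots F K) τ u) ≤ 2} ∪ {u | c ≤ e u} := by
    intro u hu
    by_contra hcon
    simp only [Set.mem_union, Set.mem_ofPred_eq, not_or, not_le] at hcon hu
    obtain ⟨hm, hec⟩ := hcon
    set L := lratio i K (samp (mom ν) (slots F K) τ u) with hL
    set L' := lratio i K (samp (mom ν) (slots F' K) τ u) with hL'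
    have hL0 : 0 < L := lratio_pos _ _ _
    have hL0' : 0 < L' := lratio_pos _ _ _
    have hlog := abs_log_lratio_sub_le i K (samp (mom ν) (slots F K) τ u)
      (samp (mom ν) (slots F' K) τ u)
    have hsum : ∑ k ∈ Finset.range K, |(samp (mom ν) (slots F K) τ u (i, k) : ℝ) -
        samp (mom ν) (slots F' K) τ u (i, k)| ≤ 1 / 2 := by
      calc ∑ k ∈ Finset.range K, |(samp (mom ν) (slots F K) τ u (i, k) : ℝ) -
            samp (mom ν) (slots F' K) τ u (i, k)| ≤ ∑ k ∈ Finset.range K, 2 ^ k * (2 * c) := by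
            refine Finset.sum_le_sum fun k hk => ?_
            have h3 := he u (i, k) (mem_slots.2 ⟨Finset.mem_singleton_self i,
              Finset.mem_range.1 hk⟩)
            have h4 : (0 : ℝ) < 2 ^ k := by positivity
            rw [one_div, inv_pow, inv_mul_le_iff₀ h4] at h3
            refine h3.trans (mul_le_mul_of_nonneg_left ?_ h4.le)
            rw [← one_div, ← hc]
            linarith
        _ = (2 ^ K - 1) * (2 * c) := by
            rw [← Finset.sum_mul, geom_sum_eq (by norm_num)]; norm_num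
        _ ≤ 2 ^ K * (2 * c) := mul_le_mul_of_nonneg_right (by linarith) (by positivity)
        _ = 1 / 2 := by
            rw [hc, pow_add, one_div, inv_pow]
            field_simp
    have hlog' : |Real.log L - Real.log L'| ≤ 1 / 3 := hlog.trans (by linarith)
    have hl2 := Real.log_two_gt_d9
    rw [abs_le] at hlog'
    by_cases h1 : 1 < L
    · have h2 : ¬ 1 < L' := fun h2 => hu (iff_of_true h1 h2)
      have h3 : 2 < L := by
        by_contra h3
        exact hm ⟨by linarith, not_lt.1 h3⟩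
      have h4 := Real.log_lt_log (by norm_num) h3
      have h5 := Real.log_nonpos hL0'.le (not_lt.1 h2)
      linarith [hlog'.2]
    · have h2 : 1 < L' := by
        by_contra h2
        exact hu (iff_of_false h1 h2)
      have h3 : L < 1 / 2 := by
        by_contra h3
        exact hm ⟨not_lt.1 h3, by linarith [not_lt.1 h1]⟩
      have h4 := Real.log_lt_log hL0 h3
      rw [one_div, Real.log_inv] at h4
      have h5 := Real.log_pos h2
      linarith [hlog'.1]
  refine (measureReal_mono hsub).trans ((measureReal_union_le _ _).trans (add_le_add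
    (real_margin_le ν hτ (slots_mono (hE.trans hF) le_rfl)) ?_))
  have := mul_meas_ge_le_integral_of_nonneg (Eventually.of_forall he0) hei c
  exact le_of_mul_le_mul_left (this.trans heη) hc0

/-- The decoded bit of the finite-volume sampler. -/
def bitSet (M : Finset V → ℝ) (F : Finset V) (K : ℕ) (τ : V × ℕ → ℝ) (i : V) :
    Set (V × ℕ → I) := {u | 1 < lratio i K (samp M (slots F K) τ u)}

theorem lratio_samp_rounds (M : Finset V → ℝ) {τ : V × ℕ → ℝ}
    (hτk : ∀ a b : V × ℕ, τ b < τ a → b.2 ≤ a.2) {F : Finset V} {i : V} (hi : i ∈ F) {K K₀ : ℕ}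
    (hK : K₀ ≤ K) (u : V × ℕ → I) :
    lratio i K₀ (samp M (slots F K) τ u) = lratio i K₀ (samp M (slots F K₀) τ u) := by
  refine lratio_congr fun b hb => samp_lower M τ (slots_mono subset_rfl hK) ?_ u
    (slots_mono (Finset.singleton_subset_iff.2 hi) le_rfl hb)
  intro a ha c hc hca
  exact mem_slots.2 ⟨(mem_slots.1 hc).1, lt_of_le_of_lt (hτk a c hca) (mem_slots.1 ha).2⟩

theorem bitSet_cauchy (hν : TiltLip ν 4) {τ : V × ℕ → ℝ} (hτ : Function.Injective τ)
    (hτk : ∀ a b : V × ℕ, τ b < τ a → b.2 ≤ a.2) (i : V) {η : ℝ} (hη : 0 < η) :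
    ∃ E K₀, ∀ F F' K K', E ⊆ F → E ⊆ F' → K₀ ≤ K → K₀ ≤ K' →
      (labelMeasure (V × ℕ)).real
        {u | ¬ (u ∈ bitSet (mom ν) F K τ i ↔ u ∈ bitSet (mom ν) F' K' τ i)} ≤ η := by
  obtain ⟨K₀, hK₀⟩ := exists_pow_lt_of_lt_one (show 0 < η / 20 by positivity) rho_lt_one
  obtain ⟨E, hiE, hE⟩ := exists_superset_bit ν hν hτ hτk K₀ i (η := η / 2) (by positivity)
  refine ⟨E, K₀, fun F F' K K' hF hF' hK hK' => ?_⟩
  have hsub : {u | ¬ (u ∈ bitSet (mom ν) F K τ i ↔ u ∈ bitSet (mom ν) F' K' τ i)} ⊆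
      ({u | ¬ (1 < lratio i K (samp (mom ν) (slots F K) τ u) ↔
        1 < lratio i K₀ (samp (mom ν) (slots F K) τ u))} ∪
      {u | ¬ (1 < lratio i K₀ (samp (mom ν) (slots F K₀) τ u) ↔
        1 < lratio i K₀ (samp (mom ν) (slots F' K₀) τ u))}) ∪
      {u | ¬ (1 < lratio i K' (samp (mom ν) (slots F' K') τ u) ↔
        1 < lratio i K₀ (samp (mom ν) (slots F' K') τ u))} := by
    intro u hu
    simp only [bitSet, Set.mem_union, Set.mem_ofPred_eq] at hu ⊢
    rw [lratio_samp_rounds _ hτk (hF hiE) hK, lratio_samp_rounds _ hτk (hF' hiE) hK']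
    tauto
  have hs : ∀ {G : Finset V} {L L' : ℕ}, E ⊆ G → L ≤ L' → slots {i} L ⊆ slots G L' :=
    fun hG hL => slots_mono (Finset.singleton_subset_iff.2 (hG hiE)) hL
  have h1 := real_rounds_le ν hτ (hs hF (le_refl K)) (hs hF hK)
  have h2 := hE F F' hF hF'
  have h3 := real_rounds_le ν hτ (hs hF' (le_refl K')) (hs hF' hK')
  have h4 : rho ^ K ≤ rho ^ K₀ := pow_le_pow_of_le_one rho_pos.le rho_lt_one.le hK
  have h5 : rho ^ K' ≤ rho ^ K₀ := pow_le_pow_of_le_one rho_pos.le rho_lt_one.le hK'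
  refine (measureReal_mono hsub).trans ((measureReal_union_le _ _).trans
    ((add_le_add (measureReal_union_le _ _) le_rfl).trans ?_))
  linarith

end Crest.Agent.R168

end
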