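import Crest.Agent.R168.Split

/-!
The observation channel: a signal in `[0,1]` with density `1 + p * chan y`, its quantile map, and
the elementary estimates used later.
-/

set_option autoImplicit false

open MeasureTheory unitInterval Filter Topology

noncomputable section

namespace Crest.Agent.R168

/-- The centred likelihood increment of a signal. -/
def chan (y : I) : ℝ := (2 * (y : ℝ) - 1) / 4

/-- The quantile map of the density `1 + p * chan y` on `[0,1]`. -/
def quant (p : ℝ) (u : I) : I :=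
  Set.projIcc (0 : ℝ) 1 zero_le_one
    (2 * (u : ℝ) / ((1 - p / 4) + Real.sqrt ((1 - p / 4) ^ 2 + p * u)))

/-- A polynomial upper bound for the square root of the likelihood ratio. -/
def hell (y : I) : ℝ := 1 + chan y / 2 - chan y ^ 2 / 10

/-- The per-round contraction factor of the decoding error. -/
def rho : ℝ := 1 - 1 / 480

theorem measurable_chan : Measurable chan := by unfold chan; fun_prop

theorem measurable_hell : Measurable hell := by
  have := measurable_chan
  unfold hell; fun_prop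

theorem abs_chan_le (y : I) : |chan y| ≤ 1 / 4 := by
  have h0 := y.2.1
  have h1 := y.2.2
  unfold chan
  rw [abs_le]; constructor <;> linarith

theorem chan_ge (y : I) : -(1 / 4) ≤ chan y := (abs_le.1 (abs_chan_le y)).1
theorem chan_le (y : I) : chan y ≤ 1 / 4 := (abs_le.1 (abs_chan_le y)).2

theorem one_add_chan_pos (y : I) : 0 < 1 + chan y := by linarith [chan_ge y]

theorem hell_pos (y : I) : 0 < hell y := by
  have h0 := chan_ge y
  have h1 := chan_le y
  unfold hell; nlinarith

theorem hell_le (y : I) : hell y ≤ 2 := by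
  have h0 := chan_ge y
  have h1 := chan_le y
  unfold hell; nlinarith

theorem one_add_chan_le_hell_sq (y : I) : 1 + chan y ≤ hell y ^ 2 := by
  have h0 := chan_ge y
  have h1 := chan_le y
  unfold hell
  have h2 : 0 ≤ chan y ^ 2 := sq_nonneg _
  have h3 : 0 ≤ chan y ^ 2 * (1 / 20 - chan y / 10 + chan y ^ 2 / 100) :=
    mul_nonneg h2 (by nlinarith)
  nlinarith

theorem abs_log_chan_sub_le (y y' : I) :
    |Real.log (1 + chan y) - Real.log (1 + chan y')| ≤ 2 / 3 * |(y : ℝ) - y'| := by
  have key : ∀ a b : I, Real.log (1 + chan a) - Real.log (1 + chan b) ≤ 2 / 3 * |(a : ℝ) - b| := by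
    intro a b
    have ha := one_add_chan_pos a
    have hb := one_add_chan_pos b
    have hb' := chan_ge b
    rw [← Real.log_div ha.ne' hb.ne']
    have h1 := Real.log_le_sub_one_of_pos (div_pos ha hb)
    have h2 : (1 + chan a) / (1 + chan b) - 1 = (chan a - chan b) / (1 + chan b) := by
      field_simp; ring
    have h3 : chan a - chan b = ((a : ℝ) - b) / 2 := by unfold chan; ring
    have h4 : (chan a - chan b) / (1 + chan b) ≤ 2 / 3 * |(a : ℝ) - b| := by
      rw [div_le_iff₀ hb, h3]
      have h5 := le_abs_self ((a : ℝ) - b)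
      have h6 := abs_nonneg ((a : ℝ) - b)
      nlinarith
    linarith
  rw [abs_le]
  constructor
  · have := key y' y
    rw [abs_sub_comm] at this
    linarith
  · exact key y y'

theorem integral_unitInterval (f : ℝ → ℝ) :
    ∫ y : I, f y = ∫ x in (0 : ℝ)..1, f x := by
  rw [intervalIntegral.integral_of_le zero_le_one, ← integral_Icc_eq_integral_Ioc]
  exact unitInterval.measurePreserving_coe.integral_comp unitInterval.measurableEmbedding_coe f

theorem integral_chan : ∫ y : I, chan y = 0 := by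
  have := integral_unitInterval (fun x => (2 * x - 1) / 4)
  unfold chan
  rw [this]
  have h : ∀ x : ℝ, (2 * x - 1) / 4 = (1 / 2) * x ^ 1 - (1 / 4) * x ^ 0 := by intro x; ring
  simp_rw [h]
  rw [intervalIntegral.integral_sub,
    intervalIntegral.integral_const_mul, intervalIntegral.integral_const_mul,
    integral_pow, integral_pow]
  · norm_num
  all_goals
    apply Continuous.intervalIntegrable
    fun_prop

theorem integral_hell : ∫ y : I, hell y = rho := by
  have := integral_unitInterval (fun x => 1 + (2 * x - 1) / 4 / 2 - ((2 * x - 1) / 4) ^ 2 / 10)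
  unfold hell chan
  rw [this]
  have h : ∀ x : ℝ, 1 + (2 * x - 1) / 4 / 2 - ((2 * x - 1) / 4) ^ 2 / 10 =
      (139 / 160) * x ^ 0 + (11 / 40) * x ^ 1 - (1 / 40) * x ^ 2 := by intro x; ring
  simp_rw [h]
  rw [intervalIntegral.integral_sub, intervalIntegral.integral_add,
    intervalIntegral.integral_const_mul, intervalIntegral.integral_const_mul,
    intervalIntegral.integral_const_mul, integral_pow, integral_pow, integral_pow]
  · unfold rho; norm_num
  all_goals
    apply Continuous.intervalIntegrable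
    fun_prop

theorem rho_pos : 0 < rho := by unfold rho; norm_num
theorem rho_lt_one : rho < 1 := by unfold rho; norm_num

theorem measurable_quant : Measurable (fun q : ℝ × I => quant q.1 q.2) := by
  unfold quant
  refine (continuous_projIcc.measurable).comp ?_
  fun_prop

theorem quant_spec {p : ℝ} (hp0 : 0 ≤ p) (hp1 : p ≤ 1) (u : I) :
    (quant p u : ℝ) + p * ((quant p u : ℝ) ^ 2 - quant p u) / 4 = u := by
  have hu0 := u.2.1
  have hu1 := u.2.2
  set D := Real.sqrt ((1 - p / 4) ^ 2 + p * u) with hD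
  have hD0 : 0 ≤ D := Real.sqrt_nonneg _
  have hDsq : D ^ 2 = (1 - p / 4) ^ 2 + p * u := Real.sq_sqrt (by positivity)
  have hden : 0 < (1 - p / 4) + D := by linarith
  have hmem : 2 * (u : ℝ) / ((1 - p / 4) + D) ∈ Set.Icc (0 : ℝ) 1 := by
    refine ⟨by positivity, ?_⟩
    rw [div_le_one hden]
    have : 2 * (u : ℝ) - (1 - p / 4) ≤ D := by
      apply Real.le_sqrt_of_sq_le
      nlinarith [mul_nonneg hu0 (sub_nonneg.2 hu1)]
    linarith
  have hq : (quant p u : ℝ) = 2 * (u : ℝ) / ((1 - p / 4) + D) := by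
    unfold quant
    rw [Set.projIcc_of_mem _ hmem]
  rw [hq]
  set y : ℝ := 2 * (u : ℝ) / ((1 - p / 4) + D) with hy
  have hy' : y * ((1 - p / 4) + D) = 2 * u := by rw [hy]; exact div_mul_cancel₀ _ hden.ne'
  have hsq : ((1 - p / 4) + D) ^ 2 ≠ 0 := pow_ne_zero 2 hden.ne'
  apply mul_left_cancel₀ hsq
  have e1 : ((1 - p / 4) + D) ^ 2 * (y + p * (y ^ 2 - y) / 4) =
      (1 - p / 4) * ((1 - p / 4) + D) * (y * ((1 - p / 4) + D)) +
        p / 4 * (y * ((1 - p / 4) + D)) ^ 2 := by ring
  rw [e1, hy']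
  linear_combination (-(u : ℝ)) * hDsq

theorem abs_quant_sub_le {p p' : ℝ} (hp0 : 0 ≤ p) (hp1 : p ≤ 1) (hp0' : 0 ≤ p') (hp1' : p' ≤ 1)
    (u : I) : |(quant p u : ℝ) - quant p' u| ≤ |p - p'| / 12 := by
  have h1 := quant_spec hp0 hp1 u
  have h2 := quant_spec hp0' hp1' u
  set y : ℝ := ((quant p u : I) : ℝ)
  set y' : ℝ := ((quant p' u : I) : ℝ)
  have hy0 : 0 ≤ y := (quant p u).2.1
  have hy1 : y ≤ 1 := (quant p u).2.2
  have hy0' : 0 ≤ y' := (quant p' u).2.1
  have hy1' : y' ≤ 1 := (quant p' u).2.2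
  have h3 : (y - y') * (1 + p * (y + y' - 1) / 4) = (p' - p) * (y' ^ 2 - y') / 4 := by
    linear_combination h1 - h2
  have h4 : 3 / 4 ≤ 1 + p * (y + y' - 1) / 4 := by nlinarith
  have h5 : |y' ^ 2 - y'| ≤ 1 / 4 := by
    rw [abs_le]; constructor <;> nlinarith [sq_nonneg (y' - 1 / 2)]
  have h6 : |y - y'| * (1 + p * (y + y' - 1) / 4) = |p - p'| * |y' ^ 2 - y'| / 4 := by
    rw [← abs_of_nonneg (by linarith : 0 ≤ 1 + p * (y + y' - 1) / 4), ← abs_mul, h3, abs_div,
      abs_mul, abs_sub_comm p' p]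
    norm_num
  have h7 := abs_nonneg (y - y')
  have h8 := abs_nonneg (p - p')
  nlinarith

theorem integral_quant {p : ℝ} (hp0 : 0 ≤ p) (hp1 : p ≤ 1) (g : I → ℝ) :
    ∫ u : I, g (quant p u) = ∫ y : I, g y * (1 + p * chan y) := by
  set F : ℝ → ℝ := fun y => y + p * (y ^ 2 - y) / 4 with hF
  have hderiv : ∀ x ∈ Set.Icc (0 : ℝ) 1,
      HasDerivWithinAt F (1 + p * ((2 * x - 1) / 4)) (Set.Icc 0 1) x := by
    intro x _
    have : HasDerivAt F (1 + p * (2 * x - 1) / 4) x := by
      have h1 : HasDerivAt (fun y : ℝ => y ^ 2 - y) (2 * x - 1) x := by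
        have := ((hasDerivAt_pow 2 x).sub (hasDerivAt_id x)).congr_deriv
          (show ((2 : ℕ) : ℝ) * x ^ (2 - 1) - 1 = 2 * x - 1 by norm_num)
        exact this
      exact (hasDerivAt_id x).add ((h1.const_mul p).div_const 4)
    rw [mul_div_assoc] at this
    exact this.hasDerivWithinAt
  have hinj : Set.InjOn F (Set.Icc 0 1) := by
    intro y hy y' hy' h
    have h3 : (y - y') * (1 + p * (y + y' - 1) / 4) = 0 := by
      simp only [hF] at h
      linear_combination h
    have h4 : 3 / 4 ≤ 1 + p * (y + y' - 1) / 4 := by nlinarith [hy.1, hy'.1]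
    rcases mul_eq_zero.1 h3 with h5 | h5
    · linarith
    · linarith
  have hmaps : ∀ y ∈ Set.Icc (0 : ℝ) 1, F y ∈ Set.Icc (0 : ℝ) 1 := by
    intro y hy
    have h1 := mul_nonneg hy.1 (sub_nonneg.2 hy.2)
    simp only [hF]
    constructor <;> nlinarith [hy.1, hy.2]
  have himage : F '' Set.Icc 0 1 = Set.Icc 0 1 := by
    apply Set.Subset.antisymm
    · rintro _ ⟨y, hy, rfl⟩; exact hmaps y hy
    · intro u hu
      exact ⟨quant p ⟨u, hu⟩, (quant p ⟨u, hu⟩).2, quant_spec hp0 hp1 ⟨u, hu⟩⟩
  have hleft : ∀ y : I, quant p (Set.projIcc 0 1 zero_le_one (F y)) = y := by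
    intro y
    apply Subtype.ext
    apply hinj (quant p _).2 y.2
    have := quant_spec hp0 hp1 (Set.projIcc 0 1 zero_le_one (F y))
    rw [Set.projIcc_of_mem _ (hmaps y y.2)] at this ⊢
    exact this
  have e1 : ∀ φ : ℝ → ℝ, ∫ y : I, φ y = ∫ x in Set.Icc (0 : ℝ) 1, φ x := fun φ =>
    unitInterval.measurePreserving_coe.integral_comp unitInterval.measurableEmbedding_coe φ
  have h := integral_image_eq_integral_abs_deriv_smul measurableSet_Icc hderiv hinj
    (fun u => g (quant p (Set.projIcc 0 1 zero_le_one u)))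
  rw [himage, ← e1, ← e1] at h
  simp only [Set.projIcc_val] at h
  rw [h]
  refine integral_congr_ae (Eventually.of_forall fun y => ?_)
  have hpos : 0 ≤ 1 + p * ((2 * (y : ℝ) - 1) / 4) := by nlinarith [y.2.1]
  simp only [hleft, smul_eq_mul, abs_of_nonneg hpos]
  unfold chan
  ring

end Crest.Agent.R168

end
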