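import Mathlib
import Crest.Prelude.Def_Labels
import Crest.Prelude.Def_SpanningTrees
import Crest.Prelude.Def_GraphTables
import Crest.Prelude.Def_StronglyRayleigh

/-!
Shared definitions for row 168 (S0254, S0255): strongly Rayleigh laws and the free uniform
spanning forest as factors of independent labels.
-/

set_option autoImplicit false

open MeasureTheory unitInterval
open Crest.ProbabilityR Crest.ProbabilityR.Labels Crest.ProbabilityR.SpanningTrees

noncomputable section

namespace Crest.Agent.R168

/-! ### Laws on binary configurations -/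

/-- The real value `0` or `1` of a bit. -/
def bitVal (b : Bool) : ℝ := if b = true then 1 else 0

/-- The moment function of a law: the mass of the configurations occupied on all of `A`. -/
def mom {V : Type*} (ν : Measure (V → Bool)) (A : Finset V) : ℝ :=
  (ν {ω | ∀ i ∈ A, ω i = true}).toReal

/-- The mean of the bit at `i` under the law tilted by the field `h` on the finite set `F`. -/
def tiltMean {V : Type*} (ν : Measure (V → Bool)) (F : Finset V) (i : V) (h : V → ℝ) : ℝ :=
  (∫ x, bitVal (x i) * Real.exp (∑ j ∈ F, h j * bitVal (x j)) ∂ν) /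
    (∫ x, Real.exp (∑ j ∈ F, h j * bitVal (x j)) ∂ν)

/-- Tilted means are `C`-Lipschitz in the field for the sup norm, uniformly in the volume. -/
def TiltLip {V : Type*} (ν : Measure (V → Bool)) (C : ℝ) : Prop :=
  ∀ (F : Finset V) (i : V) (h h' : V → ℝ) (δ : ℝ), 0 ≤ δ → (∀ j ∈ F, |h j - h' j| ≤ δ) →
    |tiltMean ν F i h - tiltMean ν F i h'| ≤ C * δ

/-! ### Splitting one uniform label into a sequence of uniform labels -/

/-- A measurable map sending the uniform law on `[0,1]` to the law of an i.i.d. uniform
sequence. -/
def xi : I → (ℕ → I) :=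
  haveI : IsProbabilityMeasure (labelMeasure ℕ) := by unfold labelMeasure; infer_instance
  (Measure.exists_measurable_map_eq (labelMeasure ℕ)).choose

/-- The ordering label extracted from a family of labels. -/
def splitT {V : Type*} (z : V → I) : V → I := fun j => xi (z j) 0

/-- The noise labels extracted from a family of labels. -/
def splitU {V : Type*} (z : V → I) : V × ℕ → I := fun b => xi (z b.1) (b.2 + 1)

/-! ### Spanning trees -/

/-- The indicator configuration of a finite set. -/
def indic {E : Type*} [DecidableEq E] (A : Finset E) : E → Bool := fun e => decide (e ∈ A)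

/-- The spanning-tree edge sets of the piece `S` of `G`. -/
def treesOn (G : SimpleGraph ℕ) (S : Finset ℕ) : Finset (Finset (Sym2 ℕ)) :=
  haveI := Classical.decPred (fun A : Finset (Sym2 ℕ) => IsSpanningTreeOn G S A)
  (edgesIn G S).powerset.filter (fun A => IsSpanningTreeOn G S A)

/-- The law of the uniform spanning tree of the piece `S` of `G`, on configurations of pairs. -/
def ustMeasure (G : SimpleGraph ℕ) (S : Finset ℕ) : Measure (Sym2 ℕ → Bool) :=
  ((treesOn G S).card : ENNReal)⁻¹ • ∑ A ∈ treesOn G S, Measure.dirac (indic A)

open Classical in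
/-- The moments of the free uniform spanning forest, written canonically: the infimum over
connected finite pieces containing the pairs of `A` of the chance that the piece's uniform
spanning tree contains `A`. -/
def fusfMom (G : SimpleGraph ℕ) (A : Finset (Sym2 ℕ)) : ℝ :=
  ⨅ S : Finset ℕ,
    if (G.induce (S : Set ℕ)).Connected ∧ A ⊆ S.sym2 then ustContains G S A else 1

/-! ### Balls and labels on pairs of vertices -/

/-- The vertices within `n` steps of `u`. -/
def reach (G : SimpleGraph ℕ) : ℕ → ℕ → Set ℕ
  | 0, u => {u}
  | n + 1, u => reach G n u ∪ {w | ∃ w' ∈ reach G n u, G.Adj w' w}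

/-- The equation lemmas of `reach`, generated once here so that later files share them. -/
theorem reach_equations (G : SimpleGraph ℕ) (n u : ℕ) :
    reach G 0 u = {u} ∧ reach G (n + 1) u = reach G n u ∪ {w | ∃ w' ∈ reach G n u, G.Adj w' w} := by
  have h0 := @reach.eq_def
  have h1 := @reach.eq_1
  have h2 := @reach.eq_2
  exact ⟨h1 G u, h2 G u n⟩

/-- The number of steps from `u` to `v` (junk `0` if there is no walk). -/
def stepsTo (G : SimpleGraph ℕ) (u v : ℕ) : ℕ := sInf {n | v ∈ reach G n u}

/-- The index under which the vertex `u` files the vertex `v`: the distance, and the rank of `v`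
for the ordering labels `t` in the ball of that radius. -/
def pairIdx (G : SimpleGraph ℕ) (t : ℕ → I) (u v : ℕ) : ℕ :=
  Nat.pair (stepsTo G u v) ({w | w ∈ reach G (stepsTo G u v) u ∧ t w < t v}.ncard)

/-- The label of the ordered pair `(u, v)`, symmetric in `u` and `v`: the endpoint with the smaller
ordering label supplies one of its noise labels. -/
def pairLabelAux (G : SimpleGraph ℕ) (t : ℕ → I) (y : ℕ × ℕ → I) (u v : ℕ) : I :=
  if t u < t v then y (u, pairIdx G t u v)
  else if t v < t u then y (v, pairIdx G t v u)
  else if u = v then y (u, pairIdx G t u u) else 0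

theorem pairLabelAux_comm (G : SimpleGraph ℕ) (t : ℕ → I) (y : ℕ × ℕ → I) (u v : ℕ) :
    pairLabelAux G t y u v = pairLabelAux G t y v u := by
  unfold pairLabelAux
  rcases lt_trichotomy (t u) (t v) with h | h | h
  · simp [h, h.not_gt]
  · by_cases huv : u = v
    · subst huv; simp
    · simp [h, huv, Ne.symm huv]
  · simp [h, h.not_gt]

/-- Labels on unordered pairs of vertices computed from the graph and the vertex labels. -/
def pairLabel (G : SimpleGraph ℕ) (x : ℕ → I) : Sym2 ℕ → I :=
  Sym2.lift ⟨pairLabelAux G (splitT x) (splitU x), pairLabelAux_comm G _ _⟩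

/-- The pairs both of whose ends are within `n` steps of an end of `e`. -/
def pairBallSet (G : SimpleGraph ℕ) (n : ℕ) (e : Sym2 ℕ) : Set (Sym2 ℕ) :=
  {f | ∀ w ∈ f, ∃ v ∈ e, w ∈ reach G n v}

open Classical in
/-- `pairBallSet` as a finite set (junk `∅` when it is infinite). -/
def pairBall (G : SimpleGraph ℕ) (n : ℕ) (e : Sym2 ℕ) : Finset (Sym2 ℕ) :=
  if h : (pairBallSet G n e).Finite then h.toFinset else ∅

/-- The action of a permutation of the vertices on unordered pairs, as an equivalence. -/
def sym2Equiv (g : Equiv.Perm ℕ) : Sym2 ℕ ≃ Sym2 ℕ where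
  toFun := Sym2.map g
  invFun := Sym2.map g.symm
  left_inv e := by simp [Sym2.map_map]
  right_inv e := by simp [Sym2.map_map]

end Crest.Agent.R168

end
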