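import Crest.Agent.R168.Defs

/-!
Existence of the free uniform spanning forest law as a weak limit of uniform spanning tree laws
along an exhaustion (compactness of the space of probability measures on a compact space).
-/

set_option autoImplicit false
open MeasureTheory unitInterval Filter Topology
open Crest.ProbabilityR Crest.ProbabilityR.Labels Crest.ProbabilityR.SpanningTrees
open Crest.ProbabilityR.StronglyRayleigh Crest.ProbabilityR.GraphTables
noncomputable section
namespace Crest.Agent.R168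

namespace Fusf

theorem ustContains_nonneg (G : SimpleGraph ℕ) (S : Finset ℕ) (A : Finset (Sym2 ℕ)) :
    0 ≤ ustContains G S A := by
  unfold ustContains
  positivity

theorem ustContains_le_one (G : SimpleGraph ℕ) (S : Finset ℕ) (A : Finset (Sym2 ℕ)) :
    ustContains G S A ≤ 1 := by
  unfold ustContains
  apply div_le_one_of_le₀
  · apply Nat.cast_le.2
    apply Finset.card_le_card
    intro T hT
    simp only [Finset.mem_filter] at hT ⊢
    exact ⟨hT.1, hT.2.1⟩
  · positivity

theorem eventually_subset (S : ℕ → Finset ℕ) (hmono : Monotone S) (hcov : ∀ v : ℕ, ∃ n, v ∈ S n)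
    (S0 : Finset ℕ) : ∀ᶠ n in atTop, S0 ⊆ S n := by
  have : ∀ v ∈ S0, ∀ᶠ n in atTop, v ∈ S n := by
    intro v _
    obtain ⟨m, hm⟩ := hcov v
    filter_upwards [eventually_ge_atTop m] with n hn using hmono hn hm
  filter_upwards [(Finset.eventually_all S0).2 this] with n hn v hv using hn v hv

theorem exists_subset_sym2 (A : Finset (Sym2 ℕ)) : ∃ S0 : Finset ℕ, A ⊆ S0.sym2 := by
  classical
  refine ⟨A.biUnion (fun e => e.toFinset), ?_⟩
  intro e he
  rw [Finset.mem_sym2_iff]
  intro v hv
  rw [Finset.mem_biUnion]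
  exact ⟨e, he, by simpa using hv⟩

theorem eventually_subset_sym2 (S : ℕ → Finset ℕ) (hmono : Monotone S)
    (hcov : ∀ v : ℕ, ∃ n, v ∈ S n) (A : Finset (Sym2 ℕ)) : ∀ᶠ n in atTop, A ⊆ (S n).sym2 := by
  obtain ⟨S0, h0⟩ := exists_subset_sym2 A
  filter_upwards [eventually_subset S hmono hcov S0] with n hn
  exact h0.trans (Finset.sym2_mono hn)

theorem tendsto_fusfMom (G : SimpleGraph ℕ)
    (hanti : ∀ S S' : Finset ℕ, S ⊆ S' → (G.induce (S : Set ℕ)).Connected →
      (G.induce (S' : Set ℕ)).Connected → ∀ A : Finset (Sym2 ℕ), A ⊆ S.sym2 →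
        ustContains G S' A ≤ ustContains G S A)
    (S : ℕ → Finset ℕ) (hmono : Monotone S) (hcov : ∀ v : ℕ, ∃ n, v ∈ S n)
    (hconn : ∀ n, (G.induce (S n : Set ℕ)).Connected) (A : Finset (Sym2 ℕ)) :
    Tendsto (fun n => ustContains G (S n) A) atTop (𝓝 (fusfMom G A)) := by
  classical
  have hbdd : BddBelow (Set.range fun S : Finset ℕ =>
      if (G.induce (S : Set ℕ)).Connected ∧ A ⊆ S.sym2 then ustContains G S A else 1) := by
    refine ⟨0, ?_⟩
    rintro _ ⟨T, rfl⟩
    dsimp only
    split_ifs
    · exact ustContains_nonneg G T A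
    · exact zero_le_one
  rw [tendsto_order]
  constructor
  · intro c hc
    filter_upwards [eventually_subset_sym2 S hmono hcov A] with n hn
    refine hc.trans_le ?_
    have := ciInf_le hbdd (S n)
    rw [if_pos ⟨hconn n, hn⟩] at this
    unfold fusfMom
    convert this
  · intro c hc
    have hc' : (⨅ S : Finset ℕ,
        if (G.induce (S : Set ℕ)).Connected ∧ A ⊆ S.sym2 then ustContains G S A else 1) < c := by
      unfold fusfMom at hc
      convert hc
    obtain ⟨T, hT⟩ := exists_lt_of_ciInf_lt hc'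
    split_ifs at hT with h
    · filter_upwards [eventually_subset S hmono hcov T] with n hn
      exact (hanti T (S n) hn h.1 (hconn n) A h.2).trans_lt hT
    · exact Eventually.of_forall fun n => (ustContains_le_one G (S n) A).trans_lt hT

theorem continuous_bitVal {V : Type*} (i : V) : Continuous fun x : V → Bool => bitVal (x i) :=
  (continuous_of_discreteTopology (f := bitVal)).comp (continuous_apply i)

theorem mom_eq_integral {V : Type*} [Countable V] (ν : Measure (V → Bool)) (A : Finset V) :
    mom ν A = ∫ x, ∏ e ∈ A, bitVal (x e) ∂ν := by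
  have hms : MeasurableSet {ω : V → Bool | ∀ i ∈ A, ω i = true} := by
    have : {ω : V → Bool | ∀ i ∈ A, ω i = true} = ⋂ i ∈ A, {ω : V → Bool | ω i = true} := by
      ext ω; simp
    rw [this]
    refine Finset.measurableSet_biInter A fun i _ => ?_
    exact (measurable_pi_apply (X := fun _ : V => Bool) i) (measurableSet_singleton true)
  have hfun : (fun x : V → Bool => ∏ e ∈ A, bitVal (x e)) =
      Set.indicator {ω : V → Bool | ∀ i ∈ A, ω i = true} 1 := by
    funext x
    by_cases hx : ∀ i ∈ A, x i = true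
    · rw [Set.indicator_of_mem (by exact hx)]
      exact Finset.prod_eq_one fun i hi => by simp [bitVal, hx i hi]
    · rw [Set.indicator_of_notMem (by exact hx)]
      push Not at hx
      obtain ⟨i, hi, hxi⟩ := hx
      exact Finset.prod_eq_zero hi (by simp [bitVal, hxi])
  rw [hfun, integral_indicator_one hms]
  rfl

theorem tendsto_integral {V : Type*} [Countable V] {ι : Type*} {l : Filter ι}
    {μ : ι → ProbabilityMeasure (V → Bool)} {ν : ProbabilityMeasure (V → Bool)}
    (h : Tendsto μ l (𝓝 ν)) (f : (V → Bool) → ℝ) (hf : Continuous f) :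
    Tendsto (fun n => ∫ x, f x ∂(μ n : Measure (V → Bool))) l
      (𝓝 (∫ x, f x ∂(ν : Measure (V → Bool)))) :=
  ProbabilityMeasure.tendsto_iff_forall_integral_tendsto.1 h
    (BoundedContinuousFunction.mkOfCompact ⟨f, hf⟩)

theorem continuous_tilt {V : Type*} (F : Finset V) (h : V → ℝ) :
    Continuous fun x : V → Bool => Real.exp (∑ j ∈ F, h j * bitVal (x j)) :=
  Real.continuous_exp.comp
    (continuous_finsetSum F fun j _ => continuous_const.mul (continuous_bitVal j))

theorem tendsto_tiltMean {V : Type*} [Countable V] {ι : Type*} {l : Filter ι}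
    {μ : ι → ProbabilityMeasure (V → Bool)} {ν : ProbabilityMeasure (V → Bool)}
    (hμ : Tendsto μ l (𝓝 ν)) (F : Finset V) (i : V) (h : V → ℝ) :
    Tendsto (fun n => tiltMean (μ n : Measure (V → Bool)) F i h) l
      (𝓝 (tiltMean (ν : Measure (V → Bool)) F i h)) := by
  unfold tiltMean
  refine Tendsto.div (tendsto_integral hμ _ ((continuous_bitVal i).mul (continuous_tilt F h)))
    (tendsto_integral hμ _ (continuous_tilt F h)) (ne_of_gt ?_)
  have hint : Integrable (fun x : V → Bool => Real.exp (∑ j ∈ F, h j * bitVal (x j)))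
      (ν : Measure (V → Bool)) :=
    (BoundedContinuousFunction.mkOfCompact ⟨_, continuous_tilt F h⟩).integrable _
  exact integral_exp_pos hint

end Fusf

theorem exists_fusf_of (G : SimpleGraph ℕ)
    (hprob : ∀ S : Finset ℕ, (G.induce (S : Set ℕ)).Connected → IsProbabilityMeasure (ustMeasure G S))
    (hmom : ∀ (S : Finset ℕ) (A : Finset (Sym2 ℕ)), mom (ustMeasure G S) A = ustContains G S A)
    (hlip : ∀ S : Finset ℕ, (G.induce (S : Set ℕ)).Connected → TiltLip (ustMeasure G S) 4)
    (hanti : ∀ S S' : Finset ℕ, S ⊆ S' → (G.induce (S : Set ℕ)).Connected →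
      (G.induce (S' : Set ℕ)).Connected → ∀ A : Finset (Sym2 ℕ), A ⊆ S.sym2 →
        ustContains G S' A ≤ ustContains G S A)
    (S : ℕ → Finset ℕ) (hmono : Monotone S) (hcov : ∀ v : ℕ, ∃ n, v ∈ S n)
    (hconn : ∀ n, (G.induce (S n : Set ℕ)).Connected) :
    ∃ ν : Measure (Sym2 ℕ → Bool), IsProbabilityMeasure ν ∧ TiltLip ν 4 ∧
      (∀ A, mom ν A = fusfMom G A) ∧
      ∀ A, Tendsto (fun n => ustContains G (S n) A) atTop (𝓝 (fusfMom G A)) := by
  have hlim := Fusf.tendsto_fusfMom G hanti S hmono hcov hconn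
  let μ : ℕ → ProbabilityMeasure (Sym2 ℕ → Bool) :=
    fun n => ⟨ustMeasure G (S n), hprob _ (hconn n)⟩
  let U : Ultrafilter ℕ := Ultrafilter.of atTop
  have hU : (U : Filter ℕ) ≤ atTop := Ultrafilter.of_le atTop
  obtain ⟨ν, -, hν⟩ := isCompact_univ.ultrafilter_le_nhds (U.map μ) (by simp)
  have hν' : Tendsto μ (U : Filter ℕ) (𝓝 ν) := hν
  refine ⟨ν, inferInstance, ?_, ?_, hlim⟩
  · intro F i h h' δ hδ hh
    have ht := ((Fusf.tendsto_tiltMean hν' F i h).sub (Fusf.tendsto_tiltMean hν' F i h')).abs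
    exact le_of_tendsto' ht fun n => hlip (S n) (hconn n) F i h h' δ hδ hh
  · intro A
    have h1 := Fusf.tendsto_integral hν' (fun x => ∏ e ∈ A, bitVal (x e))
      (continuous_finsetProd A fun e _ => Fusf.continuous_bitVal e)
    have h2 : Tendsto (fun n => ∫ x, ∏ e ∈ A, bitVal (x e) ∂(μ n : Measure (Sym2 ℕ → Bool)))
        (U : Filter ℕ) (𝓝 (fusfMom G A)) := by
      refine ((hlim A).mono_left hU).congr fun n => ?_
      rw [← Fusf.mom_eq_integral, ← hmom]
      rfl
    rw [Fusf.mom_eq_integral]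
    exact tendsto_nhds_unique h1 h2

end Crest.Agent.R168

end
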