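import Crest.Agent.R168.Defs
import Crest.Agent.Lib.SpanTree.Basic

set_option autoImplicit false
open MeasureTheory unitInterval Filter Topology
open Crest.ProbabilityR Crest.ProbabilityR.Labels Crest.ProbabilityR.SpanningTrees
open Crest.ProbabilityR.StronglyRayleigh Crest.ProbabilityR.GraphTables
noncomputable section
namespace Crest.Agent.R168

namespace GraphEquiv

open Crest.Agent.Lib.SpanTree

theorem mem_reach (g : Equiv.Perm ℕ) (G : SimpleGraph ℕ) (n u w : ℕ) :
    w ∈ reach (G.comap g) n u ↔ g w ∈ reach G n (g u) := by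
  induction n generalizing w with
  | zero => simp [reach]
  | succ n ih =>
    simp only [reach, Set.mem_union, Set.mem_ofPred_eq, ih, SimpleGraph.comap_adj]
    refine or_congr Iff.rfl ⟨?_, ?_⟩
    · rintro ⟨w', h1, h2⟩
      exact ⟨g w', h1, h2⟩
    · rintro ⟨w', h1, h2⟩
      exact ⟨g.symm w', by simpa using h1, by simpa using h2⟩

theorem stepsTo_comap (g : Equiv.Perm ℕ) (G : SimpleGraph ℕ) (u v : ℕ) :
    stepsTo (G.comap g) u v = stepsTo G (g u) (g v) := by
  simp only [stepsTo, mem_reach]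

theorem pairIdx_comap (g : Equiv.Perm ℕ) (G : SimpleGraph ℕ) (t : ℕ → I) (u v : ℕ) :
    pairIdx (G.comap g) (t ∘ g) u v = pairIdx G t (g u) (g v) := by
  unfold pairIdx
  rw [stepsTo_comap]
  congr 1
  rw [← Set.ncard_image_of_injective _ g.injective]
  congr 1
  ext w
  simp only [Set.mem_image, Set.mem_ofPred_eq, mem_reach, Function.comp]
  constructor
  · rintro ⟨w', h, rfl⟩
    exact h
  · intro h
    exact ⟨g.symm w, by simpa using h, by simp⟩

theorem mem_map_iff (g : Equiv.Perm ℕ) (A : Finset (Sym2 ℕ)) (a b : ℕ) :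
    s(g a, g b) ∈ A.map (sym2Equiv g).toEmbedding ↔ s(a, b) ∈ A := by
  have : s(g a, g b) = (sym2Equiv g).toEmbedding s(a, b) := by simp [sym2Equiv]
  rw [this, Finset.mem_map']

theorem linked_map (g : Equiv.Perm ℕ) (A : Finset (Sym2 ℕ)) (u v : ℕ) :
    Linked (A.map (sym2Equiv g).toEmbedding) (g u) (g v) ↔ Linked A u v := by
  constructor
  · intro h
    have key : ∀ w, Linked (A.map (sym2Equiv g).toEmbedding) (g u) w → Linked A u (g.symm w) := by
      intro w hw
      induction hw with
      | refl => simpa using Linked.refl A u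
      | @tail b c _ hbc ih =>
        refine ih.trans (Linked.single ?_)
        rw [← mem_map_iff g]
        simpa using hbc
    simpa using key _ h
  · intro h
    induction h with
    | refl => exact Linked.refl _ _
    | tail _ hbc ih => exact ih.trans (Linked.single ((mem_map_iff g A _ _).2 hbc))

theorem edgesIn_map (g : Equiv.Perm ℕ) (G : SimpleGraph ℕ) (S : Finset ℕ) :
    edgesIn G (S.map g.toEmbedding) = (edgesIn (G.comap g) S).map (sym2Equiv g).toEmbedding := by
  ext e
  obtain ⟨e, rfl⟩ := (sym2Equiv g).surjective e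
  induction e using Sym2.ind with
  | _ a b =>
    have : sym2Equiv g s(a, b) = s(g a, g b) := by simp [sym2Equiv]
    rw [this, mem_map_iff, mem_edgesIn, mem_edgesIn]
    simp

theorem sym2_map (g : Equiv.Perm ℕ) (S : Finset ℕ) :
    (S.map g.toEmbedding).sym2 = S.sym2.map (sym2Equiv g).toEmbedding := by
  ext e
  obtain ⟨e, rfl⟩ := (sym2Equiv g).surjective e
  induction e using Sym2.ind with
  | _ a b =>
    have : sym2Equiv g s(a, b) = s(g a, g b) := by simp [sym2Equiv]
    rw [this, mem_map_iff]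
    simp

theorem forall_linked_map (g : Equiv.Perm ℕ) (S : Finset ℕ) (A : Finset (Sym2 ℕ)) :
    (∀ u ∈ S.map g.toEmbedding, ∀ v ∈ S.map g.toEmbedding,
      Linked (A.map (sym2Equiv g).toEmbedding) u v) ↔ ∀ u ∈ S, ∀ v ∈ S, Linked A u v := by
  simp only [Finset.forall_mem_map, Equiv.coe_toEmbedding, linked_map]

theorem connected_map (g : Equiv.Perm ℕ) (G : SimpleGraph ℕ) (S : Finset ℕ) :
    (G.induce ((S.map g.toEmbedding : Finset ℕ) : Set ℕ)).Connected ↔
      ((G.comap g).induce (S : Set ℕ)).Connected := by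
  rw [connected_iff_linked_edgesIn, connected_iff_linked_edgesIn, edgesIn_map, forall_linked_map,
    Finset.map_nonempty]

theorem isSpanningTreeOn_map (g : Equiv.Perm ℕ) (G : SimpleGraph ℕ) (S : Finset ℕ)
    (A : Finset (Sym2 ℕ)) :
    IsSpanningTreeOn G (S.map g.toEmbedding) (A.map (sym2Equiv g).toEmbedding) ↔
      IsSpanningTreeOn (G.comap g) S A := by
  rw [isSpanningTreeOn_iff, isSpanningTreeOn_iff, edgesIn_map, forall_linked_map,
    Finset.map_subset_map, Finset.card_map, Finset.card_map]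

theorem ustContains_map (g : Equiv.Perm ℕ) (G : SimpleGraph ℕ) (S : Finset ℕ)
    (A : Finset (Sym2 ℕ)) :
    ustContains G (S.map g.toEmbedding) (A.map (sym2Equiv g).toEmbedding) =
      ustContains (G.comap g) S A := by
  rw [ustContains_eq, ustContains_eq]
  congr 2
  · symm
    refine Finset.card_equiv (sym2Equiv g).finsetCongr fun T => ?_
    simp only [Finset.mem_filter, mem_trees, Equiv.finsetCongr_apply, isSpanningTreeOn_map,
      Finset.map_subset_map]
  · symm
    refine Finset.card_equiv (sym2Equiv g).finsetCongr fun T => ?_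
    simp only [mem_trees, Equiv.finsetCongr_apply, isSpanningTreeOn_map]

theorem pairBallSet_comap (g : Equiv.Perm ℕ) (G : SimpleGraph ℕ) (n : ℕ) (e : Sym2 ℕ) :
    sym2Equiv g '' pairBallSet (G.comap g) n e = pairBallSet G n (Sym2.map g e) := by
  ext f
  obtain ⟨f, rfl⟩ := (sym2Equiv g).surjective f
  rw [(sym2Equiv g).injective.mem_set_image]
  have : sym2Equiv g f = Sym2.map g f := rfl
  simp only [pairBallSet, Set.mem_ofPred_eq, this, Sym2.mem_map, mem_reach]
  constructor
  · rintro h _ ⟨w, hw, rfl⟩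
    obtain ⟨v, hv, h'⟩ := h w hw
    exact ⟨g v, ⟨v, hv, rfl⟩, h'⟩
  · intro h w hw
    obtain ⟨_, ⟨v, hv, rfl⟩, h'⟩ := h (g w) ⟨w, hw, rfl⟩
    exact ⟨v, hv, h'⟩

end GraphEquiv

open GraphEquiv

theorem fusfMom_comap (g : Equiv.Perm ℕ) (G : SimpleGraph ℕ) (A : Finset (Sym2 ℕ)) :
    fusfMom (G.comap g) A = fusfMom G (A.map (sym2Equiv g).toEmbedding) := by
  unfold fusfMom
  symm
  rw [← Equiv.iInf_comp (Equiv.finsetCongr g)]
  refine iInf_congr fun S => ?_
  rw [Equiv.finsetCongr_apply, ustContains_map]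
  have h : ((G.induce ((S.map g.toEmbedding : Finset ℕ) : Set ℕ)).Connected ∧
      A.map (sym2Equiv g).toEmbedding ⊆ (S.map g.toEmbedding).sym2) ↔
      (((G.comap g).induce (S : Set ℕ)).Connected ∧ A ⊆ S.sym2) := by
    rw [connected_map, sym2_map, Finset.map_subset_map]
  by_cases h1 : ((G.comap g).induce (S : Set ℕ)).Connected ∧ A ⊆ S.sym2
  · rw [if_pos h1, if_pos (h.2 h1)]
  · rw [if_neg h1, if_neg (fun h2 => h1 (h.1 h2))]

theorem pairBall_comap (g : Equiv.Perm ℕ) (G : SimpleGraph ℕ) (n : ℕ) (e : Sym2 ℕ) :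
    (pairBall (G.comap g) n e).map (sym2Equiv g).toEmbedding = pairBall G n (Sym2.map g e) := by
  have h := pairBallSet_comap g G n e
  have hfin : (pairBallSet (G.comap g) n e).Finite ↔ (pairBallSet G n (Sym2.map g e)).Finite := by
    rw [← h, Set.finite_image_iff (sym2Equiv g).injective.injOn]
  unfold pairBall
  by_cases h1 : (pairBallSet (G.comap g) n e).Finite
  · rw [dif_pos h1, dif_pos (hfin.1 h1)]
    apply Finset.coe_injective
    rw [Finset.coe_map, Set.Finite.coe_toFinset, Set.Finite.coe_toFinset, ← h]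
    rfl
  · rw [dif_neg h1, dif_neg (fun h' => h1 (hfin.2 h'))]
    simp

theorem pairLabel_comap (g : Equiv.Perm ℕ) (G : SimpleGraph ℕ) (x : ℕ → I) :
    pairLabel (G.comap g) (x ∘ g) = pairLabel G x ∘ Sym2.map g := by
  funext e
  induction e using Sym2.ind with
  | _ u v =>
    have hT : splitT (x ∘ g) = splitT x ∘ g := rfl
    have hU : ∀ a k, splitU (x ∘ g) (a, k) = splitU x (g a, k) := fun _ _ => rfl
    simp only [pairLabel, Sym2.lift_mk, Function.comp, Sym2.map_mk, pairLabelAux]
    simp only [hT, hU, pairIdx_comap, Function.comp_apply,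
      EmbeddingLike.apply_eq_iff_eq]

end Crest.Agent.R168
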