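import Crest.Agent.R168.Defs

/-! Measurability of the graph constructions of row 168 in the adjacency table. -/

set_option autoImplicit false
open MeasureTheory unitInterval Filter Topology
open Crest.ProbabilityR Crest.ProbabilityR.Labels Crest.ProbabilityR.SpanningTrees
open Crest.ProbabilityR.StronglyRayleigh Crest.ProbabilityR.GraphTables
noncomputable section
namespace Crest.Agent.R168

namespace GraphMeas

lemma measurable_of_factor {X Y Z : Type*} [MeasurableSpace X] [MeasurableSpace Z] [Countable Y]
    (E : X → Y) (hE : ∀ y, MeasurableSet {x | E x = y}) (f : X → Z)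
    (hf : ∀ x x', E x = E x' → f x = f x') : Measurable f := by
  intro s _
  have : f ⁻¹' s = ⋃ y ∈ {y | ∃ x, E x = y ∧ f x ∈ s}, {x | E x = y} := by
    ext x
    simp only [Set.mem_preimage, Set.mem_iUnion, Set.mem_ofPred_eq, exists_prop]
    constructor
    · intro hx; exact ⟨E x, ⟨x, rfl, hx⟩, rfl⟩
    · rintro ⟨y, ⟨x', h1, h2⟩, h3⟩
      rw [hf x x' (h3.trans h1.symm)]; exact h2
  rw [this]
  exact MeasurableSet.biUnion (Set.to_countable _) fun y _ => hE y

lemma measurable_sInf_nat : Measurable (sInf : Set ℕ → ℕ) := by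
  apply measurable_to_countable'
  intro k
  have : (sInf : Set ℕ → ℕ) ⁻¹' {k} =
      {s | (k ∈ s ∧ ∀ m, m < k → m ∉ s) ∨ (k = 0 ∧ ∀ m, m ∉ s)} := by
    ext s
    simp only [Set.mem_preimage, Set.mem_singleton_iff, Set.mem_ofPred_eq]
    rcases s.eq_empty_or_nonempty with rfl | hs
    · simp [eq_comm]
    · constructor
      · rintro rfl
        exact Or.inl ⟨Nat.sInf_mem hs, fun m hm => Nat.notMem_of_lt_sInf hm⟩
      · rintro (⟨h1, h2⟩ | ⟨_, h2⟩)
        · refine le_antisymm (Nat.sInf_le h1) ?_
          by_contra hlt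
          exact h2 _ (not_le.mp hlt) (Nat.sInf_mem hs)
        · obtain ⟨m, hm⟩ := hs
          exact absurd hm (h2 m)
  rw [this, measurableSet_setOfPred]
  refine Measurable.or (Measurable.and (measurable_set_mem k) ?_)
    (Measurable.and measurable_const ?_)
  · exact Measurable.forall fun m => Measurable.imp measurable_const (measurable_set_notMem m)
  · exact Measurable.forall fun m => measurable_set_notMem m

lemma measurable_entry (i j : ℕ) : Measurable (fun t : ℕ → ℕ → Bool => t i j = true) :=
  Measurable.eq_const (f := fun t : ℕ → ℕ → Bool => t i j) (by fun_prop) true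

lemma measurable_adj (i j : ℕ) :
    Measurable (fun t : ℕ → ℕ → Bool => (graphOfTable t).Adj i j) := by
  simp only [graphOfTable, SimpleGraph.fromRel_adj]
  exact Measurable.and measurable_const ((measurable_entry i j).or (measurable_entry j i))

lemma measurable_mem_edgeSet (e : Sym2 ℕ) :
    Measurable (fun t : ℕ → ℕ → Bool => e ∈ (graphOfTable t).edgeSet) := by
  induction e using Sym2.ind with
  | h u v => simpa only [SimpleGraph.mem_edgeSet] using measurable_adj u v

lemma measurable_mem_reach (n u w : ℕ) :
    Measurable (fun t : ℕ → ℕ → Bool => w ∈ reach (graphOfTable t) n u) := by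
  induction n generalizing w with
  | zero => simp only [reach]; exact measurable_const
  | succ n ih =>
    simp only [reach, Set.mem_union, Set.mem_ofPred_eq]
    exact (ih w).or (Measurable.exists fun w' => (ih w').and (measurable_adj w' w))

lemma mem_edgesIn {G : SimpleGraph ℕ} {S : Finset ℕ} {e : Sym2 ℕ} :
    e ∈ edgesIn G S ↔ e ∈ S.sym2 ∧ e ∈ G.edgeSet := by
  unfold edgesIn
  simp only [Finset.mem_filter]

lemma measurableSet_edgesIn_eq (S : Finset ℕ) (E : Finset (Sym2 ℕ)) :
    MeasurableSet {t : ℕ → ℕ → Bool | edgesIn (graphOfTable t) S = E} := by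
  simp only [Finset.ext_iff, mem_edgesIn]
  rw [measurableSet_setOfPred]
  exact Measurable.forall fun e =>
    (Measurable.and measurable_const (measurable_mem_edgeSet e)).iff measurable_const

lemma induce_congr {G G' : SimpleGraph ℕ} {S : Finset ℕ} (h : edgesIn G S = edgesIn G' S) :
    G.induce (S : Set ℕ) = G'.induce (S : Set ℕ) := by
  ext a b
  have h1 : s(a.1, b.1) ∈ S.sym2 := Finset.mk_mem_sym2_iff.mpr ⟨a.2, b.2⟩
  have h2 := Finset.ext_iff.mp h s(a.1, b.1)
  simp only [mem_edgesIn, h1, true_and, SimpleGraph.mem_edgeSet] at h2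
  simpa using h2

lemma ustContains_congr {G G' : SimpleGraph ℕ} {S : Finset ℕ} (h : edgesIn G S = edgesIn G' S)
    (A : Finset (Sym2 ℕ)) : ustContains G S A = ustContains G' S A := by
  have h1 : IsSpanningTreeOn G S = IsSpanningTreeOn G' S := by
    funext B; unfold IsSpanningTreeOn; rw [h]
  unfold ustContains
  rw [h, h1]

lemma measurable_stepsTo (u v : ℕ) :
    Measurable (fun t : ℕ → ℕ → Bool => stepsTo (graphOfTable t) u v) :=
  measurable_sInf_nat.comp (measurable_set_iff.mpr fun n => measurable_mem_reach n u v)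

lemma measurable_mem_reach_stepsTo (u v w : ℕ) :
    Measurable (fun t : ℕ → ℕ → Bool =>
      w ∈ reach (graphOfTable t) (stepsTo (graphOfTable t) u v) u) := by
  have : (fun t : ℕ → ℕ → Bool => w ∈ reach (graphOfTable t) (stepsTo (graphOfTable t) u v) u) =
      fun t => ∃ n, stepsTo (graphOfTable t) u v = n ∧ w ∈ reach (graphOfTable t) n u := by
    funext t; simp
  rw [this]
  exact Measurable.exists fun n =>
    ((measurable_stepsTo u v).eq_const n).and (measurable_mem_reach n u w)

lemma measurable_splitT (hxi : Measurable xi) (w : ℕ) :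
    Measurable (fun p : (ℕ → ℕ → Bool) × (ℕ → I) => splitT p.2 w) :=
  (measurable_pi_apply 0).comp (hxi.comp ((measurable_pi_apply w).comp measurable_snd))

lemma measurable_lt_splitT (hxi : Measurable xi) (w v : ℕ) :
    Measurable (fun p : (ℕ → ℕ → Bool) × (ℕ → I) => splitT p.2 w < splitT p.2 v) :=
  measurableSet_setOfPred.mp (measurableSet_lt (measurable_splitT hxi w) (measurable_splitT hxi v))

lemma measurable_pairIdx (hxi : Measurable xi) (u v : ℕ) :
    Measurable (fun p : (ℕ → ℕ → Bool) × (ℕ → I) =>
      pairIdx (graphOfTable p.1) (splitT p.2) u v) := by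
  unfold pairIdx
  have h1 : Measurable (fun p : (ℕ → ℕ → Bool) × (ℕ → I) => stepsTo (graphOfTable p.1) u v) :=
    (measurable_stepsTo u v).comp measurable_fst
  have h2 : Measurable (fun p : (ℕ → ℕ → Bool) × (ℕ → I) =>
      {w | w ∈ reach (graphOfTable p.1) (stepsTo (graphOfTable p.1) u v) u ∧
        splitT p.2 w < splitT p.2 v}.ncard) :=
    measurable_ncard.comp (measurable_set_iff.mpr fun w =>
      ((measurable_mem_reach_stepsTo u v w).comp measurable_fst).and
        (measurable_lt_splitT hxi w v))
  exact (Measurable.of_discrete (f := fun q : ℕ × ℕ => Nat.pair q.1 q.2)).comp (h1.prodMk h2)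

lemma measurable_splitU_idx (hxi : Measurable xi) (a u v : ℕ) :
    Measurable (fun p : (ℕ → ℕ → Bool) × (ℕ → I) =>
      splitU p.2 (a, pairIdx (graphOfTable p.1) (splitT p.2) u v)) := by
  have h1 : Measurable (fun q : ((ℕ → ℕ → Bool) × (ℕ → I)) × ℕ => splitU q.1.2 (a, q.2)) :=
    measurable_from_prod_countable_left fun k =>
      (measurable_pi_apply (k + 1)).comp (hxi.comp ((measurable_pi_apply a).comp measurable_snd))
  exact h1.comp (measurable_id.prodMk (measurable_pairIdx hxi u v))

end GraphMeas

open GraphMeas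

theorem measurable_fusfMom (A : Finset (Sym2 ℕ)) :
    Measurable (fun t : ℕ → ℕ → Bool => fusfMom (graphOfTable t) A) := by
  unfold fusfMom
  refine Measurable.iInf fun S => ?_
  refine measurable_of_factor (fun t => edgesIn (graphOfTable t) S) (measurableSet_edgesIn_eq S) _
    fun t t' h => ?_
  have h' : edgesIn (graphOfTable t) S = edgesIn (graphOfTable t') S := h
  have h1 : ((graphOfTable t).induce (S : Set ℕ)).Connected ↔
      ((graphOfTable t').induce (S : Set ℕ)).Connected := by rw [induce_congr h']
  by_cases h2 : ((graphOfTable t').induce (S : Set ℕ)).Connected ∧ A ⊆ S.sym2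
  · rw [if_pos h2, if_pos ⟨h1.mpr h2.1, h2.2⟩, ustContains_congr h']
  · rw [if_neg h2, if_neg fun h3 => h2 ⟨h1.mp h3.1, h3.2⟩]

theorem measurableSet_pairBall_eq (n : ℕ) (e : Sym2 ℕ) (F : Finset (Sym2 ℕ)) :
    MeasurableSet {t : ℕ → ℕ → Bool | pairBall (graphOfTable t) n e = F} := by
  have hP : Measurable (fun t : ℕ → ℕ → Bool => pairBallSet (graphOfTable t) n e) := by
    refine measurable_set_iff.mpr fun f => ?_
    simp only [pairBallSet, Set.mem_ofPred_eq]
    exact Measurable.forall fun w => Measurable.imp measurable_const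
      (Measurable.exists fun v => Measurable.and measurable_const (measurable_mem_reach n v w))
  have : {t : ℕ → ℕ → Bool | pairBall (graphOfTable t) n e = F} =
      (fun t : ℕ → ℕ → Bool => pairBallSet (graphOfTable t) n e) ⁻¹'
        ({(F : Set (Sym2 ℕ))} ∪ ({s | s.Infinite} ∩ {_s | F = ∅})) := by
    ext t
    simp only [Set.mem_ofPred_eq, Set.mem_preimage, Set.mem_union, Set.mem_singleton_iff,
      Set.mem_inter_iff, pairBall]
    by_cases h : (pairBallSet (graphOfTable t) n e).Finite
    · rw [dif_pos h]
      constructor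
      · rintro rfl; left; simp
      · rintro (h1 | ⟨h1, _⟩)
        · apply Finset.coe_injective; simp [h1]
        · exact absurd h h1
    · rw [dif_neg h]
      constructor
      · rintro rfl; exact Or.inr ⟨h, rfl⟩
      · rintro (h1 | ⟨_, h1⟩)
        · exact absurd (h1 ▸ F.finite_toSet) h
        · exact h1.symm
  rw [this]
  exact hP ((measurableSet_singleton _).union
    (MeasurableSet.setOfPred_infinite.inter (MeasurableSet.const _)))

theorem measurable_pairLabel_of (hxi : Measurable xi) :
    Measurable (fun p : (ℕ → ℕ → Bool) × (ℕ → I) => pairLabel (graphOfTable p.1) p.2) := by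
  refine measurable_pi_lambda _ fun e => ?_
  induction e using Sym2.ind with
  | h u v =>
    simp only [pairLabel, Sym2.lift_mk, pairLabelAux]
    refine Measurable.ite (measurable_lt_splitT hxi u v).setOf (measurable_splitU_idx hxi u u v) ?_
    refine Measurable.ite (measurable_lt_splitT hxi v u).setOf (measurable_splitU_idx hxi v v u) ?_
    exact Measurable.ite (MeasurableSet.const _) (measurable_splitU_idx hxi u u u) measurable_const

theorem graphOfTable_tableOf (G : SimpleGraph ℕ) : graphOfTable (tableOf G) = G := by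
  ext i j
  simp only [graphOfTable, tableOf, SimpleGraph.fromRel_adj, decide_eq_true_eq]
  constructor
  · rintro ⟨_, h | h⟩
    · exact h
    · exact h.symm
  · intro h; exact ⟨h.ne, Or.inl h⟩

end Crest.Agent.R168

end
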