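import Crest.Agent.R168.Defs
set_option autoImplicit false
open MeasureTheory unitInterval Filter Topology
open Crest.ProbabilityR Crest.ProbabilityR.Labels Crest.ProbabilityR.SpanningTrees
noncomputable section
namespace Crest.Agent.R168

namespace PairLaw

lemma reach_finite (G : SimpleGraph ℕ) (hlf : ∀ v : ℕ, (G.neighborSet v).Finite) (n u : ℕ) :
    (reach G n u).Finite := by
  induction n with
  | zero => simp [reach]
  | succ n ih =>
    rw [reach]
    refine ih.union ((ih.biUnion (fun w _ => hlf w)).subset ?_)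
    rintro w ⟨w', h1, h2⟩
    exact Set.mem_biUnion h1 h2

lemma reach_mono (G : SimpleGraph ℕ) (u : ℕ) : Monotone (fun n => reach G n u) :=
  monotone_nat_of_le_succ fun n => by rw [reach]; exact Set.subset_union_left

lemma exists_mem_reach (G : SimpleGraph ℕ) (hG : G.Connected) (u v : ℕ) :
    ∃ n, v ∈ reach G n u := by
  have h := (SimpleGraph.reachable_iff_reflTransGen u v).1 (hG.preconnected u v)
  induction h with
  | refl => exact ⟨0, by simp [reach]⟩
  | tail _ hadj ih =>
    obtain ⟨n, hn⟩ := ih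
    exact ⟨n + 1, Or.inr ⟨_, hn, hadj⟩⟩

lemma pairBallSet_finite (G : SimpleGraph ℕ) (hlf : ∀ v : ℕ, (G.neighborSet v).Finite) (n : ℕ)
    (e : Sym2 ℕ) : (pairBallSet G n e).Finite := by
  induction e using Sym2.ind with
  | _ a b =>
    have hfin := (reach_finite G hlf n a).union (reach_finite G hlf n b)
    refine (hfin.toFinset.sym2).finite_toSet.subset ?_
    intro f hf
    rw [Finset.mem_coe, Finset.mem_sym2_iff]
    intro w hw
    obtain ⟨v, hv, hvw⟩ := hf w hw
    rw [Set.Finite.mem_toFinset]
    rcases Sym2.mem_iff.1 hv with rfl | rfl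
    · exact Or.inl hvw
    · exact Or.inr hvw

lemma mem_pairBall (G : SimpleGraph ℕ) (hlf : ∀ v : ℕ, (G.neighborSet v).Finite) (n : ℕ)
    (e f : Sym2 ℕ) : f ∈ pairBall G n e ↔ f ∈ pairBallSet G n e := by
  rw [pairBall, dif_pos (pairBallSet_finite G hlf n e), Set.Finite.mem_toFinset]

lemma pairIdx_inj (G : SimpleGraph ℕ) (hG : G.Connected)
    (hlf : ∀ v : ℕ, (G.neighborSet v).Finite) {t : ℕ → I} (ht : Function.Injective t) (u : ℕ) :
    Function.Injective (pairIdx G t u) := by
  intro v w h
  rw [pairIdx, pairIdx, Nat.pair_eq_pair] at h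
  obtain ⟨h1, h2⟩ := h
  have hv : v ∈ reach G (stepsTo G u v) u := Nat.sInf_mem (exists_mem_reach G hG u v)
  have hw : w ∈ reach G (stepsTo G u w) u := Nat.sInf_mem (exists_mem_reach G hG u w)
  rw [← h1] at h2 hw
  have key : ∀ a b : ℕ, a ∈ reach G (stepsTo G u v) u → t a < t b →
      {z | z ∈ reach G (stepsTo G u v) u ∧ t z < t a}.ncard <
        {z | z ∈ reach G (stepsTo G u v) u ∧ t z < t b}.ncard := by
    intro a b ha hab
    apply Set.ncard_lt_ncard _ ((reach_finite G hlf _ u).subset fun z hz => hz.1)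
    refine ⟨fun z hz => ⟨hz.1, hz.2.trans hab⟩, fun hh => ?_⟩
    exact lt_irrefl _ (hh ⟨ha, hab⟩).2
  rcases lt_trichotomy (t v) (t w) with h | h | h
  · exact absurd h2 (key v w hv h).ne
  · exact ht h
  · exact absurd h2.symm (key w v hw h).ne

/-- index of the noise label used by an ordered pair -/
def idxAux (G : SimpleGraph ℕ) (t : ℕ → I) (u v : ℕ) : ℕ × ℕ :=
  if t u < t v then (u, pairIdx G t u v)
  else if t v < t u then (v, pairIdx G t v u)
  else if u = v then (u, pairIdx G t u u) else (0, 0)

lemma idxAux_comm (G : SimpleGraph ℕ) (t : ℕ → I) (u v : ℕ) :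
    idxAux G t u v = idxAux G t v u := by
  unfold idxAux
  rcases lt_trichotomy (t u) (t v) with h | h | h
  · simp [h, h.not_gt]
  · by_cases huv : u = v
    · subst huv; simp
    · simp [h, huv, Ne.symm huv]
  · simp [h, h.not_gt]

/-- index of the noise label used by an unordered pair -/
def idx (G : SimpleGraph ℕ) (t : ℕ → I) : Sym2 ℕ → ℕ × ℕ :=
  Sym2.lift ⟨idxAux G t, idxAux_comm G t⟩

lemma exists_rep {t : ℕ → I} (G : SimpleGraph ℕ) (ht : Function.Injective t) (e : Sym2 ℕ) :
    ∃ u v, e = s(u, v) ∧ idx G t e = (u, pairIdx G t u v) ∧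
      ∀ y, (Sym2.lift ⟨pairLabelAux G t y, pairLabelAux_comm G _ _⟩ : Sym2 ℕ → I) e =
        y (u, pairIdx G t u v) := by
  induction e using Sym2.ind with
  | _ a b =>
    rcases lt_trichotomy (t a) (t b) with h | h | h
    · exact ⟨a, b, rfl, by simp [idx, idxAux, h], fun y => by simp [pairLabelAux, h]⟩
    · obtain rfl := ht h
      exact ⟨a, a, rfl, by simp [idx, idxAux], fun y => by simp [pairLabelAux]⟩
    · exact ⟨b, a, Sym2.eq_swap, by simp [idx, idxAux, h, h.not_gt],
        fun y => by simp [pairLabelAux, h, h.not_gt]⟩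

lemma idx_inj (G : SimpleGraph ℕ) (hG : G.Connected)
    (hlf : ∀ v : ℕ, (G.neighborSet v).Finite) {t : ℕ → I} (ht : Function.Injective t) :
    Function.Injective (idx G t) := by
  intro e f h
  obtain ⟨u, v, rfl, h1, -⟩ := exists_rep G ht e
  obtain ⟨u', v', rfl, h2, -⟩ := exists_rep G ht f
  rw [h1, h2, Prod.mk.injEq] at h
  obtain ⟨rfl, h⟩ := h
  rw [pairIdx_inj G hG hlf ht u h]

/-- the joint rule -/
def lam (G : SimpleGraph ℕ) (q : (ℕ → I) × (ℕ × ℕ → I)) : Sym2 ℕ → I :=
  Sym2.lift ⟨pairLabelAux G q.1 q.2, pairLabelAux_comm G _ _⟩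

lemma measurable_pairIdx (G : SimpleGraph ℕ) (u v : ℕ) :
    Measurable (fun t : ℕ → I => pairIdx G t u v) := by
  unfold pairIdx
  refine (Measurable.of_discrete (f := Nat.pair (stepsTo G u v))).comp
    (measurable_ncard.comp ?_)
  rw [measurable_set_iff]
  intro w
  simp only [Set.mem_ofPred_eq]
  refine Measurable.and measurable_const ?_
  exact measurableSet_setOfPred.1 (measurableSet_lt (measurable_pi_apply w) (measurable_pi_apply v))

lemma measurable_eval_idx (G : SimpleGraph ℕ) (u v : ℕ) :
    Measurable (fun q : (ℕ → I) × (ℕ × ℕ → I) => q.2 (u, pairIdx G q.1 u v)) := by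
  have h : Measurable (fun r : (ℕ × ℕ → I) × ℕ => r.1 (u, r.2)) :=
    measurable_from_prod_countable_left fun k => measurable_pi_apply (u, k)
  exact h.comp (measurable_snd.prodMk ((measurable_pairIdx G u v).comp measurable_fst))

lemma measurable_lam (G : SimpleGraph ℕ) : Measurable (lam G) := by
  refine measurable_pi_lambda _ fun e => ?_
  induction e using Sym2.ind with
  | _ a b =>
    simp only [lam, Sym2.lift_mk, pairLabelAux]
    have hlt : ∀ a b : ℕ, MeasurableSet {q : (ℕ → I) × (ℕ × ℕ → I) | q.1 a < q.1 b} := fun a b =>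
      measurableSet_lt ((measurable_pi_apply a).comp measurable_fst)
        ((measurable_pi_apply b).comp measurable_fst)
    refine Measurable.ite (hlt a b) (measurable_eval_idx G a b)
      (Measurable.ite (hlt b a) (measurable_eval_idx G b a) ?_)
    by_cases h : a = b
    · simpa [h] using measurable_eval_idx G b b
    · simp [h]

lemma ae_injective : ∀ᵐ t ∂(labelMeasure ℕ), Function.Injective t := by
  have : ∀ i j : ℕ, ∀ᵐ t ∂(labelMeasure ℕ), t i = t j → i = j := by
    intro i j
    by_cases h : i = j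
    · exact Eventually.of_forall fun _ _ => h
    have hm : MeasurableSet {q : I × I | q.1 = q.2} := measurableSet_eq_fun measurable_fst measurable_snd
    have h0 : (labelMeasure ℕ) ((fun t : ℕ → I => (t i, t j)) ⁻¹' {q : I × I | q.1 = q.2}) = 0 := by
      rw [← Measure.map_apply (by fun_prop) hm, labelMeasure, Measure.infinitePi_map_eval_prod h]
      apply Measure.measure_prod_null_of_ae_null hm
      refine Eventually.of_forall fun x => ?_
      have : Prod.mk x ⁻¹' {q : I × I | q.1 = q.2} = {x} := by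
        ext y; simp [eq_comm]
      simp [this]
    rw [ae_iff]
    refine measure_mono_null ?_ h0
    intro t ht
    simp only [Set.mem_ofPred_eq, Classical.not_imp] at ht
    exact ht.1
  have h2 := ae_all_iff.2 fun i => ae_all_iff.2 (this i)
  filter_upwards [h2] with t ht i j hij using ht i j hij

lemma measurePreserving_lam (G : SimpleGraph ℕ) (hG : G.Connected)
    (hlf : ∀ v : ℕ, (G.neighborSet v).Finite) :
    MeasurePreserving (lam G) ((labelMeasure ℕ).prod (labelMeasure (ℕ × ℕ)))
      (labelMeasure (Sym2 ℕ)) := by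
  have i1 : IsProbabilityMeasure (labelMeasure ℕ) := by unfold labelMeasure; infer_instance
  have i2 : IsProbabilityMeasure (labelMeasure (ℕ × ℕ)) := by unfold labelMeasure; infer_instance
  refine ⟨measurable_lam G, ?_⟩
  ext s hs
  rw [Measure.map_apply (measurable_lam G) hs, Measure.prod_apply (measurable_lam G hs)]
  have : ∀ᵐ t ∂(labelMeasure ℕ), labelMeasure (ℕ × ℕ) (Prod.mk t ⁻¹' (lam G ⁻¹' s)) =
      labelMeasure (Sym2 ℕ) s := by
    filter_upwards [ae_injective] with t ht
    have e1 : Prod.mk t ⁻¹' (lam G ⁻¹' s) = (fun (y : ℕ × ℕ → I) e => y (idx G t e)) ⁻¹' s := by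
      ext y
      have : lam G (t, y) = fun e => y (idx G t e) := by
        funext e
        obtain ⟨u, v, -, h1, h2⟩ := exists_rep G ht e
        rw [h1]
        exact h2 y
      simp [this]
    rw [e1, ← Measure.map_apply (by fun_prop) hs, labelMeasure,
      Measure.map_infinitePi_infinitePi_of_inj (idx_inj G hG hlf ht), labelMeasure]
  rw [lintegral_congr_ae this]
  simp

end PairLaw

open PairLaw in
theorem tendsto_pairBall (G : SimpleGraph ℕ) (hG : G.Connected)
    (hlf : ∀ v : ℕ, (G.neighborSet v).Finite) (e : Sym2 ℕ) :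
    Tendsto (fun n => pairBall G n e) atTop atTop := by
  apply tendsto_atTop_finset_of_monotone
  · intro m n hmn f hf
    rw [mem_pairBall G hlf] at hf ⊢
    intro w hw
    obtain ⟨v, hv, h⟩ := hf w hw
    exact ⟨v, hv, reach_mono G v hmn h⟩
  · intro f
    induction e using Sym2.ind with
    | _ a b =>
      induction f using Sym2.ind with
      | _ c d =>
        obtain ⟨m, hm⟩ := exists_mem_reach G hG a c
        obtain ⟨n, hn⟩ := exists_mem_reach G hG a d
        refine ⟨max m n, (mem_pairBall G hlf _ _ _).2 fun w hw => ⟨a, Sym2.mem_mk_left a b, ?_⟩⟩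
        rcases Sym2.mem_iff.1 hw with rfl | rfl
        · exact reach_mono G a (le_max_left m n) hm
        · exact reach_mono G a (le_max_right m n) hn

theorem measurePreserving_pairLabel_of (G : SimpleGraph ℕ) (hG : G.Connected)
    (hlf : ∀ v : ℕ, (G.neighborSet v).Finite)
    (hsplit : MeasurePreserving (fun z : ℕ → I => (splitT z, splitU z)) (labelMeasure ℕ)
      ((labelMeasure ℕ).prod (labelMeasure (ℕ × ℕ))))
    (hmeas : Measurable (pairLabel G)) :
    MeasurePreserving (pairLabel G) (labelMeasure ℕ) (labelMeasure (Sym2 ℕ)) :=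
  (PairLaw.measurePreserving_lam G hG hlf).comp hsplit

end Crest.Agent.R168

end
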