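import Crest.Agent.R168.Defs

/-! Strongly Rayleigh laws: the event "occupied on `A`" and the event "vacant on `R`" are
positively correlated for disjoint finite `A`, `R`. -/

set_option autoImplicit false
open MeasureTheory unitInterval Filter Topology
open Crest.ProbabilityR Crest.ProbabilityR.Labels Crest.ProbabilityR.SpanningTrees
open Crest.ProbabilityR.StronglyRayleigh Crest.ProbabilityR.GraphTables
noncomputable section
namespace Crest.Agent.R168

namespace SRNeg

variable {V : Type*} [DecidableEq V]

/-- A multi-affine polynomial with coefficients `p` on the subsets of `F`. -/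
def gen {K : Type*} [CommRing K] (p : Finset V → K) (F : Finset V) (z : V → K) : K :=
  ∑ S ∈ F.powerset, p S * ∏ i ∈ S, z i

lemma gen_aff {K : Type*} [CommRing K] (p : Finset V → K) (F : Finset V) (z : V → K) (i : V)
    (a : K) : gen p F (Function.update z i a) = gen p F (Function.update z i 0) +
      a * (gen p F (Function.update z i 1) - gen p F (Function.update z i 0)) := by
  unfold gen
  rw [← Finset.sum_sub_distrib, Finset.mul_sum, ← Finset.sum_add_distrib]
  refine Finset.sum_congr rfl fun S _ => ?_
  by_cases hi : i ∈ S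
  · simp only [Finset.prod_update_of_mem hi]; ring
  · simp only [Finset.prod_update_of_notMem hi]; ring

omit [DecidableEq V] in
lemma gen_ofReal (p : Finset V → ℝ) (F : Finset V) (w : V → ℝ) :
    gen (fun S => (p S : ℂ)) F (fun k => (w k : ℂ)) = ((gen p F w : ℝ) : ℂ) := by
  simp [gen]

omit [DecidableEq V] in
lemma gen_continuous (p : Finset V → ℂ) (F : Finset V) : Continuous (gen p F) := by
  unfold gen
  fun_prop

lemma im_nonneg (p : Finset V → ℂ) (F : Finset V)
    (h : ∀ z : V → ℂ, (∀ i ∈ F, 0 < (z i).im) → gen p F z ≠ 0) (i : V) (z : V → ℂ)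
    (hz : ∀ k ∈ F, k ≠ i → 0 < (z k).im) :
    0 ≤ (gen p F (Function.update z i 0) *
      (starRingEnd ℂ) (gen p F (Function.update z i 1))).im := by
  set A := gen p F (Function.update z i 0) with hA
  set A' := gen p F (Function.update z i 1) with hA'
  by_contra hneg
  push Not at hneg
  have hB : A' - A ≠ 0 := by
    intro e
    have : A' = A := sub_eq_zero.1 e
    rw [this, Complex.mul_conj] at hneg
    simp at hneg
  have hpos : 0 < (-A / (A' - A)).im := by
    rw [Complex.div_im]
    have hn : 0 < Complex.normSq (A' - A) := Complex.normSq_pos.2 hB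
    rw [← sub_div]
    apply div_pos _ hn
    simp only [Complex.mul_im, Complex.conj_re, Complex.conj_im, Complex.neg_im, Complex.neg_re,
      Complex.sub_re, Complex.sub_im] at hneg ⊢
    nlinarith
  apply h (Function.update z i (-A / (A' - A)))
  · intro k hk
    by_cases e : k = i
    · subst e; simpa using hpos
    · rw [Function.update_of_ne e]; exact hz k hk e
  · rw [gen_aff, ← hA, ← hA']
    field_simp
    ring

lemma rayleigh (p : Finset V → ℝ) (F : Finset V)
    (h : ∀ z : V → ℂ, (∀ i ∈ F, 0 < (z i).im) → gen (fun S => (p S : ℂ)) F z ≠ 0)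
    (i j : V) (hij : i ≠ j) (w : V → ℝ) :
    gen p F (Function.update (Function.update w i 0) j 0) *
        gen p F (Function.update (Function.update w i 1) j 1) ≤
      gen p F (Function.update (Function.update w i 0) j 1) *
        gen p F (Function.update (Function.update w i 1) j 0) := by
  let z : ℝ → V → ℂ := fun ε => Function.update (fun k => (w k : ℂ) + ε * Complex.I) j Complex.I
  let f : ℝ → ℝ := fun ε => (gen (fun S => (p S : ℂ)) F (Function.update (z ε) i 0) *
      (starRingEnd ℂ) (gen (fun S => (p S : ℂ)) F (Function.update (z ε) i 1))).im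
  have hzc : Continuous z := by
    refine Continuous.update (continuous_pi fun k => ?_) j continuous_const
    fun_prop
  have hf : Continuous f := by
    refine Complex.continuous_im.comp (Continuous.mul ?_ (Complex.continuous_conj.comp ?_))
    · exact (gen_continuous _ _).comp (hzc.update i continuous_const)
    · exact (gen_continuous _ _).comp (hzc.update i continuous_const)
  have h0 : 0 ≤ f 0 := by
    have ht : Tendsto f (𝓝[>] 0) (𝓝 (f 0)) := hf.continuousAt.tendsto.mono_left nhdsWithin_le_nhds
    refine ge_of_tendsto ht ?_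
    filter_upwards [self_mem_nhdsWithin] with ε hε
    refine im_nonneg _ F h i (z ε) fun k _ _ => ?_
    by_cases e : k = j
    · subst e; simp [z]
    · simpa [z, Function.update_of_ne e] using hε
  have key : ∀ a : ℝ, gen (fun S => (p S : ℂ)) F (Function.update (z 0) i (a : ℂ)) =
      (gen p F (Function.update (Function.update w i a) j 0) : ℝ) + Complex.I *
        ((gen p F (Function.update (Function.update w i a) j 1) : ℝ) -
          (gen p F (Function.update (Function.update w i a) j 0) : ℝ)) := by
    intro a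
    have e : ∀ b : ℝ, Function.update (Function.update (fun k => (w k : ℂ)) i (a : ℂ)) j (b : ℂ) =
        fun k => ((Function.update (Function.update w i a) j b k : ℝ) : ℂ) := by
      intro b
      funext k
      simp only [Function.update_apply]
      split_ifs <;> rfl
    have e0 := e 0
    have e1 := e 1
    simp only [Complex.ofReal_zero, Complex.ofReal_one] at e0 e1
    simp only [z, Complex.ofReal_zero, zero_mul, add_zero]
    rw [Function.update_comm hij.symm, gen_aff, e0, e1, gen_ofReal, gen_ofReal]
  have k0 := key 0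
  have k1 := key 1
  simp only [Complex.ofReal_zero, Complex.ofReal_one] at k0 k1
  simp only [f, k0, k1] at h0
  simp at h0
  nlinarith

lemma four_point (p : Finset V → ℝ) (F : Finset V)
    (h : ∀ z : V → ℂ, (∀ i ∈ F, 0 < (z i).im) → gen (fun S => (p S : ℂ)) F z ≠ 0)
    (i j : V) (hij : i ≠ j) (w : V → ℝ) (a b : ℝ) (ha : w i ≤ a) (hb : b ≤ w j) :
    gen p F (Function.update w i a) * gen p F (Function.update w j b) ≤
      gen p F (Function.update (Function.update w j b) i a) * gen p F w := by
  have hr := rayleigh p F h i j hij w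
  have G : ∀ x y : ℝ, gen p F (Function.update (Function.update w i x) j y) =
      (1 - x) * (1 - y) * gen p F (Function.update (Function.update w i 0) j 0) +
      (1 - x) * y * gen p F (Function.update (Function.update w i 0) j 1) +
      x * (1 - y) * gen p F (Function.update (Function.update w i 1) j 0) +
      x * y * gen p F (Function.update (Function.update w i 1) j 1) := by
    intro x y
    rw [gen_aff p F (Function.update w i x) j y]
    simp only [Function.update_comm hij]
    rw [gen_aff p F (Function.update w j 0) i x, gen_aff p F (Function.update w j 1) i x]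
    ring
  have e1 : Function.update w i a = Function.update (Function.update w i a) j (w j) := by
    rw [Function.update_comm hij, Function.update_eq_self]
  have e2 : Function.update w j b = Function.update (Function.update w i (w i)) j b := by
    rw [Function.update_eq_self]
  have e3 : w = Function.update (Function.update w i (w i)) j (w j) := by
    rw [Function.update_eq_self, Function.update_eq_self]
  have e4 : Function.update (Function.update w j b) i a =
      Function.update (Function.update w i a) j b := (Function.update_comm hij a b w).symm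
  have g1 := G a (w j)
  have g2 := G (w i) b
  have g3 := G (w i) (w j)
  have g4 := G a b
  rw [← e1] at g1
  rw [← e2] at g2
  rw [← e3] at g3
  rw [e4, g1, g2, g4]
  set G00 := gen p F (Function.update (Function.update w i 0) j 0)
  set G01 := gen p F (Function.update (Function.update w i 0) j 1)
  set G10 := gen p F (Function.update (Function.update w i 1) j 0)
  set G11 := gen p F (Function.update (Function.update w i 1) j 1)
  rw [g3]
  have := mul_nonneg (mul_nonneg (sub_nonneg.2 ha) (sub_nonneg.2 hb)) (sub_nonneg.2 hr)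
  nlinarith

lemma chain_one (g : (V → ℝ) → ℝ) (hpos : ∀ w, (∀ k, 0 < w k) → 0 < g w)
    (h4 : ∀ i j, i ≠ j → ∀ (w : V → ℝ) (a b : ℝ), w i ≤ a → b ≤ w j →
      g (Function.update w i a) * g (Function.update w j b) ≤
        g (Function.update (Function.update w j b) i a) * g w)
    (i : V) (a : ℝ) (w v : V → ℝ) (hw : ∀ k, 0 < w k) (hv : ∀ k, 0 < v k) (ha : w i ≤ a)
    (R : Finset V) (hi : i ∉ R) (hR : ∀ j ∈ R, v j ≤ w j) :
    g (Function.update w i a) * g (R.piecewise v w) ≤
      g (Function.update (R.piecewise v w) i a) * g w := by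
  induction R using Finset.induction_on with
  | empty => simp
  | insert j R hj ih =>
    have hi' : i ∉ R := fun e => hi (Finset.mem_insert_of_mem e)
    have hij : i ≠ j := fun e => hi (e ▸ Finset.mem_insert_self _ _)
    have ih' := ih hi' fun k hk => hR k (Finset.mem_insert_of_mem hk)
    rw [Finset.piecewise_insert]
    set w₁ := R.piecewise v w with hw₁
    have hw₁p : ∀ k, 0 < w₁ k := fun k => by
      simp only [hw₁, Finset.piecewise]; split_ifs; exacts [hv k, hw k]
    have h1 := h4 i j hij w₁ a (v j) (by rwa [hw₁, Finset.piecewise_eq_of_notMem _ _ _ hi'])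
      (by rw [hw₁, Finset.piecewise_eq_of_notMem _ _ _ hj]; exact hR j (Finset.mem_insert_self _ _))
    have up : ∀ (u : V → ℝ) (k : V) (c : ℝ), (∀ l, 0 < u l) → 0 < c →
        ∀ l, 0 < Function.update u k c l := by
      intro u k c hu hc l
      rw [Function.update_apply]; split_ifs; exacts [hc, hu l]
    have ha0 : 0 < a := (hw i).trans_le ha
    have p1 := hpos _ hw₁p
    have p2 := hpos _ (up w₁ i a hw₁p ha0)
    have p3 := hpos _ (up w i a hw ha0)
    have p4 := hpos _ (up w₁ j (v j) hw₁p (hv j))
    have p5 := hpos _ hw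
    have := mul_le_mul ih' h1 (by positivity) (by positivity)
    have p6 := mul_pos p1 p2
    refine le_of_mul_le_mul_right ?_ p6
    nlinarith

lemma chain (g : (V → ℝ) → ℝ) (hpos : ∀ w, (∀ k, 0 < w k) → 0 < g w)
    (h4 : ∀ i j, i ≠ j → ∀ (w : V → ℝ) (a b : ℝ), w i ≤ a → b ≤ w j →
      g (Function.update w i a) * g (Function.update w j b) ≤
        g (Function.update (Function.update w j b) i a) * g w)
    (w u v : V → ℝ) (hw : ∀ k, 0 < w k) (hu : ∀ k, 0 < u k) (hv : ∀ k, 0 < v k)
    (R : Finset V) (hR : ∀ j ∈ R, v j ≤ w j) (A : Finset V) (hA : ∀ i ∈ A, w i ≤ u i)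
    (hAR : Disjoint A R) :
    g (A.piecewise u w) * g (R.piecewise v w) ≤ g (A.piecewise u (R.piecewise v w)) * g w := by
  induction A using Finset.induction_on with
  | empty => simp [mul_comm]
  | insert i A hi ih =>
    rw [Finset.disjoint_insert_left] at hAR
    have ih' := ih (fun k hk => hA k (Finset.mem_insert_of_mem hk)) hAR.2
    rw [Finset.piecewise_insert, Finset.piecewise_insert]
    have pw : ∀ (s : Finset V) (x y : V → ℝ), (∀ k, 0 < x k) → (∀ k, 0 < y k) →
        ∀ k, 0 < s.piecewise x y k := by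
      intro s x y hx hy k
      simp only [Finset.piecewise]; split_ifs; exacts [hx k, hy k]
    set w₂ := A.piecewise u w with hw₂
    have hw₂p : ∀ k, 0 < w₂ k := pw A u w hu hw
    have h1 := chain_one g hpos h4 i (u i) w₂ v hw₂p hv
      (by rw [hw₂, Finset.piecewise_eq_of_notMem _ _ _ hi]; exact hA i (Finset.mem_insert_self _ _))
      R hAR.1 (fun j hj => by
        rw [hw₂, Finset.piecewise_eq_of_notMem _ _ _ (Finset.disjoint_right.1 hAR.2 hj)]
        exact hR j hj)
    have e : R.piecewise v w₂ = A.piecewise u (R.piecewise v w) := by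
      funext k
      simp only [hw₂, Finset.piecewise]
      by_cases h1 : k ∈ R
      · simp [h1, Finset.disjoint_right.1 hAR.2 h1]
      · simp [h1]
    rw [e] at h1
    have up : ∀ (u : V → ℝ) (k : V) (c : ℝ), (∀ l, 0 < u l) → 0 < c →
        ∀ l, 0 < Function.update u k c l := by
      intro u k c hu hc l
      rw [Function.update_apply]; split_ifs; exacts [hc, hu l]
    have p1 := hpos _ hw₂p
    have p2 := hpos _ (pw A u _ hu (pw R v w hv hw))
    have p3 := hpos _ (up w₂ i (u i) hw₂p (hu i))
    have p4 := hpos _ (pw R v w hv hw)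
    have p5 := hpos _ hw
    have := mul_le_mul ih' h1 (by positivity) (by positivity)
    have p6 := mul_pos p1 p2
    refine le_of_mul_le_mul_right ?_ p6
    nlinarith

/-- The normalised partition function. -/
def phi (p : Finset V → ℝ) (A R : Finset V) (s t : ℝ) : ℝ :=
  ∑ S ∈ (A ∪ R).powerset, p S *
    ((∏ i ∈ A, if i ∈ S then 1 else s) * ∏ j ∈ R, if j ∈ S then t else 1)

lemma gen_eq_phi (p : Finset V → ℝ) (A R : Finset V) (hAR : Disjoint A R) (s t : ℝ) (hs : s ≠ 0)
    (w : V → ℝ) (hA : ∀ i ∈ A, w i = s⁻¹) (hR : ∀ j ∈ R, w j = t) :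
    gen p (A ∪ R) w = s⁻¹ ^ A.card * phi p A R s t := by
  unfold gen phi
  rw [Finset.mul_sum]
  refine Finset.sum_congr rfl fun S hS => ?_
  have hS' := Finset.mem_powerset.1 hS
  have e1 : ∏ i ∈ S, w i = ∏ i ∈ A ∪ R, if i ∈ S then w i else 1 := by
    rw [Finset.prod_ite_mem, Finset.inter_eq_right.2 hS']
  rw [e1, Finset.prod_union hAR, ← Finset.prod_const]
  have e2 : (∏ i ∈ A, if i ∈ S then w i else 1) =
      (∏ _i ∈ A, s⁻¹) * ∏ i ∈ A, if i ∈ S then 1 else s := by
    rw [← Finset.prod_mul_distrib]
    refine Finset.prod_congr rfl fun i hi => ?_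
    split_ifs
    · rw [hA i hi, mul_one]
    · rw [inv_mul_cancel₀ hs]
  have e3 : (∏ j ∈ R, if j ∈ S then w j else 1) = ∏ j ∈ R, if j ∈ S then t else 1 := by
    refine Finset.prod_congr rfl fun j hj => ?_
    rw [hR j hj]
  rw [e2, e3]
  ring

lemma phi_ineq (p : Finset V → ℝ) (A R : Finset V) (hAR : Disjoint A R) (hp : ∀ S, 0 ≤ p S)
    (hsum : ∑ S ∈ (A ∪ R).powerset, p S = 1)
    (h : ∀ z : V → ℂ, (∀ i ∈ A ∪ R, 0 < (z i).im) → gen (fun S => (p S : ℂ)) (A ∪ R) z ≠ 0) :
    phi p A R 0 1 * phi p A R 1 0 ≤ phi p A R 0 0 * phi p A R 1 1 := by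
  have hpos : ∀ w : V → ℝ, (∀ k, 0 < w k) → 0 < gen p (A ∪ R) w := by
    intro w hw
    obtain ⟨S, hS, hS0⟩ : ∃ S ∈ (A ∪ R).powerset, p S ≠ 0 :=
      Finset.exists_ne_zero_of_sum_ne_zero (by rw [hsum]; exact one_ne_zero)
    refine Finset.sum_pos' (fun T _ => mul_nonneg (hp T)
      (Finset.prod_nonneg fun k _ => (hw k).le)) ⟨S, hS, ?_⟩
    exact mul_pos (lt_of_le_of_ne (hp S) hS0.symm) (Finset.prod_pos fun k _ => hw k)
  have hc : ∀ (f g : ℝ → ℝ), Continuous f → Continuous g →
      Continuous fun t => phi p A R (f t) (g t) := by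
    intro f g hf hg
    unfold phi
    refine continuous_finset_sum _ fun S _ => continuous_const.mul (Continuous.mul
      (continuous_finset_prod _ fun i _ => ?_) (continuous_finset_prod _ fun i _ => ?_))
    · split_ifs; exacts [continuous_const, hf]
    · split_ifs; exacts [hg, continuous_const]
  have main : ∀ t : ℝ, 0 < t → t ≤ 1 →
      phi p A R t 1 * phi p A R 1 t ≤ phi p A R t t * phi p A R 1 1 := by
    intro t ht ht1
    have := chain (gen p (A ∪ R)) hpos (four_point p (A ∪ R) h) (fun _ => 1) (fun _ => t⁻¹)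
      (fun _ => t) (fun _ => one_pos) (fun _ => inv_pos.2 ht) (fun _ => ht) R (fun _ _ => ht1) A
      (fun _ _ => (one_le_inv₀ ht).2 ht1) hAR
    rw [gen_eq_phi p A R hAR t 1 ht.ne' _ (fun i hi => Finset.piecewise_eq_of_mem _ _ _ hi)
        (fun j hj => Finset.piecewise_eq_of_notMem _ _ _ (Finset.disjoint_right.1 hAR hj)),
      gen_eq_phi p A R hAR 1 t one_ne_zero _
        (fun i hi => by
          rw [Finset.piecewise_eq_of_notMem _ _ _ (Finset.disjoint_left.1 hAR hi), inv_one])
        (fun j hj => Finset.piecewise_eq_of_mem _ _ _ hj),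
      gen_eq_phi p A R hAR t t ht.ne' _ (fun i hi => Finset.piecewise_eq_of_mem _ _ _ hi)
        (fun j hj => by
          rw [Finset.piecewise_eq_of_notMem _ _ _ (Finset.disjoint_right.1 hAR hj),
            Finset.piecewise_eq_of_mem _ _ _ hj]),
      gen_eq_phi p A R hAR 1 1 one_ne_zero _ (fun _ _ => inv_one.symm) (fun _ _ => rfl)] at this
    simp only [inv_one, one_pow, one_mul] at this
    have hq : 0 < t⁻¹ ^ A.card := pow_pos (inv_pos.2 ht) _
    refine le_of_mul_le_mul_left ?_ hq
    nlinarith
  have c1 : Continuous fun t : ℝ => phi p A R t 1 * phi p A R 1 t :=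
    (hc _ _ continuous_id continuous_const).mul (hc _ _ continuous_const continuous_id)
  have c2 : Continuous fun t : ℝ => phi p A R t t * phi p A R 1 1 :=
    (hc _ _ continuous_id continuous_id).mul continuous_const
  refine le_of_tendsto_of_tendsto (b := 𝓝[>] (0 : ℝ))
    ((c1.tendsto 0).mono_left nhdsWithin_le_nhds) ((c2.tendsto 0).mono_left nhdsWithin_le_nhds) ?_
  filter_upwards [Ioc_mem_nhdsGT (zero_lt_one' ℝ)] with t ht
  exact main t ht.1 ht.2

lemma mass_eq (ν : Measure (V → Bool)) [IsProbabilityMeasure ν] (F : Finset V)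
    (Q : Finset V → Prop) [DecidablePred Q] :
    (ν {ω | Q (F.filter fun i => ω i = true)}).toReal =
      ∑ S ∈ F.powerset, (ν {ω | ∀ i ∈ F, (ω i = true ↔ i ∈ S)}).toReal * if Q S then 1 else 0 := by
  have hfib : ∀ S ∈ F.powerset, (fun ω : V → Bool => F.filter fun i => ω i = true) ⁻¹' {S} =
      {ω | ∀ i ∈ F, (ω i = true ↔ i ∈ S)} := by
    intro S hS
    have hS' := Finset.mem_powerset.1 hS
    ext ω
    simp only [Set.mem_preimage, Set.mem_singleton_iff, Set.mem_setOf_eq, Finset.ext_iff,
      Finset.mem_filter]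
    constructor
    · intro h i hi
      rw [← h i]; simp [hi]
    · intro h i
      exact ⟨fun ⟨a, b⟩ => (h i a).1 b, fun a => ⟨hS' a, (h i (hS' a)).2 a⟩⟩
  have hmeas : ∀ S : Finset V, MeasurableSet {ω : V → Bool | ∀ i ∈ F, (ω i = true ↔ i ∈ S)} := by
    intro S
    have : {ω : V → Bool | ∀ i ∈ F, (ω i = true ↔ i ∈ S)} =
        ⋂ i ∈ F, (fun ω : V → Bool => ω i) ⁻¹' {b | b = true ↔ i ∈ S} := by
      ext ω; simp
    rw [this]
    exact Finset.measurableSet_biInter F fun i _ =>
      measurable_pi_apply i (MeasurableSet.of_discrete)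
  have := sum_measureReal_preimage_singleton (μ := ν) (F.powerset.filter Q)
    (f := fun ω : V → Bool => F.filter fun i => ω i = true)
    (fun S hS => by rw [hfib S (Finset.mem_filter.1 hS).1]; exact hmeas S)
  simp only [mul_ite, mul_one, mul_zero]
  rw [← Finset.sum_filter]
  have e : {ω : V → Bool | Q (F.filter fun i => ω i = true)} =
      (fun ω : V → Bool => F.filter fun i => ω i = true) ⁻¹' ↑(F.powerset.filter Q) := by
    ext ω; simp
  rw [e]
  refine this.symm.trans (Finset.sum_congr rfl fun S hS => ?_)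
  rw [hfib S (Finset.mem_filter.1 hS).1]
  rfl

end SRNeg

open SRNeg in
theorem negAssoc_of_SR {V : Type*} (ν : Measure (V → Bool)) [IsProbabilityMeasure ν]
    (h : IsStronglyRayleigh ν) (A R : Finset V) (hAR : Disjoint A R) :
    mom ν A * (ν {ω | ∀ i ∈ R, ω i = false}).toReal ≤
      (ν {ω | (∀ i ∈ A, ω i = true) ∧ ∀ i ∈ R, ω i = false}).toReal := by
  classical
  let p : Finset V → ℝ := fun S => (ν {ω | ∀ i ∈ A ∪ R, (ω i = true ↔ i ∈ S)}).toReal
  have hsum : ∑ S ∈ (A ∪ R).powerset, p S = 1 := by
    have := mass_eq ν (A ∪ R) (fun _ => True)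
    simpa [p] using this.symm
  have key := phi_ineq p A R hAR (fun S => ENNReal.toReal_nonneg) hsum (h (A ∪ R))
  have pA : ∀ S : Finset V, (∏ i ∈ A, if i ∈ S then (1 : ℝ) else 0) =
      if (∀ i ∈ A, i ∈ S) then 1 else 0 := fun S => by
    rw [Finset.prod_boole]
  have pR : ∀ S : Finset V, (∏ i ∈ R, if i ∈ S then (0 : ℝ) else 1) =
      if (∀ i ∈ R, i ∉ S) then 1 else 0 := fun S => by
    rw [← Finset.prod_boole]
    refine Finset.prod_congr rfl fun i _ => ?_
    by_cases hi : i ∈ S <;> simp [hi]
  have e11 : phi p A R 1 1 = 1 := by simpa [phi] using hsum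
  have e01 : phi p A R 0 1 = mom ν A := by
    have := mass_eq ν (A ∪ R) (fun S => ∀ i ∈ A, i ∈ S)
    unfold phi mom
    simp only [pA, ite_self, Finset.prod_const_one, mul_one]
    rw [← this]
    congr 2
    ext ω
    simp only [Set.mem_setOf_eq, Finset.mem_filter, Finset.mem_union]
    exact ⟨fun h i hi => (h i hi).2, fun h i hi => ⟨Or.inl hi, h i hi⟩⟩
  have e10 : phi p A R 1 0 = (ν {ω | ∀ i ∈ R, ω i = false}).toReal := by
    have := mass_eq ν (A ∪ R) (fun S => ∀ i ∈ R, i ∉ S)
    unfold phi
    simp only [pR, ite_self, Finset.prod_const_one, one_mul]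
    rw [← this]
    congr 2
    ext ω
    simp only [Set.mem_setOf_eq, Finset.mem_filter, Finset.mem_union]
    exact ⟨fun h i hi => by simpa [hi] using h i hi, fun h i hi => by simp [h i hi]⟩
  have e00 : phi p A R 0 0 =
      (ν {ω | (∀ i ∈ A, ω i = true) ∧ ∀ i ∈ R, ω i = false}).toReal := by
    have := mass_eq ν (A ∪ R) (fun S => (∀ i ∈ A, i ∈ S) ∧ ∀ i ∈ R, i ∉ S)
    unfold phi
    simp only [pA, pR, ← ite_and, mul_ite, ite_mul, mul_one, mul_zero, one_mul, zero_mul] at this ⊢
    simp only [and_comm (b := ∀ i ∈ A, i ∈ _)]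
    rw [← this]
    congr 2
    ext ω
    simp only [Set.mem_setOf_eq, Finset.mem_filter, Finset.mem_union]
    exact ⟨fun h => ⟨fun i hi => (h.1 i hi).2, fun i hi => by simpa [hi] using h.2 i hi⟩,
      fun h => ⟨fun i hi => ⟨Or.inl hi, h.1 i hi⟩, fun i hi => by simp [h.2 i hi]⟩⟩
  rw [e11, e01, e10, e00, mul_one] at key
  exact key

end Crest.Agent.R168

end
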