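import Crest.Agent.R168.Defs
set_option autoImplicit false
open MeasureTheory unitInterval Filter Topology
open Crest.ProbabilityR Crest.ProbabilityR.Labels Crest.ProbabilityR.SpanningTrees
open Crest.ProbabilityR.StronglyRayleigh Crest.ProbabilityR.GraphTables
noncomputable section
namespace Crest.Agent.R168

namespace TreePoly

open Matrix

section CB

variable {J ι R : Type*} [Fintype J] [DecidableEq J] [DecidableEq ι] [CommRing R]

/-- The weighted Gram matrix. -/
def gram (E : Finset ι) (B : J → ι → R) (z : ι → R) : Matrix J J R :=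
  Matrix.of fun i j => ∑ e ∈ E, z e * B i e * B j e

/-- One term of the expansion. -/
def term (B : J → ι → R) (φ : J → ι) : R :=
  (∏ i, B i (φ i)) * (Matrix.of fun i j => B j (φ i)).det

omit [DecidableEq ι] in
theorem term_eq_zero (B : J → ι → R) (φ : J → ι) (h : ¬ Function.Injective φ) :
    term B φ = 0 := by
  unfold term
  simp only [Function.Injective, not_forall] at h
  obtain ⟨a, b, hab, hne⟩ := h
  rw [Matrix.det_zero_of_row_eq hne, mul_zero]
  funext j
  simp [hab]

omit [DecidableEq ι] in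
theorem det_gram_expand (E : Finset ι) (B : J → ι → R) (z : ι → R) :
    (gram E B z).det =
      ∑ φ ∈ Fintype.piFinset (fun _ : J => E), (∏ i, z (φ i)) * term B φ := by
  have h1 : (gram E B z).det = Matrix.detRowAlternating.toMultilinearMap
      (fun i : J => ∑ e ∈ E, (fun j : J => z e * B i e * B j e)) := by
    change Matrix.det _ = Matrix.det _
    congr 1
    funext i j
    simp [gram, Finset.sum_apply]
  rw [h1, MultilinearMap.map_sum_finset]
  refine Finset.sum_congr rfl fun φ _ => ?_
  change Matrix.det (Matrix.of fun i j => (z (φ i) * B i (φ i)) *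
    (Matrix.of fun i j => B j (φ i)) i j) = _
  rw [Matrix.det_mul_column, term, Finset.prod_mul_distrib, mul_assoc]

theorem det_gram (E : Finset ι) (B : J → ι → R) (z : ι → R) :
    (gram E B z).det =
      ∑ A ∈ E.powersetCard (Fintype.card J), (∏ e ∈ A, z e) * (gram A B 1).det := by
  classical
  rw [det_gram_expand]
  rw [← Finset.sum_filter_of_ne (p := fun φ : J → ι => Function.Injective φ)
    (by
      intro φ _ h
      by_contra hφ
      exact h (by rw [term_eq_zero B φ hφ, mul_zero]))]
  rw [← Finset.sum_fiberwise_of_maps_to (t := E.powersetCard (Fintype.card J))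
    (g := fun φ : J → ι => Finset.univ.image φ)
    (by
      intro φ hφ
      simp only [Finset.mem_filter, Fintype.mem_piFinset] at hφ
      rw [Finset.mem_powersetCard]
      refine ⟨?_, ?_⟩
      · intro e he
        obtain ⟨i, -, rfl⟩ := Finset.mem_image.1 he
        exact hφ.1 i
      · rw [Finset.card_image_of_injective _ hφ.2, Finset.card_univ])]
  refine Finset.sum_congr rfl fun A hA => ?_
  rw [Finset.mem_powersetCard] at hA
  rw [det_gram_expand, Finset.mul_sum]
  rw [← Finset.sum_filter_of_ne (s := Fintype.piFinset (fun _ : J => A))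
    (p := fun φ : J → ι => Function.Injective φ)
    (by
      intro φ _ h
      by_contra hφ
      exact h (by rw [term_eq_zero B φ hφ, mul_zero, mul_zero]))]
  refine Finset.sum_congr ?_ ?_
  · ext φ
    simp only [Finset.mem_filter, Fintype.mem_piFinset]
    constructor
    · rintro ⟨⟨-, h2⟩, h3⟩
      exact ⟨fun i => h3 ▸ Finset.mem_image_of_mem φ (Finset.mem_univ i), h2⟩
    · rintro ⟨h1, h2⟩
      refine ⟨⟨fun i => hA.1 (h1 i), h2⟩, ?_⟩
      apply Finset.eq_of_subset_of_card_le
      · intro e he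
        obtain ⟨i, -, rfl⟩ := Finset.mem_image.1 he
        exact h1 i
      · rw [Finset.card_image_of_injective _ h2, Finset.card_univ, hA.2]
  · intro φ hφ
    simp only [Finset.mem_filter, Fintype.mem_piFinset] at hφ
    have himg : Finset.univ.image φ = A := by
      apply Finset.eq_of_subset_of_card_le
      · intro e he
        obtain ⟨i, -, rfl⟩ := Finset.mem_image.1 he
        exact hφ.1 i
      · rw [Finset.card_image_of_injective _ hφ.2, Finset.card_univ, hA.2]
    rw [← himg, Finset.prod_image (fun a _ b _ h => hφ.2 h)]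
    simp

omit [DecidableEq ι] in
theorem det_gram_one (A : Finset ι) (B : J → ι → R) (ψ : J ≃ A) :
    (gram A B 1).det = (Matrix.of fun i j => B i (ψ j)).det ^ 2 := by
  have : gram A B 1 = (Matrix.of fun i j => B i (ψ j)) * (Matrix.of fun i j => B i (ψ j))ᵀ := by
    ext i j
    simp only [gram, Matrix.of_apply, Pi.one_apply, one_mul, Matrix.mul_apply,
      Matrix.transpose_apply]
    rw [← Finset.sum_coe_sort A, ← ψ.sum_comp]
  rw [this, Matrix.det_mul, Matrix.det_transpose, sq]

end CB

/-- First endpoint. -/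
def fst (e : Sym2 ℕ) : ℕ := (Quot.out e).1
/-- Second endpoint. -/
def snd (e : Sym2 ℕ) : ℕ := (Quot.out e).2

theorem mk_fst_snd (e : Sym2 ℕ) : s(fst e, snd e) = e := Quot.out_eq e

/-- The reduced incidence matrix. -/
def inc (K : Type*) [CommRing K] (T : Finset ℕ) (i : T) (e : Sym2 ℕ) : K :=
  (if fst e = i then 1 else 0) - (if snd e = i then 1 else 0)

/-- Extension by zero. -/
def ext0 {K : Type*} [CommRing K] (T : Finset ℕ) (x : T → K) (w : ℕ) : K :=
  if h : w ∈ T then x ⟨w, h⟩ else 0

theorem sum_ite_ext0 {K : Type*} [CommRing K] (T : Finset ℕ) (x : T → K) (w : ℕ) :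
    ∑ i : T, x i * (if w = i then 1 else 0) = ext0 T x w := by
  unfold ext0
  split_ifs with h
  · rw [Finset.sum_eq_single ⟨w, h⟩]
    · simp
    · intro b _ hb
      rw [if_neg, mul_zero]
      intro hw
      exact hb (Subtype.ext hw.symm)
    · simp
  · refine Finset.sum_eq_zero fun i _ => ?_
    rw [if_neg, mul_zero]
    rintro rfl
    exact h i.2

theorem sum_inc {K : Type*} [CommRing K] (T : Finset ℕ) (x : T → K) (e : Sym2 ℕ) :
    ∑ i : T, x i * inc K T i e = ext0 T x (fst e) - ext0 T x (snd e) := by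
  simp only [inc, mul_sub, Finset.sum_sub_distrib, sum_ite_ext0]

theorem const_of_conn {K : Type*} {S : Finset ℕ} (H : SimpleGraph (S : Set ℕ))
    (hH : H.Preconnected) (f : ℕ → K) (hf : ∀ a b, H.Adj a b → f a = f b)
    (a b : (S : Set ℕ)) : f a = f b := by
  obtain ⟨p⟩ := hH a b
  induction p with
  | nil => rfl
  | cons h _ ih => exact (hf _ _ h).trans ih

theorem eq_of_mk {K : Type*} (f : ℕ → K) (a b : ℕ)
    (h : f (fst s(a, b)) = f (snd s(a, b))) : f a = f b := by
  have := mk_fst_snd s(a, b)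
  rcases Sym2.eq_iff.1 this with ⟨h1, h2⟩ | ⟨h1, h2⟩
  · rw [h1, h2] at h; exact h
  · rw [h1, h2] at h; exact h.symm

theorem eq_zero_of_conn {K : Type*} [CommRing K] {S : Finset ℕ} {r : ℕ} (hr : r ∈ S)
    (H : SimpleGraph (S : Set ℕ)) (hH : H.Preconnected) (A : Finset (Sym2 ℕ))
    (hA : ∀ a b, H.Adj a b → s((a : ℕ), (b : ℕ)) ∈ A) (x : S.erase r → K)
    (hx : ∀ e ∈ A, ∑ i, x i * inc K (S.erase r) i e = 0) : x = 0 := by
  funext i
  have h1 := const_of_conn H hH (ext0 (S.erase r) x) (by
    intro a b hab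
    apply eq_of_mk
    have := hx _ (hA a b hab)
    rwa [sum_inc, sub_eq_zero] at this) ⟨i, by simpa using Finset.mem_of_mem_erase i.2⟩
    ⟨r, by simpa using hr⟩
  simpa [ext0, i.2] using h1

theorem exists_ne_zero_of_not_conn {K : Type*} [CommRing K] [Nontrivial K] {S : Finset ℕ} {r : ℕ}
    (hr : r ∈ S) (A : Finset (Sym2 ℕ)) (hA : A ⊆ S.sym2)
    (hH : ¬ ((SimpleGraph.fromEdgeSet (A : Set (Sym2 ℕ))).induce (S : Set ℕ)).Preconnected) :
    ∃ x : S.erase r → K, x ≠ 0 ∧ ∀ e ∈ A, ∑ i, x i * inc K (S.erase r) i e = 0 := by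
  classical
  set H := (SimpleGraph.fromEdgeSet (A : Set (Sym2 ℕ))).induce (S : Set ℕ) with hHdef
  let r' : (S : Set ℕ) := ⟨r, by simpa using hr⟩
  have hex : ∃ a, ¬ H.Reachable r' a := by
    by_contra hcon
    push Not at hcon
    exact hH fun a b => (hcon a).symm.trans (hcon b)
  obtain ⟨a, ha⟩ := hex
  let f : ℕ → K := fun w => if ∃ h : w ∈ (S : Set ℕ), H.Reachable r' ⟨w, h⟩ then 0 else 1
  have har : (a : ℕ) ≠ r := by
    intro h
    apply ha
    have : a = r' := Subtype.ext h
    rw [this]
  have hext : ∀ w ∈ S, ext0 (S.erase r) (fun i => f i) w = f w := by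
    intro w hw
    unfold ext0
    split_ifs with h
    · rfl
    · have : w = r := by
        by_contra hne
        exact h (Finset.mem_erase.2 ⟨hne, hw⟩)
      subst this
      simp only [f]
      rw [if_pos ⟨r'.2, SimpleGraph.Reachable.refl _⟩]
  refine ⟨fun i => f i, ?_, ?_⟩
  · intro h0
    have := congrFun h0 ⟨a, Finset.mem_erase.2 ⟨har, by simpa using a.2⟩⟩
    simp only [f, Pi.zero_apply] at this
    rw [if_neg] at this
    · exact one_ne_zero this
    · rintro ⟨_, h⟩
      exact ha h
  · intro e he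
    have he' := hA he
    rw [← mk_fst_snd e, Finset.mk_mem_sym2_iff] at he'
    rw [sum_inc, hext _ he'.1, hext _ he'.2, sub_eq_zero]
    by_cases hne : fst e = snd e
    · rw [hne]
    · have hadj : H.Adj ⟨fst e, by simpa using he'.1⟩ ⟨snd e, by simpa using he'.2⟩ := by
        simp only [hHdef, SimpleGraph.comap_adj, Function.Embedding.subtype_apply,
          SimpleGraph.fromEdgeSet_adj]
        refine ⟨?_, hne⟩
        rw [mk_fst_snd]
        exact he
      simp only [f]
      congr 1
      apply propext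
      constructor
      · rintro ⟨_, h⟩
        exact ⟨_, h.trans hadj.reachable⟩
      · rintro ⟨_, h⟩
        exact ⟨_, h.trans hadj.symm.reachable⟩

theorem det_inc_eq_zero_iff (K : Type*) [Field K] {S : Finset ℕ} {r : ℕ} (hr : r ∈ S)
    (A : Finset (Sym2 ℕ)) (hA : A ⊆ S.sym2) (ψ : S.erase r ≃ A) :
    (Matrix.of fun i j => inc K (S.erase r) i (ψ j)).det = 0 ↔
      ¬ ((SimpleGraph.fromEdgeSet (A : Set (Sym2 ℕ))).induce (S : Set ℕ)).Preconnected := by
  rw [← Matrix.exists_vecMul_eq_zero_iff]
  constructor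
  · rintro ⟨x, hx0, hx⟩ hH
    apply hx0
    refine eq_zero_of_conn hr _ hH A ?_ x ?_
    · intro a b hab
      simp only [SimpleGraph.comap_adj, Function.Embedding.subtype_apply,
        SimpleGraph.fromEdgeSet_adj] at hab
      exact hab.1
    · intro e he
      have := congrFun hx (ψ.symm ⟨e, he⟩)
      simpa [Matrix.vecMul, dotProduct] using this
  · intro hH
    obtain ⟨x, hx0, hx⟩ := exists_ne_zero_of_not_conn (K := K) hr A hA hH
    refine ⟨x, hx0, ?_⟩
    funext j
    have := hx _ (ψ j).2
    simpa [Matrix.vecMul, dotProduct] using this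

theorem det_inc_cast (K : Type*) [CommRing K] (T : Finset ℕ) (A : Finset (Sym2 ℕ)) (ψ : T ≃ A) :
    (((Matrix.of fun i j => inc ℤ T i (ψ j)).det : ℤ) : K) =
      (Matrix.of fun i j => inc K T i (ψ j)).det := by
  rw [Int.cast_det]
  congr 1
  ext i j
  simp [inc]

theorem det_inc_sq {S : Finset ℕ} {r : ℕ} (hr : r ∈ S)
    (A : Finset (Sym2 ℕ)) (hA : A ⊆ S.sym2) (ψ : S.erase r ≃ A)
    (hH : ((SimpleGraph.fromEdgeSet (A : Set (Sym2 ℕ))).induce (S : Set ℕ)).Preconnected) :
    (Matrix.of fun i j => inc ℂ (S.erase r) i (ψ j)).det ^ 2 = 1 := by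
  rw [← det_inc_cast]
  set d := (Matrix.of fun i j => inc ℤ (S.erase r) i (ψ j)).det with hd
  have h1 : d.natAbs = 1 := by
    by_contra hne
    obtain ⟨p, hp, hpd⟩ := Nat.exists_prime_and_dvd hne
    have : Fact p.Prime := ⟨hp⟩
    have h0 : ((d : ℤ) : ZMod p) = 0 := by
      rw [ZMod.intCast_zmod_eq_zero_iff_dvd]
      exact Int.natCast_dvd.2 hpd
    rw [hd, det_inc_cast] at h0
    exact (det_inc_eq_zero_iff (ZMod p) hr A hA ψ).1 h0 hH
  have h2 : d ^ 2 = 1 := by
    rcases Int.natAbs_eq_iff.1 h1 with h | h <;> simp [h]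
  exact_mod_cast congrArg (Int.cast : ℤ → ℂ) h2

theorem card_edgeSet (G : SimpleGraph ℕ) (S : Finset ℕ) (A : Finset (Sym2 ℕ))
    (hA : A ⊆ edgesIn G S) :
    Nat.card ((SimpleGraph.fromEdgeSet (A : Set (Sym2 ℕ))).induce (S : Set ℕ)).edgeSet =
      A.card := by
  have himg : Sym2.map (Subtype.val : ↥(S : Set ℕ) → ℕ) ''
      ((SimpleGraph.fromEdgeSet (A : Set (Sym2 ℕ))).induce (S : Set ℕ)).edgeSet = A := by
    ext e
    constructor
    · rintro ⟨e', he', rfl⟩
      induction e' using Sym2.ind with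
      | h a b =>
        simp only [SimpleGraph.mem_edgeSet, SimpleGraph.comap_adj,
          Function.Embedding.subtype_apply, SimpleGraph.fromEdgeSet_adj] at he'
        exact he'.1
    · intro he
      induction e using Sym2.ind with
      | h a b =>
        have h1 := hA he
        simp only [edgesIn, Finset.mem_filter, Finset.mk_mem_sym2_iff,
          SimpleGraph.mem_edgeSet] at h1
        refine ⟨s(⟨a, by simpa using h1.1.1⟩, ⟨b, by simpa using h1.1.2⟩), ?_, rfl⟩
        simp only [SimpleGraph.mem_edgeSet, SimpleGraph.comap_adj,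
          Function.Embedding.subtype_apply, SimpleGraph.fromEdgeSet_adj]
        exact ⟨he, h1.2.ne⟩
  rw [Nat.card_coe_set_eq, ← Set.ncard_image_of_injective _
    (Sym2.map.injective Subtype.val_injective), himg, Set.ncard_coe_finset]

theorem edgesIn_subset (G : SimpleGraph ℕ) (S : Finset ℕ) : edgesIn G S ⊆ S.sym2 := by
  intro e he
  simp only [edgesIn, Finset.mem_filter] at he
  exact he.1

/-- The matrix-tree theorem. -/
theorem det_gram_inc (G : SimpleGraph ℕ) (S : Finset ℕ) {r : ℕ} (hr : r ∈ S) (z : Sym2 ℕ → ℂ) :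
    (gram (edgesIn G S) (inc ℂ (S.erase r)) z).det = ∑ A ∈ treesOn G S, ∏ e ∈ A, z e := by
  classical
  rw [det_gram]
  have hcard : Fintype.card (S.erase r) + 1 = S.card := by
    rw [Fintype.card_coe, Finset.card_erase_add_one hr]
  have hne : Nonempty (S : Set ℕ) := ⟨⟨r, by simpa using hr⟩⟩
  have htree : ∀ A, A ∈ treesOn G S ↔ A ∈ (edgesIn G S).powersetCard (Fintype.card (S.erase r)) ∧
      ((SimpleGraph.fromEdgeSet (A : Set (Sym2 ℕ))).induce (S : Set ℕ)).Preconnected := by
    intro A
    simp only [treesOn, Finset.mem_filter, Finset.mem_powerset, IsSpanningTreeOn,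
      Finset.mem_powersetCard, SimpleGraph.isTree_iff_connected_and_card]
    constructor
    · rintro ⟨h1, -, h2, h3⟩
      refine ⟨⟨h1, ?_⟩, h2.preconnected⟩
      rw [card_edgeSet G S A h1, Nat.card_coe_set_eq, Set.ncard_coe_finset] at h3
      omega
    · rintro ⟨⟨h1, h2⟩, h3⟩
      refine ⟨h1, h1, ⟨h3⟩, ?_⟩
      rw [card_edgeSet G S A h1, Nat.card_coe_set_eq, Set.ncard_coe_finset]
      omega
  have hfilter : treesOn G S = ((edgesIn G S).powersetCard (Fintype.card (S.erase r))).filter
      (fun A : Finset (Sym2 ℕ) =>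
        ((SimpleGraph.fromEdgeSet (A : Set (Sym2 ℕ))).induce (S : Set ℕ)).Preconnected) := by
    ext A
    rw [htree, Finset.mem_filter]
  rw [hfilter, Finset.sum_filter]
  refine Finset.sum_congr rfl fun A hA => ?_
  rw [Finset.mem_powersetCard] at hA
  have hA' : A ⊆ S.sym2 := hA.1.trans (edgesIn_subset G S)
  let ψ : S.erase r ≃ A := Fintype.equivOfCardEq (by rw [← hA.2, Fintype.card_coe])
  rw [det_gram_one A _ ψ]
  split_ifs with h
  · rw [det_inc_sq hr A hA' ψ h, mul_one]
  · rw [(det_inc_eq_zero_iff ℂ hr A hA' ψ).2 h]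
    simp

end TreePoly

open TreePoly in
theorem treePoly_ne_zero (G : SimpleGraph ℕ) (S : Finset ℕ)
    (hS : (G.induce (S : Set ℕ)).Connected) (z : Sym2 ℕ → ℂ)
    (hz : ∀ e, 0 < (z e).im ∨ z e = 1) :
    ∑ A ∈ treesOn G S, ∏ e ∈ A, z e ≠ 0 := by
  classical
  obtain ⟨⟨r, hr⟩⟩ := hS.nonempty
  have hr' : r ∈ S := by simpa using hr
  rw [← det_gram_inc G S hr' z]
  intro h0
  obtain ⟨x, hx0, hx⟩ := Matrix.exists_vecMul_eq_zero_iff.2 h0
  apply hx0
  set d : Sym2 ℕ → ℂ := fun e => ∑ i, x i * inc ℂ (S.erase r) i e with hd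
  have hconj : ∀ e, ∑ j, inc ℂ (S.erase r) j e * (starRingEnd ℂ) (x j) = (starRingEnd ℂ) (d e) := by
    intro e
    simp only [hd, map_sum, map_mul]
    refine Finset.sum_congr rfl fun j _ => ?_
    rw [mul_comm]
    congr 1
    simp only [inc]
    split_ifs <;> simp
  have hsum : ∑ e ∈ edgesIn G S, z e * (Complex.normSq (d e) : ℂ) = 0 := by
    have h1 : ∑ j, (Matrix.vecMul x (gram (edgesIn G S) (inc ℂ (S.erase r)) z)) j *
        (starRingEnd ℂ) (x j) = 0 := by
      rw [hx]; simp
    rw [← h1]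
    simp only [Matrix.vecMul, dotProduct, gram, Matrix.of_apply, Finset.mul_sum, Finset.sum_mul]
    simp only [← Complex.mul_conj, ← hconj]
    simp only [hd, Finset.mul_sum, Finset.sum_mul]
    rw [Finset.sum_comm]
    refine Finset.sum_congr rfl fun j _ => ?_
    rw [Finset.sum_comm]
    refine Finset.sum_congr rfl fun i _ => ?_
    refine Finset.sum_congr rfl fun e _ => ?_
    ring
  have him : ∀ e ∈ edgesIn G S, (z e).im * Complex.normSq (d e) = 0 := by
    have h1 := congrArg Complex.im hsum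
    rw [Complex.im_sum] at h1
    simp only [Complex.mul_im, Complex.ofReal_im, Complex.ofReal_re, mul_zero, zero_add,
      Complex.zero_im] at h1
    refine (Finset.sum_eq_zero_iff_of_nonneg ?_).1 h1
    intro e _
    refine mul_nonneg ?_ (Complex.normSq_nonneg _)
    rcases hz e with h | h
    · exact h.le
    · simp [h]
  have hre : ∀ e ∈ edgesIn G S, Complex.normSq (d e) = 0 := by
    have h1 : ∑ e ∈ edgesIn G S, (Complex.normSq (d e) : ℂ) = 0 := by
      rw [← hsum]
      refine Finset.sum_congr rfl fun e he => ?_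
      rcases hz e with h | h
      · have := him e he
        rcases mul_eq_zero.1 this with h' | h'
        · exact absurd h' h.ne'
        · simp [h']
      · simp [h]
    have h2 : ∑ e ∈ edgesIn G S, Complex.normSq (d e) = 0 := by exact_mod_cast h1
    exact (Finset.sum_eq_zero_iff_of_nonneg fun e _ => Complex.normSq_nonneg _).1 h2
  refine eq_zero_of_conn hr' _ hS.preconnected (edgesIn G S) ?_ x ?_
  · intro a b hab
    simp only [edgesIn, Finset.mem_filter, Finset.mk_mem_sym2_iff, SimpleGraph.mem_edgeSet]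
    exact ⟨⟨by simpa using a.2, by simpa using b.2⟩, hab⟩
  · intro e he
    exact Complex.normSq_eq_zero.1 (hre e he)

end Crest.Agent.R168

end
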