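import Crest.Agent.R168.Defs

set_option autoImplicit false
open MeasureTheory unitInterval Filter Topology
open Crest.ProbabilityR Crest.ProbabilityR.Labels Crest.ProbabilityR.SpanningTrees
open Crest.ProbabilityR.StronglyRayleigh Crest.ProbabilityR.GraphTables
noncomputable section
namespace Crest.Agent.R168

namespace UstMeasure

theorem apply_toReal (G : SimpleGraph ℕ) (S : Finset ℕ) (X : Set (Sym2 ℕ → Bool))
    (hX : MeasurableSet X) (p : Finset (Sym2 ℕ) → Prop) [DecidablePred p]
    (hp : ∀ T, indic T ∈ X ↔ p T) :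
    (ustMeasure G S X).toReal = (((treesOn G S).filter p).card : ℝ) / (treesOn G S).card := by
  classical
  unfold ustMeasure
  rw [Measure.smul_apply, Measure.finsetSum_apply, smul_eq_mul]
  have h1 : ∑ A ∈ treesOn G S, Measure.dirac (indic A) X =
      (((treesOn G S).filter p).card : ENNReal) := by
    rw [Finset.card_filter]
    push_cast
    refine Finset.sum_congr rfl fun A _ => ?_
    rw [Measure.dirac_apply' _ hX]
    by_cases h : p A
    · rw [if_pos h, Set.indicator_of_mem ((hp A).2 h)]; rfl
    · rw [if_neg h, Set.indicator_of_notMem (fun h' => h ((hp A).1 h'))]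
  rw [h1, ENNReal.toReal_mul, ENNReal.toReal_inv, ENNReal.toReal_natCast, ENNReal.toReal_natCast,
    div_eq_inv_mul]

theorem measurableSet_eq (i : Sym2 ℕ) (b : Bool) :
    MeasurableSet {ω : Sym2 ℕ → Bool | ω i = b} :=
  (measurable_pi_apply (X := fun _ : Sym2 ℕ => Bool) i) (measurableSet_singleton b)

theorem measurableSet_all (A : Finset (Sym2 ℕ)) (b : Bool) :
    MeasurableSet {ω : Sym2 ℕ → Bool | ∀ i ∈ A, ω i = b} := by
  have : {ω : Sym2 ℕ → Bool | ∀ i ∈ A, ω i = b} = ⋂ i ∈ A, {ω | ω i = b} := by
    ext; simp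
  rw [this]
  exact Finset.measurableSet_biInter _ fun i _ => measurableSet_eq i b

theorem measurableSet_cyl (F T : Finset (Sym2 ℕ)) :
    MeasurableSet {ω : Sym2 ℕ → Bool | ∀ i ∈ F, (ω i = true ↔ i ∈ T)} := by
  have : {ω : Sym2 ℕ → Bool | ∀ i ∈ F, (ω i = true ↔ i ∈ T)} =
      ⋂ i ∈ F, {ω | ω i = decide (i ∈ T)} := by
    ext ω
    simp only [Set.mem_ofPred_eq, Set.mem_iInter]
    refine forall₂_congr fun i _ => ?_
    by_cases h : i ∈ T <;> simp [h]
  rw [this]
  exact Finset.measurableSet_biInter _ fun i _ => measurableSet_eq i _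

theorem ustContains_eq (G : SimpleGraph ℕ) (S : Finset ℕ) (A : Finset (Sym2 ℕ)) :
    ustContains G S A = (((treesOn G S).filter (fun T => A ⊆ T)).card : ℝ) / (treesOn G S).card := by
  unfold ustContains treesOn
  congr 3
  ext T
  simp only [Finset.mem_filter, and_assoc]

end UstMeasure

open UstMeasure

theorem isProbabilityMeasure_ustMeasure (G : SimpleGraph ℕ) (S : Finset ℕ)
    (hne : (treesOn G S).Nonempty) : IsProbabilityMeasure (ustMeasure G S) := by
  constructor
  unfold ustMeasure
  rw [Measure.smul_apply, Measure.finsetSum_apply, smul_eq_mul]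
  simp only [measure_univ, Finset.sum_const, nsmul_eq_mul, mul_one]
  exact ENNReal.inv_mul_cancel (by exact_mod_cast hne.card_pos.ne') (by simp)

theorem mom_ustMeasure (G : SimpleGraph ℕ) (S : Finset ℕ) (A : Finset (Sym2 ℕ)) :
    mom (ustMeasure G S) A = ustContains G S A := by
  unfold mom
  rw [apply_toReal G S _ (measurableSet_all A true) (fun T => A ⊆ T), UstMeasure.ustContains_eq]
  intro T
  simp [indic, Finset.subset_iff]

theorem isStronglyRayleigh_ustMeasure (G : SimpleGraph ℕ) (S : Finset ℕ)
    (hpoly : ∀ z : Sym2 ℕ → ℂ, (∀ e, 0 < (z e).im ∨ z e = 1) →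
      ∑ A ∈ treesOn G S, ∏ e ∈ A, z e ≠ 0) :
    IsStronglyRayleigh (ustMeasure G S) := by
  intro F z hz
  let z' : Sym2 ℕ → ℂ := fun e => if e ∈ F then z e else 1
  have h0 := hpoly z' (by
    intro e
    by_cases he : e ∈ F
    · left; simpa [z', he] using hz e he
    · right; simp [z', he])
  have hne : (treesOn G S).Nonempty := by
    by_contra h
    rw [Finset.not_nonempty_iff_eq_empty] at h
    simp [h] at h0
  have hcard : ((treesOn G S).card : ℂ) ≠ 0 := by exact_mod_cast hne.card_pos.ne'
  have key : genPoly (ustMeasure G S) F z =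
      (∑ A ∈ treesOn G S, ∏ e ∈ A, z' e) / (treesOn G S).card := by
    unfold genPoly
    rw [← Finset.sum_fiberwise_of_maps_to (s := treesOn G S) (t := F.powerset)
      (g := fun T => T ∩ F) (fun T _ => Finset.mem_powerset.2 Finset.inter_subset_right),
      Finset.sum_div]
    refine Finset.sum_congr rfl fun B hB => ?_
    rw [Finset.mem_powerset] at hB
    rw [apply_toReal G S _ (measurableSet_cyl F B) (fun T => T ∩ F = B)]
    · have : ∑ T ∈ treesOn G S with T ∩ F = B, ∏ e ∈ T, z' e =
          ∑ T ∈ treesOn G S with T ∩ F = B, ∏ e ∈ B, z e := by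
        refine Finset.sum_congr rfl fun T hT => ?_
        rw [← (Finset.mem_filter.1 hT).2]
        simp only [z', Finset.prod_ite_mem]
      rw [this, Finset.sum_const, nsmul_eq_mul]
      push_cast
      ring
    · intro T
      simp only [indic, Set.mem_ofPred_eq, decide_eq_true_eq, Finset.ext_iff, Finset.mem_inter]
      constructor
      · intro h a
        exact ⟨fun h' => (h a h'.2).1 h'.1, fun h' => ⟨(h a (hB h')).2 h', hB h'⟩⟩
      · intro h a ha
        exact ⟨fun h' => (h a).1 ⟨h', ha⟩, fun h' => ((h a).2 h').1⟩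
  rw [key]
  exact div_ne_zero h0 hcard

theorem card_negAssoc_of_measure (G : SimpleGraph ℕ) (S : Finset ℕ) (A R : Finset (Sym2 ℕ))
    (h : mom (ustMeasure G S) A * (ustMeasure G S {ω | ∀ i ∈ R, ω i = false}).toReal ≤
      (ustMeasure G S {ω | (∀ i ∈ A, ω i = true) ∧ ∀ i ∈ R, ω i = false}).toReal) :
    ((treesOn G S).filter (fun T => A ⊆ T)).card * ((treesOn G S).filter (fun T => Disjoint R T)).card ≤
      ((treesOn G S).filter (fun T => A ⊆ T ∧ Disjoint R T)).card * (treesOn G S).card := by
  rcases (treesOn G S).eq_empty_or_nonempty with h0 | hne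
  · simp [h0]
  rw [mom_ustMeasure, UstMeasure.ustContains_eq,
    apply_toReal G S _ (measurableSet_all R false) (fun T => Disjoint R T),
    apply_toReal G S {ω | (∀ i ∈ A, ω i = true) ∧ ∀ i ∈ R, ω i = false}
      ((measurableSet_all A true).inter (measurableSet_all R false))
      (fun T => A ⊆ T ∧ Disjoint R T)] at h
  · have hc : (0 : ℝ) < (treesOn G S).card := by exact_mod_cast hne.card_pos
    rw [div_mul_div_comm, div_le_div_iff₀ (by positivity) hc, ← mul_assoc] at h
    have := le_of_mul_le_mul_right h hc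
    exact_mod_cast this
  · intro T
    simp [indic, Finset.subset_iff, Finset.disjoint_left]
  · intro T
    simp [indic, Finset.disjoint_left]

end Crest.Agent.R168
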