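import Crest.Agent.R168.Defs

/-!
Rayleigh monotonicity: the chance that the uniform spanning tree of a connected finite piece
contains a fixed edge set decreases as the piece grows.
-/

set_option autoImplicit false

open MeasureTheory unitInterval Filter Topology
open Crest.ProbabilityR Crest.ProbabilityR.Labels Crest.ProbabilityR.SpanningTrees
open Crest.ProbabilityR.StronglyRayleigh Crest.ProbabilityR.GraphTables

noncomputable section

namespace Crest.Agent.R168

namespace UstMono

/-- Connectivity of an induced graph through invariant predicates. -/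
theorem conn_iff (H : SimpleGraph ℕ) (S : Finset ℕ) :
    (H.induce (S : Set ℕ)).Connected ↔ S.Nonempty ∧ ∀ φ : ℕ → Prop,
      (∀ a ∈ S, ∀ b ∈ S, H.Adj a b → (φ a ↔ φ b)) → ∀ a ∈ S, ∀ b ∈ S, (φ a ↔ φ b) := by
  constructor
  · intro h
    refine ⟨?_, fun φ hφ a ha b hb => ?_⟩
    · obtain ⟨x⟩ := h.nonempty
      exact ⟨x.1, x.2⟩
    · obtain ⟨p⟩ := h.preconnected ⟨a, ha⟩ ⟨b, hb⟩
      have key : ∀ (x y : (S : Set ℕ)) (_ : (H.induce (S : Set ℕ)).Walk x y), φ x.1 ↔ φ y.1 := by
        intro x y q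
        induction q with
        | nil => exact Iff.rfl
        | cons hadj _ ih => exact (hφ _ (Subtype.prop _) _ (Subtype.prop _) hadj).trans ih
      exact key _ _ p
  · rintro ⟨⟨x, hx⟩, h⟩
    have : Nonempty (S : Set ℕ) := ⟨⟨x, hx⟩⟩
    refine SimpleGraph.Connected.mk ?_
    intro a b
    have := h (fun y => ∃ hy : y ∈ (S : Set ℕ), (H.induce (S : Set ℕ)).Reachable a ⟨y, hy⟩)
      (by
        intro c hc d hd hcd
        have hadj : (H.induce (S : Set ℕ)).Adj ⟨c, hc⟩ ⟨d, hd⟩ := hcd
        constructor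
        · rintro ⟨_, h1⟩
          exact ⟨hd, h1.trans hadj.reachable⟩
        · rintro ⟨_, h1⟩
          exact ⟨hc, h1.trans hadj.symm.reachable⟩) a.1 a.2 b.1 b.2
    obtain ⟨_, h2⟩ := this.1 ⟨a.2, SimpleGraph.Reachable.refl _⟩
    exact h2

theorem mem_edgesIn (G : SimpleGraph ℕ) (S : Finset ℕ) (e : Sym2 ℕ) :
    e ∈ edgesIn G S ↔ e ∈ S.sym2 ∧ e ∈ G.edgeSet := by
  unfold edgesIn
  simp only [Finset.mem_filter]

theorem mk_mem_edgesIn (G : SimpleGraph ℕ) (S : Finset ℕ) (a b : ℕ) :
    s(a, b) ∈ edgesIn G S ↔ a ∈ S ∧ b ∈ S ∧ G.Adj a b := by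
  rw [mem_edgesIn, Finset.mk_mem_sym2_iff, SimpleGraph.mem_edgeSet, and_assoc]

theorem edgesIn_mono (G : SimpleGraph ℕ) {S S' : Finset ℕ} (h : S ⊆ S') :
    edgesIn G S ⊆ edgesIn G S' := by
  intro e he
  induction e using Sym2.ind with
  | _ a b =>
    rw [mk_mem_edgesIn] at he ⊢
    exact ⟨h he.1, h he.2.1, he.2.2⟩

theorem card_edgeSet (G : SimpleGraph ℕ) (S : Finset ℕ) (T : Finset (Sym2 ℕ))
    (hT : T ⊆ edgesIn G S) :
    Nat.card ((SimpleGraph.fromEdgeSet (T : Set (Sym2 ℕ))).induce (S : Set ℕ)).edgeSet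
      = T.card := by
  rw [← (by simp : Nat.card (T : Set (Sym2 ℕ)) = T.card)]
  refine Nat.card_congr (Equiv.ofBijective
    (fun e => ⟨Sym2.map Subtype.val e.1, ?_⟩) ⟨?_, ?_⟩)
  · obtain ⟨e, he⟩ := e
    induction e using Sym2.ind with
    | _ a b =>
      have h1 : (SimpleGraph.fromEdgeSet (T : Set (Sym2 ℕ))).Adj a.1 b.1 := he
      rw [SimpleGraph.fromEdgeSet_adj] at h1
      exact h1.1
  · intro e f hef
    have h1 := congrArg Subtype.val hef
    exact Subtype.ext (Sym2.map.injective Subtype.val_injective h1)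
  · rintro ⟨e, he⟩
    induction e using Sym2.ind with
    | _ a b =>
      have h1 := (mk_mem_edgesIn G S a b).1 (hT he)
      refine ⟨⟨s(⟨a, h1.1⟩, ⟨b, h1.2.1⟩), ?_⟩, rfl⟩
      show (SimpleGraph.fromEdgeSet (T : Set (Sym2 ℕ))).Adj a b
      rw [SimpleGraph.fromEdgeSet_adj]
      exact ⟨he, h1.2.2.ne⟩

/-- Every predicate invariant along the pairs of `T` is constant on `S`. -/
def Conn (S : Finset ℕ) (T : Finset (Sym2 ℕ)) : Prop :=
  ∀ φ : ℕ → Prop, (∀ a b, s(a, b) ∈ T → (φ a ↔ φ b)) → ∀ a ∈ S, ∀ b ∈ S, (φ a ↔ φ b)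

theorem tree_iff (G : SimpleGraph ℕ) (S : Finset ℕ) (T : Finset (Sym2 ℕ)) :
    IsSpanningTreeOn G S T ↔
      T ⊆ edgesIn G S ∧ S.Nonempty ∧ Conn S T ∧ T.card + 1 = S.card := by
  unfold IsSpanningTreeOn
  refine and_congr_right fun hT => ?_
  rw [SimpleGraph.isTree_iff_connected_and_card, conn_iff, card_edgeSet G S T hT, and_assoc]
  have hc : Nat.card (S : Set ℕ) = S.card := by simp
  rw [hc]
  refine and_congr_right fun _ => and_congr_left fun _ => ?_
  unfold Conn
  refine forall_congr' fun φ => imp_congr_left ?_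
  constructor
  · intro h a b hab
    have h1 := (mk_mem_edgesIn G S a b).1 (hT hab)
    refine h a h1.1 b h1.2.1 ?_
    rw [SimpleGraph.fromEdgeSet_adj]
    exact ⟨hab, h1.2.2.ne⟩
  · intro h a _ b _ hab
    rw [SimpleGraph.fromEdgeSet_adj] at hab
    exact h a b hab.1

theorem mem_treesOn (G : SimpleGraph ℕ) (S : Finset ℕ) (T : Finset (Sym2 ℕ)) :
    T ∈ treesOn G S ↔ T ⊆ edgesIn G S ∧ S.Nonempty ∧ Conn S T ∧ T.card + 1 = S.card := by
  unfold treesOn
  simp only [Finset.mem_filter, Finset.mem_powerset]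
  rw [tree_iff]
  constructor
  · exact fun h => h.2
  · exact fun h => ⟨h.1, h⟩

theorem ustContains_eq (G : SimpleGraph ℕ) (S : Finset ℕ) (A : Finset (Sym2 ℕ)) :
    ustContains G S A =
      (((treesOn G S).filter (fun T => A ⊆ T)).card : ℝ) / ((treesOn G S).card : ℝ) := by
  unfold ustContains treesOn
  congr 3
  ext T
  simp only [Finset.mem_filter, and_assoc]

theorem conn_insert (G : SimpleGraph ℕ) (W : Finset ℕ) (hW : (G.induce (W : Set ℕ)).Connected)
    (u v : ℕ) (hu : u ∈ W) (huv : G.Adj u v) :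
    (G.induce ((insert v W : Finset ℕ) : Set ℕ)).Connected := by
  rw [conn_iff] at hW ⊢
  refine ⟨⟨v, Finset.mem_insert_self _ _⟩, fun φ hφ => ?_⟩
  have h1 := hW.2 φ (fun a ha b hb hab =>
    hφ a (Finset.mem_insert_of_mem ha) b (Finset.mem_insert_of_mem hb) hab)
  have h2 : φ u ↔ φ v := hφ u (Finset.mem_insert_of_mem hu) v (Finset.mem_insert_self _ _) huv
  have h3 : ∀ a ∈ insert v W, φ a ↔ φ u := by
    intro a ha
    rcases Finset.mem_insert.1 ha with rfl | ha
    · exact h2.symm
    · exact h1 a ha u hu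
  intro a ha b hb
  exact (h3 a ha).trans (h3 b hb).symm

/-- Growing a connected piece to a larger connected piece one vertex at a time. -/
theorem chain_induction (G : SimpleGraph ℕ) (P : Finset ℕ → Prop) (S S' : Finset ℕ)
    (hSS' : S ⊆ S') (hS : (G.induce (S : Set ℕ)).Connected)
    (hS' : (G.induce (S' : Set ℕ)).Connected) (base : P S)
    (step : ∀ W : Finset ℕ, S ⊆ W → (G.induce (W : Set ℕ)).Connected → ∀ u ∈ W, ∀ v, v ∉ W →
      G.Adj u v → P W → P (insert v W)) : P S' := by
  have key : ∀ (n : ℕ) (W : Finset ℕ), (S' \ W).card = n → S ⊆ W → W ⊆ S' →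
      (G.induce (W : Set ℕ)).Connected → P W → P S' := by
    intro n
    induction n with
    | zero =>
      intro W hn _ hWS' _ hP
      have h1 : S' ⊆ W := Finset.sdiff_eq_empty_iff_subset.1 (Finset.card_eq_zero.1 hn)
      rwa [Finset.Subset.antisymm h1 hWS']
    | succ n ih =>
      intro W hn hSW hWS' hW hP
      obtain ⟨y, hy⟩ : (S' \ W).Nonempty := Finset.card_pos.1 (by omega)
      obtain ⟨x, hx⟩ := ((conn_iff G W).1 hW).1
      have hex : ∃ u ∈ W, ∃ v ∈ S', v ∉ W ∧ G.Adj u v := by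
        by_contra hne
        push Not at hne
        have h1 := ((conn_iff G S').1 hS').2 (fun a => a ∈ W) (by
          intro a ha b hb hab
          constructor
          · intro haW
            by_contra hbW
            exact hne a haW b hb hbW hab
          · intro hbW
            by_contra haW
            exact hne b hbW a ha haW hab.symm) x (hWS' hx) y (Finset.mem_sdiff.1 hy).1
        exact (Finset.mem_sdiff.1 hy).2 (h1.1 hx)
      obtain ⟨u, hu, v, hv, hvW, huv⟩ := hex
      refine ih (insert v W) ?_ (hSW.trans (Finset.subset_insert _ _))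
        (Finset.insert_subset hv hWS') (conn_insert G W hW u v hu huv)
        (step W hSW hW u hu v hvW huv hP)
      rw [Finset.sdiff_insert, Finset.card_erase_of_mem (Finset.mem_sdiff.2 ⟨hv, hvW⟩), hn]
      rfl
  exact key _ S rfl subset_rfl hSS' hS base

section Step

variable (G : SimpleGraph ℕ) (W : Finset ℕ) (u v : ℕ) (hu : u ∈ W) (hv : v ∉ W) (huv : G.Adj u v)

include hv in
theorem new_notMem {T : Finset (Sym2 ℕ)} (hT : T ⊆ W.sym2) : s(u, v) ∉ T := by
  intro h
  exact hv (Finset.mk_mem_sym2_iff.1 (hT h)).2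

theorem edgesIn_subset_sym2 : edgesIn G W ⊆ W.sym2 := fun e he => ((mem_edgesIn G W e).1 he).1

include hu hv huv in
theorem insert_mem_treesOn {T : Finset (Sym2 ℕ)} (hT : T ∈ treesOn G W) :
    insert s(u, v) T ∈ treesOn G (insert v W) := by
  rw [mem_treesOn] at hT ⊢
  obtain ⟨h1, _, h3, h4⟩ := hT
  refine ⟨?_, ⟨v, Finset.mem_insert_self _ _⟩, ?_, ?_⟩
  · refine Finset.insert_subset ?_ (h1.trans (edgesIn_mono G (Finset.subset_insert _ _)))
    rw [mk_mem_edgesIn]
    exact ⟨Finset.mem_insert_of_mem hu, Finset.mem_insert_self _ _, huv⟩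
  · intro φ hφ
    have h5 := h3 φ (fun a b hab => hφ a b (Finset.mem_insert_of_mem hab))
    have h6 : φ u ↔ φ v := hφ u v (Finset.mem_insert_self _ _)
    have h7 : ∀ a ∈ insert v W, φ a ↔ φ u := by
      intro a ha
      rcases Finset.mem_insert.1 ha with rfl | ha
      · exact h6.symm
      · exact h5 a ha u hu
    intro a ha b hb
    exact (h7 a ha).trans (h7 b hb).symm
  · rw [Finset.card_insert_of_notMem (new_notMem W u v hv (h1.trans (edgesIn_subset_sym2 G W))),
      Finset.card_insert_of_notMem hv, h4]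

include hu hv in
theorem exists_of_mem_treesOn {T' : Finset (Sym2 ℕ)} (hT : T' ∈ treesOn G (insert v W))
    (hR : Disjoint (edgesIn G (insert v W) \ insert s(u, v) (edgesIn G W)) T') :
    ∃ T ∈ treesOn G W, insert s(u, v) T = T' := by
  rw [mem_treesOn] at hT
  obtain ⟨h1, _, h3, h4⟩ := hT
  have hsub : T' ⊆ insert s(u, v) (edgesIn G W) := by
    intro e he
    by_contra hne
    exact Finset.disjoint_left.1 hR (Finset.mem_sdiff.2 ⟨h1 he, hne⟩) he
  have huv' : u ≠ v := fun h => hv (h ▸ hu)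
  have hmem : s(u, v) ∈ T' := by
    by_contra hne
    have h5 := h3 (fun a => a = v) (by
      intro a b hab
      rcases Finset.mem_insert.1 (hsub hab) with h | h
      · exact absurd (h ▸ hab) hne
      · have h6 := (mk_mem_edgesIn G W a b).1 h
        constructor
        · rintro rfl
          exact absurd h6.1 hv
        · rintro rfl
          exact absurd h6.2.1 hv) u (Finset.mem_insert_of_mem hu) v (Finset.mem_insert_self _ _)
    exact huv' (h5.2 rfl)
  have hsub' : T'.erase s(u, v) ⊆ edgesIn G W := by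
    intro e he
    rcases Finset.mem_insert.1 (hsub (Finset.mem_of_mem_erase he)) with h | h
    · exact absurd h (Finset.ne_of_mem_erase he)
    · exact h
  refine ⟨T'.erase s(u, v), ?_, Finset.insert_erase hmem⟩
  rw [mem_treesOn]
  refine ⟨hsub', ⟨u, hu⟩, ?_, ?_⟩
  · intro φ hφ
    have h5 := h3 (fun a => if a = v then φ u else φ a) (by
      intro a b hab
      by_cases he : s(a, b) = s(u, v)
      · rcases Sym2.eq_iff.1 he with ⟨rfl, rfl⟩ | ⟨rfl, rfl⟩
        · simp [huv']
        · simp [huv']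
      · have h6 : s(a, b) ∈ T'.erase s(u, v) := Finset.mem_erase.2 ⟨he, hab⟩
        have h7 := (mk_mem_edgesIn G W a b).1 (hsub' h6)
        have ha : a ≠ v := fun h => hv (h ▸ h7.1)
        have hb : b ≠ v := fun h => hv (h ▸ h7.2.1)
        simp only [ha, hb, if_false]
        exact hφ a b h6)
    intro a ha b hb
    have h8 := h5 a (Finset.mem_insert_of_mem ha) b (Finset.mem_insert_of_mem hb)
    have ha' : a ≠ v := fun h => hv (h ▸ ha)
    have hb' : b ≠ v := fun h => hv (h ▸ hb)
    simpa only [ha', hb', if_false] using h8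
  · rw [Finset.card_insert_of_notMem hv] at h4
    have := Finset.card_erase_add_one hmem
    omega

include hu hv huv in
theorem card_step (A : Finset (Sym2 ℕ)) (hA : A ⊆ W.sym2) :
    ((treesOn G (insert v W)).filter (fun T => A ⊆ T ∧
      Disjoint (edgesIn G (insert v W) \ insert s(u, v) (edgesIn G W)) T)).card =
    ((treesOn G W).filter (fun T => A ⊆ T)).card := by
  symm
  refine Finset.card_bij (fun T _ => insert s(u, v) T) ?_ ?_ ?_
  · intro T hT
    rw [Finset.mem_filter] at hT ⊢
    refine ⟨insert_mem_treesOn G W u v hu hv huv hT.1, hT.2.trans (Finset.subset_insert _ _), ?_⟩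
    have h1 := ((mem_treesOn G W T).1 hT.1).1
    exact Finset.disjoint_of_subset_right (Finset.insert_subset_insert _ h1) Finset.sdiff_disjoint
  · intro T hT T2 hT2 h
    have h1 := ((mem_treesOn G W T).1 (Finset.mem_filter.1 hT).1).1
    have h2 := ((mem_treesOn G W T2).1 (Finset.mem_filter.1 hT2).1).1
    have h3 := new_notMem W u v hv (h1.trans (edgesIn_subset_sym2 G W))
    have h4 := new_notMem W u v hv (h2.trans (edgesIn_subset_sym2 G W))
    rw [← Finset.erase_insert h3, ← Finset.erase_insert h4]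
    exact congrArg (fun X => Finset.erase X s(u, v)) h
  · intro T' hT'
    rw [Finset.mem_filter] at hT'
    obtain ⟨T, hT, rfl⟩ := exists_of_mem_treesOn G W u v hu hv hT'.1 hT'.2.2
    refine ⟨T, Finset.mem_filter.2 ⟨hT, ?_⟩, rfl⟩
    intro e he
    rcases Finset.mem_insert.1 (hT'.2.1 he) with h | h
    · exact absurd (h ▸ he) (new_notMem W u v hv hA)
    · exact h

end Step

theorem treesOn_nonempty (G : SimpleGraph ℕ) (S : Finset ℕ)
    (hS : (G.induce (S : Set ℕ)).Connected) : (treesOn G S).Nonempty := by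
  obtain ⟨x, hx⟩ := ((conn_iff G S).1 hS).1
  have hx1 : (G.induce (({x} : Finset ℕ) : Set ℕ)).Connected := by
    rw [conn_iff]
    refine ⟨⟨x, Finset.mem_singleton_self _⟩, fun φ _ a ha b hb => ?_⟩
    rw [Finset.mem_singleton.1 ha, Finset.mem_singleton.1 hb]
  refine chain_induction G (fun W => (treesOn G W).Nonempty) {x} S
    (Finset.singleton_subset_iff.2 hx) hx1 hS ⟨∅, ?_⟩ ?_
  · rw [mem_treesOn]
    refine ⟨Finset.empty_subset _, ⟨x, Finset.mem_singleton_self _⟩, fun φ _ a ha b hb => ?_, by simp⟩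
    rw [Finset.mem_singleton.1 ha, Finset.mem_singleton.1 hb]
  · rintro W _ _ u hu v hv huv ⟨T, hT⟩
    exact ⟨_, insert_mem_treesOn G W u v hu hv huv hT⟩

end UstMono

open UstMono in
theorem ustContains_anti (G : SimpleGraph ℕ)
    (hNA : ∀ S : Finset ℕ, (G.induce (S : Set ℕ)).Connected → ∀ A R : Finset (Sym2 ℕ), Disjoint A R →
      ((treesOn G S).filter (fun T => A ⊆ T)).card * ((treesOn G S).filter (fun T => Disjoint R T)).card ≤
        ((treesOn G S).filter (fun T => A ⊆ T ∧ Disjoint R T)).card * (treesOn G S).card)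
    (S S' : Finset ℕ) (hSS' : S ⊆ S') (hS : (G.induce (S : Set ℕ)).Connected)
    (hS' : (G.induce (S' : Set ℕ)).Connected) (A : Finset (Sym2 ℕ)) (hA : A ⊆ S.sym2) :
    ustContains G S' A ≤ ustContains G S A := by
  refine chain_induction G (fun W => ustContains G W A ≤ ustContains G S A) S S' hSS' hS hS'
    le_rfl ?_
  intro W hSW hW u hu v hv huv hP
  refine le_trans ?_ hP
  have hAW : A ⊆ W.sym2 := hA.trans (Finset.sym2_mono hSW)
  have hW' := conn_insert G W hW u v hu huv
  have hdisj : Disjoint A (edgesIn G (insert v W) \ insert s(u, v) (edgesIn G W)) := by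
    rw [Finset.disjoint_left]
    intro e he he2
    rw [Finset.mem_sdiff] at he2
    refine he2.2 (Finset.mem_insert_of_mem ?_)
    rw [mem_edgesIn]
    exact ⟨hAW he, ((mem_edgesIn G _ e).1 he2.1).2⟩
  have h1 := hNA (insert v W) hW' A _ hdisj
  rw [card_step G W u v hu hv huv A hAW] at h1
  have h2 := card_step G W u v hu hv huv ∅ (Finset.empty_subset _)
  simp only [Finset.empty_subset, true_and, Finset.filter_true] at h2
  rw [h2] at h1
  have hp1 : (0 : ℝ) < (treesOn G W).card := by
    exact_mod_cast (treesOn_nonempty G W hW).card_pos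
  have hp2 : (0 : ℝ) < (treesOn G (insert v W)).card := by
    exact_mod_cast (treesOn_nonempty G _ hW').card_pos
  rw [ustContains_eq, ustContains_eq, div_le_div_iff₀ hp2 hp1]
  exact_mod_cast h1

end Crest.Agent.R168

end
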