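import Crest.Agent.R168.Group
import Crest.Agent.R168.SRNeg
import Crest.Agent.R168.TreePoly
import Crest.Agent.R168.UstMeasure
import Crest.Agent.R168.UstMono
import Crest.Agent.R168.Fusf
import Crest.Agent.R168.GraphMeas
import Crest.Agent.R168.GraphEquiv
import Crest.Agent.R168.PairLaw

/-!
The free uniform spanning forest as a factor of independent labels, by one rule for all graphs.
-/

set_option autoImplicit false

open MeasureTheory unitInterval Filter Topology
open Crest.ProbabilityR Crest.ProbabilityR.Labels Crest.ProbabilityR.SpanningTrees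
open Crest.ProbabilityR.StronglyRayleigh Crest.ProbabilityR.GraphTables

noncomputable section

namespace Crest.Agent.R168

theorem treesOn_nonempty_of_connected (G : SimpleGraph ℕ) (S : Finset ℕ)
    (hS : (G.induce (S : Set ℕ)).Connected) : (treesOn G S).Nonempty := by
  by_contra h
  rw [Finset.not_nonempty_iff_eq_empty] at h
  exact treePoly_ne_zero G S hS (fun _ => 1) (fun _ => Or.inr rfl) (by simp [h])

theorem exists_fusf (G : SimpleGraph ℕ) (S : ℕ → Finset ℕ) (hmono : Monotone S)
    (hcov : ∀ v : ℕ, ∃ n, v ∈ S n) (hconn : ∀ n, (G.induce (S n : Set ℕ)).Connected) :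
    ∃ ν : Measure (Sym2 ℕ → Bool), IsProbabilityMeasure ν ∧ TiltLip ν 4 ∧
      (∀ A, mom ν A = fusfMom G A) ∧
      ∀ A, Tendsto (fun n => ustContains G (S n) A) atTop (𝓝 (fusfMom G A)) := by
  have hprob : ∀ S : Finset ℕ, (G.induce (S : Set ℕ)).Connected →
      IsProbabilityMeasure (ustMeasure G S) := fun S hS =>
    isProbabilityMeasure_ustMeasure G S (treesOn_nonempty_of_connected G S hS)
  have hsr : ∀ S : Finset ℕ, (G.induce (S : Set ℕ)).Connected →
      IsStronglyRayleigh (ustMeasure G S) := fun S hS =>
    isStronglyRayleigh_ustMeasure G S (treePoly_ne_zero G S hS)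
  refine exists_fusf_of G hprob (mom_ustMeasure G) (fun S hS => ?_) (fun S S' hSS' hS hS' A hA =>
    ustContains_anti G (fun T hT A R hAR => ?_) S S' hSS' hS hS' A hA) S hmono hcov hconn
  · have := hprob S hS
    exact tiltLip_of_SR _ (hsr S hS)
  · have := hprob T hT
    exact card_negAssoc_of_measure G T A R (negAssoc_of_SR _ (hsr T hT) A R hAR)

/-- The pair labels for which the rule keeps the pair `e`. -/
def keepSet (G : SimpleGraph ℕ) (e : Sym2 ℕ) : Set (Sym2 ℕ → I) :=
  limSet (labelMeasure (Sym2 ℕ)) (fun n => zbit (fusfMom G) (pairBall G n e) n e)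

open Classical in
/-- The rule. -/
def rule (G : SimpleGraph ℕ) (x : ℕ → I) (e : Sym2 ℕ) : Bool := decide (pairLabel G x ∈ keepSet G e)

theorem measurableSet_keepSet (G : SimpleGraph ℕ) (e : Sym2 ℕ) : MeasurableSet (keepSet G e) :=
  measurableSet_limSet _ fun _ => measurableSet_zbit _ _ _ _

theorem measurableSet_keepSet_param (e : Sym2 ℕ) :
    MeasurableSet {p : (ℕ → ℕ → Bool) × (Sym2 ℕ → I) | p.2 ∈ keepSet (graphOfTable p.1) e} := by
  refine measurableSet_limSet_param (labelMeasure (Sym2 ℕ)) (E := fun t n =>
    zbit (fusfMom (graphOfTable t)) (pairBall (graphOfTable t) n e) n e) fun n => ?_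
  have : {p : (ℕ → ℕ → Bool) × (Sym2 ℕ → I) |
      p.2 ∈ zbit (fusfMom (graphOfTable p.1)) (pairBall (graphOfTable p.1) n e) n e} =
      ⋃ F : Finset (Sym2 ℕ), (Prod.fst ⁻¹' {t | pairBall (graphOfTable t) n e = F} ∩
        {p | p.2 ∈ zbit (fusfMom (graphOfTable p.1)) F n e}) := by
    ext p; simp
  rw [this]
  exact MeasurableSet.iUnion fun F => (measurable_fst (measurableSet_pairBall_eq n e F)).inter
    (measurableSet_zbit_param (fun A => (measurable_fusfMom A).comp measurable_fst) F n e
      measurable_snd)

theorem measurable_rule :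
    Measurable (fun p : (ℕ → ℕ → Bool) × (ℕ → I) => rule (graphOfTable p.1) p.2) := by
  refine measurable_pi_lambda _ fun e => measurable_to_bool ?_
  have := (measurable_fst.prodMk (measurable_pairLabel_of measurable_xi))
    (measurableSet_keepSet_param e)
  convert this using 1
  ext p; simp [rule]

theorem rule_comap (g : Equiv.Perm ℕ) (G : SimpleGraph ℕ) (x : ℕ → I) :
    rule (G.comap g) (x ∘ g) = rule G x ∘ Sym2.map g := by
  funext e
  have hM : fusfMom (G.comap g) = fun B => fusfMom G (B.map (sym2Equiv g).toEmbedding) :=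
    funext fun B => fusfMom_comap g G B
  have hk : keepSet G (Sym2.map g e) =
      (fun z : Sym2 ℕ → I => z ∘ sym2Equiv g) ⁻¹' keepSet (G.comap g) e := by
    unfold keepSet
    rw [← limSet_preimage (measurePreserving_comp_inj _ (sym2Equiv g).injective)
      fun n => measurableSet_zbit _ _ _ _]
    congr 1
    funext n
    rw [hM, ← zbit_map, pairBall_comap]
    rfl
  have hiff : pairLabel (G.comap g) (x ∘ g) ∈ keepSet (G.comap g) e ↔
      pairLabel G x ∈ keepSet G (Sym2.map g e) := by
    rw [hk, pairLabel_comap, Set.mem_preimage]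
    exact Iff.rfl
  unfold rule
  exact decide_eq_decide.2 hiff

theorem tendsto_rule (G : SimpleGraph ℕ) (hG : G.Connected)
    (hlf : ∀ v : ℕ, (G.neighborSet v).Finite) (S : ℕ → Finset ℕ) (hmono : Monotone S)
    (hcov : ∀ v : ℕ, ∃ n, v ∈ S n) (hconn : ∀ n, (G.induce (S n : Set ℕ)).Connected)
    (F : Finset (Sym2 ℕ)) :
    Tendsto (fun n => ustContains G (S n) F) atTop
      (𝓝 (((labelMeasure ℕ).map (rule G) {ω | ∀ e ∈ F, ω e = true}).toReal)) := by
  obtain ⟨ν, hprob, hν, hmom, hlim⟩ := exists_fusf G S hmono hcov hconn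
  have hM : fusfMom G = mom ν := funext fun A => (hmom A).symm
  have hrule : Measurable (rule G) := by
    have := measurable_rule.comp (measurable_const.prodMk measurable_id :
      Measurable fun x : ℕ → I => (tableOf G, x))
    simpa [Function.comp_def, graphOfTable_tableOf] using this
  have hlab : Measurable (pairLabel G) := by
    have := (measurable_pairLabel_of measurable_xi).comp (measurable_const.prodMk measurable_id :
      Measurable fun x : ℕ → I => (tableOf G, x))
    simpa [Function.comp_def, graphOfTable_tableOf] using this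
  have hpres := measurePreserving_pairLabel_of G hG hlf measurePreserving_split hlab
  have hset : MeasurableSet {z : Sym2 ℕ → I | ∀ e ∈ F, z ∈ keepSet G e} := by
    simp only [Set.ofPred_forall]
    exact Finset.measurableSet_biInter _ fun e _ => measurableSet_keepSet G e
  have h1 := real_forall_eq_mom ν hν (keepSet G) (fun e n => pairBall G n e)
    (fun e => tendsto_pairBall G hG hlf e) (fun e => by
      unfold keepSet
      rw [hM]
      exact tendsto_limSet_zbit ν hν e (tendsto_pairBall G hG hlf e)) F
  have h2 : ((labelMeasure ℕ).map (rule G) {ω | ∀ e ∈ F, ω e = true}).toReal = fusfMom G F := by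
    rw [Measure.map_apply hrule (measurableSet_occupied F), ← hmom, ← h1,
      ← hpres.measureReal_preimage hset.nullMeasurableSet, measureReal_def]
    congr 2
    ext x; simp [rule]
  rw [h2]
  exact hlim F

end Crest.Agent.R168

end
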