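import Crest.Agent.R168.Defs

/-! Strongly Rayleigh laws have tilted means that are Lipschitz in the field for the sup norm. -/

set_option autoImplicit false
open MeasureTheory unitInterval Filter Topology
open Crest.ProbabilityR Crest.ProbabilityR.Labels Crest.ProbabilityR.SpanningTrees
open Crest.ProbabilityR.StronglyRayleigh Crest.ProbabilityR.GraphTables
noncomputable section
namespace Crest.Agent.R168

namespace SRLip

/-- Schwarz lemma for a holomorphic function on a disc of radius `3` whose real values lie in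
`[0,1]` and which is real at the centre. -/
lemma deriv_bound (q : ℂ → ℂ) (c : ℂ) (hd : DifferentiableOn ℂ q (Metric.ball c 3))
    (homit : ∀ t ∈ Metric.ball c 3, (q t).im = 0 → 0 ≤ (q t).re ∧ (q t).re ≤ 1)
    (h0 : (q c).im = 0) : ‖deriv q c‖ ≤ 2 / 3 := by
  have hc : c ∈ Metric.ball c 3 := Metric.mem_ball_self (by norm_num)
  have hden : ∀ t ∈ Metric.ball c 3, (3 - 2 * q t) ≠ 0 := by
    intro t ht h
    have h1 : q t = 3 / 2 := by linear_combination (-1 / 2 : ℂ) * h
    have h2 := homit t ht (by rw [h1]; norm_num)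
    rw [h1] at h2
    norm_num at h2
  set r : ℂ → ℂ := fun t => (2 * q t + 1) / (3 - 2 * q t) with hr
  have hslit : ∀ t ∈ Metric.ball c 3, r t ∈ Complex.slitPlane := by
    intro t ht
    by_contra hns
    rw [Complex.mem_slitPlane_iff, not_or, not_lt, not_not] at hns
    obtain ⟨hre, him⟩ := hns
    have hmul : r t * (3 - 2 * q t) = 2 * q t + 1 := by
      rw [hr]; exact div_mul_cancel₀ _ (hden t ht)
    have h1 := congrArg Complex.re hmul
    have h2 := congrArg Complex.im hmul
    simp [him] at h1 h2
    by_cases hqi : (q t).im = 0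
    · obtain ⟨ha, hb⟩ := homit t ht hqi
      nlinarith
    · have h3 : (r t).re = -1 := by
        apply mul_right_cancel₀ hqi
        linarith
      rw [h3] at h1
      linarith
  have hrd : DifferentiableOn ℂ r (Metric.ball c 3) := by
    apply DifferentiableOn.div
    · exact (hd.const_mul 2).add_const 1
    · exact (hd.const_mul 2).const_sub 3
    · exact hden
  obtain ⟨ha, hb⟩ := homit c hc h0
  set x : ℝ := (q c).re with hx
  have hqc : q c = (x : ℂ) := by
    apply Complex.ext <;> simp [hx, h0]
  have hrc : r c = (((2 * x + 1) / (3 - 2 * x) : ℝ) : ℂ) := by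
    rw [hr]; simp only [hqc]; push_cast; rfl
  have hrcpos : 0 < (2 * x + 1) / (3 - 2 * x) := div_pos (by linarith) (by linarith)
  have hlogc : (Complex.log (r c)).im = 0 := by
    rw [hrc, Complex.log_im, Complex.arg_ofReal_of_nonneg hrcpos.le]
  set E : ℂ → ℂ := fun t => Complex.exp ((Complex.log (r t) - Complex.log (r c)) / 2) with hE
  have hEc : E c = 1 := by simp [hE]
  have hEre : ∀ t ∈ Metric.ball c 3, 0 < (E t).re := by
    intro t ht
    rw [hE]
    simp only [Complex.exp_re]
    apply mul_pos (Real.exp_pos _)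
    have him : ((Complex.log (r t) - Complex.log (r c)) / 2).im = (r t).arg / 2 := by
      simp [hlogc, Complex.log_im]
    rw [him]
    have h1 := Complex.neg_pi_lt_arg (r t)
    have h2 : (r t).arg < Real.pi :=
      lt_of_le_of_ne (Complex.arg_le_pi _) (Complex.slitPlane_arg_ne_pi (hslit t ht))
    apply Real.cos_pos_of_mem_Ioo
    constructor <;> linarith
  have hE1 : ∀ t ∈ Metric.ball c 3, E t + 1 ≠ 0 := by
    intro t ht h
    have h1 := congrArg Complex.re h
    have := hEre t ht
    simp at h1
    linarith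
  have hEd : DifferentiableOn ℂ E (Metric.ball c 3) :=
    (((hrd.clog hslit).sub_const _).div_const 2).cexp
  set u : ℂ → ℂ := fun t => (E t - 1) / (E t + 1) with hu
  have hud : DifferentiableOn ℂ u (Metric.ball c 3) :=
    (hEd.sub_const 1).div (hEd.add_const 1) hE1
  have huc : u c = 0 := by simp [hu, hEc]
  have hmaps : Set.MapsTo u (Metric.ball c 3) (Metric.closedBall (u c) 1) := by
    intro t ht
    rw [huc, mem_closedBall_zero_iff, hu]
    simp only [norm_div]
    rw [div_le_one (norm_pos_iff.mpr (hE1 t ht))]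
    have h1 := hEre t ht
    have h2 : ‖E t - 1‖ ^ 2 ≤ ‖E t + 1‖ ^ 2 := by
      rw [Complex.sq_norm, Complex.sq_norm, Complex.normSq_apply, Complex.normSq_apply]
      simp
      nlinarith
    exact (sq_le_sq₀ (norm_nonneg _) (norm_nonneg _)).mp h2
  have hS := Complex.norm_deriv_le_div_of_mapsTo_ball hud hmaps (by norm_num)
  have hq' : HasDerivAt q (deriv q c) c :=
    (hd.differentiableAt (Metric.isOpen_ball.mem_nhds hc)).hasDerivAt
  have hr' : HasDerivAt r ((2 * deriv q c * (3 - 2 * q c) - (2 * q c + 1) * (-(2 * deriv q c))) /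
      (3 - 2 * q c) ^ 2) c :=
    ((hq'.const_mul 2).add_const 1).div ((hq'.const_mul 2).const_sub 3) (hden c hc)
  have hE' := (((hr'.clog (hslit c hc)).sub_const (Complex.log (r c))).div_const 2).cexp
  have hu' := (hE'.sub_const 1).div (hE'.add_const 1) (hE1 c hc)
  have hderiv : deriv u c = 2 * deriv q c / ((3 - 2 * q c) * (2 * q c + 1)) := by
    have h1 : deriv u c = _ := hu'.deriv
    rw [h1]
    have h3 := hden c hc
    have h4 : (2 * q c + 1) ≠ 0 := by
      rw [hqc]
      have : (2 * x + 1 : ℝ) ≠ 0 := by linarith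
      exact_mod_cast this
    simp only [sub_self, zero_div, Complex.exp_zero, hr]
    field_simp
    ring
  rw [hderiv, hqc, norm_div, norm_mul] at hS
  have h5 : ‖(3 - 2 * (x : ℂ)) * (2 * (x : ℂ) + 1)‖ = (3 - 2 * x) * (2 * x + 1) := by
    have : (3 - 2 * (x : ℂ)) * (2 * (x : ℂ) + 1) = (((3 - 2 * x) * (2 * x + 1) : ℝ) : ℂ) := by
      push_cast; ring
    rw [this, Complex.norm_real, Real.norm_of_nonneg (by nlinarith)]
  rw [h5, div_le_iff₀ (by nlinarith)] at hS
  simp at hS
  nlinarith [sq_nonneg (2 * x - 1)]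

variable {V : Type*}

/-- The multi-affine polynomial with coefficients `p` on the subsets of `G`. -/
def poly (G : Finset V) (p : Finset V → ℝ) (z : V → ℂ) : ℂ :=
  ∑ S ∈ G.powerset, (p S : ℂ) * ∏ j ∈ S, z j

/-- The real version of `poly` at exponential weights. -/
def polyR (G : Finset V) (p : Finset V → ℝ) (a : V → ℝ) : ℝ :=
  ∑ S ∈ G.powerset, p S * Real.exp (∑ j ∈ S, a j)

lemma poly_exp (G : Finset V) (p : Finset V → ℝ) (a : V → ℝ) :
    poly G p (fun j => Complex.exp (a j)) = (polyR G p a : ℂ) := by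
  unfold poly polyR
  push_cast
  refine Finset.sum_congr rfl fun S _ => ?_
  rw [Complex.exp_sum]

lemma poly_conj (G : Finset V) (p : Finset V → ℝ) (z : V → ℂ) :
    poly G p (fun j => (starRingEnd ℂ) (z j)) = (starRingEnd ℂ) (poly G p z) := by
  unfold poly
  simp [map_sum, map_prod]

open Classical in
lemma poly_update (G : Finset V) (p : Finset V → ℝ) (z : V → ℂ) (i : V) (κ : ℂ) :
    poly G p (Function.update z i (κ * z i)) =
      poly G p z + (κ - 1) * poly G (fun S => if i ∈ S then p S else 0) z := by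
  unfold poly
  rw [Finset.mul_sum, ← Finset.sum_add_distrib]
  refine Finset.sum_congr rfl fun S _ => ?_
  by_cases hi : i ∈ S
  · rw [Finset.prod_update_of_mem hi, ← Finset.mul_prod_erase S z hi, Finset.sdiff_singleton_eq_erase]
    simp only [hi, if_true]
    ring
  · rw [Finset.prod_update_of_notMem hi]
    simp [hi]

/-- Stability of the polynomial on the product of upper half planes. -/
def Stab (G : Finset V) (p : Finset V → ℝ) : Prop :=
  ∀ z : V → ℂ, (∀ j ∈ G, 0 < (z j).im) → poly G p z ≠ 0

open Classical in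
lemma omit_upper {G : Finset V} {p : Finset V → ℝ} (hs : Stab G p) (i : V) {z : V → ℂ}
    (hz : ∀ j ∈ G, 0 < (z j).im)
    (him : (poly G (fun S => if i ∈ S then p S else 0) z / poly G p z).im = 0) :
    0 ≤ (poly G (fun S => if i ∈ S then p S else 0) z / poly G p z).re ∧
      (poly G (fun S => if i ∈ S then p S else 0) z / poly G p z).re ≤ 1 := by
  set N := poly G (fun S => if i ∈ S then p S else 0) z with hN
  set c : ℝ := (N / poly G p z).re with hc
  have hf := hs z hz
  have hq : N / poly G p z = (c : ℂ) := by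
    apply Complex.ext <;> simp [hc, him]
  have hNc : N = c * poly G p z := by rw [← hq]; field_simp
  by_contra hcon
  have hκ : 0 < (c - 1) / c ∧ c ≠ 0 := by
    rw [not_and_or, not_le, not_le] at hcon
    rcases hcon with h | h
    · exact ⟨div_pos_of_neg_of_neg (by linarith) h, h.ne⟩
    · exact ⟨div_pos (by linarith) (by linarith), by linarith⟩
  apply hs (Function.update z i ((((c - 1) / c : ℝ) : ℂ) * z i))
  · intro j hj
    by_cases hji : j = i
    · subst hji
      rw [Function.update_self, Complex.im_ofReal_mul]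
      exact mul_pos hκ.1 (hz j hj)
    · rw [Function.update_of_ne hji]; exact hz j hj
  · rw [poly_update, ← hN, hNc]
    have : (c : ℂ) ≠ 0 := by exact_mod_cast hκ.2
    push_cast
    field_simp
    ring

lemma polyR_pos {G : Finset V} {p : Finset V → ℝ} (hp : ∀ S, 0 ≤ p S) (hs : Stab G p)
    (a : V → ℝ) : 0 < polyR G p a := by
  have h0 : 0 ≤ polyR G p a :=
    Finset.sum_nonneg fun S _ => mul_nonneg (hp S) (Real.exp_pos _).le
  refine lt_of_le_of_ne h0 fun h => ?_
  have h1 := (Finset.sum_eq_zero_iff_of_nonneg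
    (fun S _ => mul_nonneg (hp S) (Real.exp_pos (∑ j ∈ S, a j)).le)).mp h.symm
  apply hs (fun _ => Complex.I) (fun j _ => by simp)
  unfold poly
  refine Finset.sum_eq_zero fun S hS => ?_
  have h2 : p S = 0 := by
    rcases mul_eq_zero.mp (h1 S hS) with h | h
    · exact h
    · exact absurd h (Real.exp_pos _).ne'
  simp [h2]

open Classical in
/-- The tilted mean written with the coefficients `p`. -/
def meanR (G : Finset V) (p : Finset V → ℝ) (i : V) (a : V → ℝ) : ℝ :=
  polyR G (fun S => if i ∈ S then p S else 0) a / polyR G p a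

open Classical in
lemma meanR_mem {G : Finset V} {p : Finset V → ℝ} (hp : ∀ S, 0 ≤ p S) (hs : Stab G p) (i : V)
    (a : V → ℝ) : 0 ≤ meanR G p i a ∧ meanR G p i a ≤ 1 := by
  have hpos := polyR_pos hp hs a
  unfold meanR
  constructor
  · apply div_nonneg _ hpos.le
    refine Finset.sum_nonneg fun S _ => mul_nonneg ?_ (Real.exp_pos _).le
    dsimp only
    split_ifs
    · exact hp S
    · exact le_rfl
  · rw [div_le_one hpos]
    refine Finset.sum_le_sum fun S _ => mul_le_mul_of_nonneg_right ?_ (Real.exp_pos _).le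
    dsimp only
    split_ifs
    · exact le_rfl
    · exact hp S

open Classical in
lemma pos_dir {G : Finset V} {p : Finset V → ℝ} (hp : ∀ S, 0 ≤ p S) (hs : Stab G p) (i : V)
    (a v : V → ℝ) (hv : ∀ j ∈ G, 0 < v j ∧ v j ≤ 1) (T : ℝ) :
    |meanR G p i (fun j => a j + T * v j) - meanR G p i a| ≤ 2 / 3 * |T| := by
  set z : ℂ → V → ℂ := fun t j => Complex.exp (a j + t * v j) with hz
  set pi : Finset V → ℝ := fun S => if i ∈ S then p S else 0 with hpi
  set q : ℂ → ℂ := fun t => poly G pi (z t) / poly G p (z t) with hq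
  have hzreal : ∀ s : ℝ, z s = fun j => Complex.exp ((a j + s * v j : ℝ) : ℂ) := by
    intro s; funext j; rw [hz]; push_cast; rfl
  have hqreal : ∀ s : ℝ, q s = (meanR G p i (fun j => a j + s * v j) : ℂ) := by
    intro s
    rw [hq]
    simp only [hzreal s, poly_exp, meanR]
    push_cast
    rfl
  have hzup : ∀ t : ℂ, 0 < t.im → t.im < 3 → ∀ j ∈ G, 0 < (z t j).im := by
    intro t h1 h2 j hj
    rw [hz]
    simp only [Complex.exp_im]
    apply mul_pos (Real.exp_pos _)
    have him : ((a j : ℂ) + t * (v j : ℂ)).im = t.im * v j := by simp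
    rw [him]
    obtain ⟨hv1, hv2⟩ := hv j hj
    apply Real.sin_pos_of_pos_of_lt_pi (mul_pos h1 hv1)
    have := Real.pi_gt_three
    nlinarith
  have hzconj : ∀ t : ℂ, z ((starRingEnd ℂ) t) = fun j => (starRingEnd ℂ) (z t j) := by
    intro t; funext j
    rw [hz]
    simp only [← Complex.exp_conj, map_add, map_mul, Complex.conj_ofReal]
  have hkey : ∀ t : ℂ, |t.im| < 3 → poly G p (z t) ≠ 0 ∧
      ((q t).im = 0 → 0 ≤ (q t).re ∧ (q t).re ≤ 1) := by
    intro t ht
    rw [abs_lt] at ht
    rcases lt_trichotomy t.im 0 with h | h | h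
    · have h1 := hzup ((starRingEnd ℂ) t) (by simpa using h) (by simp; linarith)
      have h2 := hs _ h1
      have h3 := omit_upper hs i h1
      rw [hzconj, poly_conj] at h2
      rw [hzconj, poly_conj, poly_conj, ← map_div₀] at h3
      refine ⟨fun h0 => h2 (by rw [h0]; simp), fun h4 => ?_⟩
      have := h3 (by rw [Complex.conj_im]; exact neg_eq_zero.mpr h4)
      rw [Complex.conj_re] at this
      exact this
    · have ht' : t = (t.re : ℂ) := by apply Complex.ext <;> simp [h]
      rw [ht']
      constructor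
      · rw [hzreal, poly_exp]
        exact_mod_cast (polyR_pos hp hs _).ne'
      · intro _
        rw [hqreal, Complex.ofReal_re]
        exact meanR_mem hp hs i _
    · have h1 := hzup t h ht.2
      exact ⟨hs _ h1, omit_upper hs i h1⟩
  have hpd : ∀ p' : Finset V → ℝ, Differentiable ℂ (fun t => poly G p' (z t)) := by
    intro p'
    unfold poly
    rw [hz]
    fun_prop
  have hball : ∀ c : ℂ, c.im = 0 → ∀ t ∈ Metric.ball c 3, |t.im| < 3 := by
    intro c hc t ht
    rw [mem_ball_iff_norm] at ht
    have h1 := Complex.abs_im_le_norm (t - c)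
    rw [Complex.sub_im, hc, sub_zero] at h1
    linarith
  have hdiff : ∀ c : ℂ, c.im = 0 → DifferentiableOn ℂ q (Metric.ball c 3) := by
    intro c hc
    exact (hpd pi).differentiableOn.div (hpd p).differentiableOn
      fun t ht => (hkey t (hball c hc t ht)).1
  have hconv : Convex ℝ {t : ℂ | t.im = 0} := by
    intro x hx y hy s t _ _ _
    simp only [Set.mem_ofPred_eq] at hx hy ⊢
    simp [hx, hy]
  have hmvt := Convex.norm_image_sub_le_of_norm_deriv_le (𝕜 := ℂ) (f := q) (C := 2 / 3)
    (s := {t : ℂ | t.im = 0}) (x := ((0 : ℝ) : ℂ)) (y := (T : ℂ))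
    (fun c hc => (hdiff c hc).differentiableAt (Metric.ball_mem_nhds c (by norm_num)))
    (fun c hc => deriv_bound q c (hdiff c hc) (fun t ht => (hkey t (hball c hc t ht)).2) (by
      have ht' : c = (c.re : ℂ) := by
        apply Complex.ext
        · simp
        · simpa using hc
      rw [ht', hqreal, Complex.ofReal_im]))
    hconv (by simp) (by simp)
  rw [hqreal, hqreal, ← Complex.ofReal_sub, ← Complex.ofReal_sub, Complex.norm_real,
    Complex.norm_real, Real.norm_eq_abs, Real.norm_eq_abs, sub_zero] at hmvt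
  simpa using hmvt

lemma meanR_lip {G : Finset V} {p : Finset V → ℝ} (hp : ∀ S, 0 ≤ p S) (hs : Stab G p) (i : V)
    (a b : V → ℝ) (δ : ℝ) (hδ : 0 ≤ δ) (hab : ∀ j, |a j - b j| ≤ δ) :
    |meanR G p i a - meanR G p i b| ≤ 4 * δ := by
  rcases hδ.eq_or_lt with h0 | hpos
  · have : a = b := by
      funext j
      have := hab j
      rw [← h0] at this
      exact sub_eq_zero.mp (abs_nonpos_iff.mp this)
    rw [this, ← h0]; simp
  · have h1 := pos_dir hp hs i a (fun _ => 1) (fun _ _ => ⟨one_pos, le_rfl⟩) (2 * δ)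
    have h2 := pos_dir hp hs i b (fun j => (a j + 2 * δ - b j) / (3 * δ)) (fun j _ => by
      have := abs_le.mp (hab j)
      constructor
      · apply div_pos <;> linarith
      · rw [div_le_one (by linarith)]; linarith) (3 * δ)
    have h3 : (fun j => b j + 3 * δ * ((a j + 2 * δ - b j) / (3 * δ))) =
        fun j => a j + 2 * δ * 1 := by
      funext j; field_simp; ring
    rw [h3, abs_of_pos (by linarith : 0 < 3 * δ)] at h2
    rw [abs_of_pos (by linarith : 0 < 2 * δ)] at h1
    rw [abs_le] at h1 h2 ⊢
    constructor <;> linarith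

/-- The cylinder of the configurations occupied, within `G`, exactly at `S`. -/
def cyl (G S : Finset V) : Set (V → Bool) := {ω | ∀ j ∈ G, (ω j = true ↔ j ∈ S)}

lemma measurableSet_cyl (G S : Finset V) : MeasurableSet (cyl G S) := by
  have : cyl G S = ⋂ j ∈ G, (fun ω : V → Bool => ω j) ⁻¹' {b | b = true ↔ j ∈ S} := by
    ext ω; simp [cyl]
  rw [this]
  exact Finset.measurableSet_biInter G fun j _ => measurable_pi_apply j (MeasurableSet.of_discrete)

lemma integral_eq_sum (ν : Measure (V → Bool)) [IsProbabilityMeasure ν] (G : Finset V)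
    (Φ : (V → Bool) → ℝ) (φ : Finset V → ℝ) (h : ∀ S ⊆ G, ∀ ω ∈ cyl G S, Φ ω = φ S) :
    ∫ ω, Φ ω ∂ν = ∑ S ∈ G.powerset, (ν (cyl G S)).toReal * φ S := by
  classical
  have hΦ : Φ = fun ω => ∑ S ∈ G.powerset, (cyl G S).indicator (fun _ => φ S) ω := by
    funext ω
    have hmem : ω ∈ cyl G (G.filter fun j => ω j = true) := by
      intro j hj; simp [hj]
    rw [Finset.sum_eq_single (G.filter fun j => ω j = true)]
    · rw [Set.indicator_of_mem hmem]
      exact h _ (Finset.filter_subset _ _) ω hmem
    · intro S hS hne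
      apply Set.indicator_of_notMem
      intro hω
      apply hne
      ext j
      rw [Finset.mem_filter]
      constructor
      · intro hj
        have hjG := Finset.mem_powerset.mp hS hj
        exact ⟨hjG, (hω j hjG).mpr hj⟩
      · rintro ⟨hjG, hj⟩
        exact (hω j hjG).mp hj
    · intro hn
      exact absurd (Finset.mem_powerset.mpr (Finset.filter_subset _ _)) hn
  rw [hΦ, integral_finsetSum]
  · refine Finset.sum_congr rfl fun S _ => ?_
    rw [integral_indicator_const _ (measurableSet_cyl G S), smul_eq_mul, Measure.real]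
  · intro S _
    exact (integrable_const _).indicator (measurableSet_cyl G S)

open Classical in
lemma tiltMean_eq (ν : Measure (V → Bool)) [IsProbabilityMeasure ν] (F : Finset V) (i : V)
    (h : V → ℝ) :
    tiltMean ν F i h = meanR (insert i F) (fun S => (ν (cyl (insert i F) S)).toReal) i
      (fun j => if j ∈ F then h j else 0) := by
  have hsum : ∀ S ⊆ insert i F, ∀ ω ∈ cyl (insert i F) S,
      ∑ j ∈ F, h j * bitVal (ω j) = ∑ j ∈ S, if j ∈ F then h j else 0 := by
    intro S _ ω hω
    rw [← Finset.sum_filter, Finset.filter_mem_eq_inter, Finset.inter_comm,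
      ← Finset.filter_mem_eq_inter, Finset.sum_filter]
    refine Finset.sum_congr rfl fun j hj => ?_
    have := hω j (Finset.mem_insert_of_mem hj)
    by_cases hjS : j ∈ S
    · simp [bitVal, hjS, this.mpr hjS]
    · have h2 : ¬ ω j = true := fun h3 => hjS (this.mp h3)
      simp [bitVal, hjS, h2]
  unfold tiltMean meanR polyR
  congr 1
  · rw [integral_eq_sum ν (insert i F) _
      (fun S => (if i ∈ S then 1 else 0) * Real.exp (∑ j ∈ S, if j ∈ F then h j else 0))]
    · refine Finset.sum_congr rfl fun S _ => ?_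
      by_cases hiS : i ∈ S <;> simp [hiS]
    · intro S hS ω hω
      rw [hsum S hS ω hω]
      congr 1
      have := hω i (Finset.mem_insert_self i F)
      by_cases hiS : i ∈ S
      · simp [bitVal, hiS, this.mpr hiS]
      · have h2 : ¬ ω i = true := fun h3 => hiS (this.mp h3)
        simp [bitVal, hiS, h2]
  · rw [integral_eq_sum ν (insert i F) _
      (fun S => Real.exp (∑ j ∈ S, if j ∈ F then h j else 0))]
    intro S hS ω hω
    rw [hsum S hS ω hω]

end SRLip

theorem tiltLip_of_SR {V : Type*} (ν : Measure (V → Bool)) [IsProbabilityMeasure ν]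
    (h : IsStronglyRayleigh ν) : TiltLip ν 4 := by
  classical
  intro F i a b δ hδ hab
  rw [SRLip.tiltMean_eq, SRLip.tiltMean_eq]
  refine SRLip.meanR_lip (fun S => ENNReal.toReal_nonneg) (fun z hz => h _ z hz) i _ _ δ hδ ?_
  intro j
  by_cases hj : j ∈ F
  · simpa [hj] using hab j hj
  · simpa [hj] using hδ

end Crest.Agent.R168

end
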