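import Crest.Agent.R168.Bit
import Crest.Agent.R168.SRLip

/-!
Invariant strongly Rayleigh laws on a countable group are factors of independent labels.
-/

set_option autoImplicit false

open MeasureTheory unitInterval Filter Topology
open Crest.ProbabilityR Crest.ProbabilityR.Labels Crest.ProbabilityR.StronglyRayleigh

noncomputable section

namespace Crest.Agent.R168

theorem measure_eq_of_mom_eq {V : Type*} (ν ν' : Measure (V → Bool)) [IsProbabilityMeasure ν]
    [IsProbabilityMeasure ν'] (h : ∀ A, mom ν A = mom ν' A) : ν = ν' := by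
  classical
  refine ext_of_generate_finite
    (Set.range fun A : Finset V => {ω : V → Bool | ∀ i ∈ A, ω i = true}) ?_ ?_ ?_ (by simp)
  · apply le_antisymm
    · refine iSup_le fun i => ?_
      rw [← measurable_iff_comap_le]
      refine @measurable_to_bool _ (MeasurableSpace.generateFrom _) _ ?_
      exact MeasurableSpace.measurableSet_generateFrom ⟨{i}, by ext; simp⟩
    · refine MeasurableSpace.generateFrom_le ?_
      rintro _ ⟨A, rfl⟩
      exact measurableSet_occupied A
  · rintro _ ⟨A, rfl⟩ _ ⟨B, rfl⟩ _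
    refine ⟨A ∪ B, ?_⟩
    ext ω
    simp only [Set.mem_ofPred_eq, Finset.mem_union, Set.mem_inter_iff]
    exact ⟨fun h => ⟨fun i hi => h i (Or.inl hi), fun i hi => h i (Or.inr hi)⟩,
      fun h i hi => hi.elim (h.1 i) (h.2 i)⟩
  · rintro _ ⟨A, rfl⟩
    exact (ENNReal.toReal_eq_toReal_iff' (measure_ne_top _ _) (measure_ne_top _ _)).1 (h A)

theorem tendsto_map_equiv_atTop {V W : Type*} (e : W ≃ V) {F : ℕ → Finset W}
    (hF : Tendsto F atTop atTop) : Tendsto (fun n => (F n).map e.toEmbedding) atTop atTop := by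
  rw [tendsto_atTop] at hF ⊢
  intro A
  filter_upwards [hF (A.map e.symm.toEmbedding)] with n hn v hv
  rw [Finset.mem_map_equiv]
  exact hn (Finset.mem_map_of_mem e.symm.toEmbedding hv)

theorem tendsto_limSet_zbit {V : Type*} [DecidableEq V] [Countable V] (ν : Measure (V → Bool))
    [IsProbabilityMeasure ν] (hν : TiltLip ν 4) (i : V) {F : ℕ → Finset V}
    (hF : Tendsto F atTop atTop) :
    Tendsto (fun m => (labelMeasure V).real
      {z | ¬ (z ∈ limSet (labelMeasure V) (fun n => zbit (mom ν) (F n) n i) ↔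
        z ∈ zbit (mom ν) (F m) m i)}) atTop (𝓝 0) :=
  tendsto_limSet (E := fun n => zbit (mom ν) (F n) n i) _ (zbit_cauchy ν hν i hF hF)

theorem exists_factor_group (Γ : Type*) [Group Γ] [Countable Γ] (ν : Measure (Γ → Bool))
    [IsProbabilityMeasure ν] (hsr : IsStronglyRayleigh ν) (hinv : IsShiftInvariant ν) :
    ∃ Φ : (Γ → I) → (Γ → Bool), Measurable Φ ∧
      (∀ (g : Γ) (u : Γ → I), Φ (leftShift g u) = leftShift g (Φ u)) ∧
      (labelMeasure Γ).map Φ = ν := by
  classical
  have hν := tiltLip_of_SR ν hsr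
  obtain ⟨F, hF⟩ := exists_seq_tendsto (atTop : Filter (Finset Γ))
  set L₁ : Set (Γ → I) := limSet (labelMeasure Γ) (fun n => zbit (mom ν) (F n) n 1) with hL₁
  have hL₁m : MeasurableSet L₁ := measurableSet_limSet _ fun n => measurableSet_zbit _ _ _ _
  set L : Γ → Set (Γ → I) := fun h => (fun z : Γ → I => z ∘ Equiv.mulLeft h) ⁻¹' L₁ with hL
  have hpres : ∀ h : Γ, MeasurePreserving (fun z : Γ → I => z ∘ Equiv.mulLeft h)
      (labelMeasure Γ) (labelMeasure Γ) := fun h =>
    measurePreserving_comp_inj _ (Equiv.mulLeft h).injective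
  have hLm : ∀ h, MeasurableSet (L h) := fun h => (hpres h).measurable hL₁m
  have hM : ∀ h : Γ, (fun B : Finset Γ => mom ν (B.map (Equiv.mulLeft h).toEmbedding)) = mom ν := by
    intro h
    funext B
    unfold mom
    rw [← hinv h⁻¹ _ (measurableSet_occupied B)]
    congr 2
    ext ω
    simp only [Set.mem_ofPred_eq, Finset.forall_mem_map, Set.mem_preimage, leftShift, inv_inv]
    rfl
  have hLeq : ∀ h : Γ, L h = limSet (labelMeasure Γ)
      (fun n => zbit (mom ν) ((F n).map (Equiv.mulLeft h).toEmbedding) n h) := by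
    intro h
    have : ∀ n, zbit (mom ν) ((F n).map (Equiv.mulLeft h).toEmbedding) n h =
        (fun z : Γ → I => z ∘ Equiv.mulLeft h) ⁻¹' zbit (mom ν) (F n) n 1 := by
      intro n
      have := zbit_map (Equiv.mulLeft h) (mom ν) (F n) n 1
      rw [hM h] at this
      simpa using this
    simp_rw [this]
    rw [limSet_preimage (hpres h) fun n => measurableSet_zbit _ _ _ _]
  have hmeas : Measurable fun (u : Γ → I) (h : Γ) => decide (u ∈ L h) := by
    refine measurable_pi_lambda _ fun h => measurable_to_bool ?_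
    convert hLm h using 1
    ext u; simp
  refine ⟨fun u h => decide (u ∈ L h), hmeas, fun g u => ?_, ?_⟩
  · funext h
    have : leftShift g u ∘ Equiv.mulLeft h = u ∘ Equiv.mulLeft (g⁻¹ * h) := by
      funext k; simp [leftShift, mul_assoc]
    simp only [leftShift, hL, Set.mem_preimage]
    rw [← this]
  · have := Measure.isProbabilityMeasure_map (μ := labelMeasure Γ) hmeas.aemeasurable
    refine measure_eq_of_mom_eq _ _ fun A => ?_
    rw [← real_forall_eq_mom ν hν L (fun h n => (F n).map (Equiv.mulLeft h).toEmbedding)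
      (fun h => tendsto_map_equiv_atTop _ hF) (fun h => by
        rw [hLeq h]
        exact tendsto_limSet_zbit ν hν h (tendsto_map_equiv_atTop _ hF)) A]
    unfold mom
    rw [Measure.map_apply hmeas (measurableSet_occupied A), measureReal_def]
    congr 2
    ext u; simp

end Crest.Agent.R168

end
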