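import Crest.Agent.R168.Sampler

/-!
The law of the sampler, and decoding errors.
-/

set_option autoImplicit false

open MeasureTheory unitInterval Filter Topology
open Crest.ProbabilityR Crest.ProbabilityR.Labels

noncomputable section

namespace Crest.Agent.R168

variable {V : Type*} [DecidableEq V]

theorem integral_update_quant (a : V × ℕ) {f r p : (V × ℕ → I) → ℝ} (hf : Measurable f)
    (hr : Measurable r) (hp : Measurable p) (Cf Cr : ℝ) (hCf : ∀ s, |f s| ≤ Cf)
    (hCr : ∀ s, |r s| ≤ Cr) (hp0 : ∀ s, 0 ≤ p s) (hp1 : ∀ s, p s ≤ 1)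
    (hr' : ∀ s y, r (Function.update s a y) = r s) (hp' : ∀ s y, p (Function.update s a y) = p s) :
    ∫ s, f (Function.update s a (quant (p s) (s a))) * r s ∂(labelMeasure (V × ℕ)) =
      ∫ s, f s * (r s * (1 + p s * chan (s a))) ∂(labelMeasure (V × ℕ)) := by
  have hq : Measurable fun s : V × ℕ → I => quant (p s) (s a) :=
    measurable_quant.comp (hp.prodMk (measurable_pi_apply a))
  have hu : Measurable fun s : V × ℕ → I => Function.update s a (quant (p s) (s a)) :=
    (measurePreserving_update a).measurable.comp (measurable_id.prodMk hq)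
  have hm1 : Measurable fun s : V × ℕ → I => f (Function.update s a (quant (p s) (s a))) * r s :=
    (hf.comp hu).mul hr
  have hm2 : Measurable fun s : V × ℕ → I => f s * (r s * (1 + p s * chan (s a))) :=
    hf.mul (hr.mul (measurable_const.add (hp.mul (measurable_chan.comp (measurable_pi_apply a)))))
  have hb : ∀ s : V × ℕ → I, |1 + p s * chan (s a)| ≤ 2 := by
    intro s
    have h1 := chan_ge (s a)
    have h2 := chan_le (s a)
    have h3 := hp0 s
    have h4 := hp1 s
    rw [abs_le]; constructor <;> nlinarith
  rw [integral_eq_integral_update a hm1 (Cf * Cr) (fun s => abs_mul_le_mul_of (hCf _) (hCr s)),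
    integral_eq_integral_update a hm2 (Cf * (Cr * 2))
      (fun s => abs_mul_le_mul_of (hCf _) (abs_mul_le_mul_of (hCr s) (hb s)))]
  refine integral_congr_ae (Eventually.of_forall fun s => ?_)
  simp only [Function.update_idem, Function.update_self, hr', hp']
  rw [integral_mul_const, integral_quant (hp0 s) (hp1 s) (fun y => f (Function.update s a y)),
    ← integral_mul_const]
  refine integral_congr_ae (Eventually.of_forall fun y => ?_)
  ring

variable (ν : Measure (V → Bool)) [IsProbabilityMeasure ν]

theorem measurable_samp_fixed (M : Finset V → ℝ) (J : Finset (V × ℕ)) (τ : V × ℕ → ℝ) :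
    Measurable (samp M J τ) :=
  measurable_samp (M := fun _ => M) (τ := fun _ => τ) (fun _ => measurable_const) J
    (fun _ => measurable_const) measurable_id

/-- The sampler has the law of the signals of the observation model. -/
theorem integral_samp {τ : V × ℕ → ℝ} (hτ : Function.Injective τ) (J : Finset (V × ℕ))
    {f : (V × ℕ → I) → ℝ} (hf : Measurable f) (C : ℝ) (hC : ∀ s, |f s| ≤ C) :
    ∫ u, f (samp (mom ν) J τ u) ∂(labelMeasure (V × ℕ)) =
      ∫ s, f s * dens ν J ∅ s ∂(labelMeasure (V × ℕ)) := by
  induction J using Finset.induction_on_max_value τ generalizing f with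
  | empty =>
    simp only [dens_empty, mom_empty, mul_one]
    rfl
  | insert a J ha hmax ih =>
    have hmax' : ∀ b ∈ J, τ b < τ a := fun b hb =>
      lt_of_le_of_ne (hmax b hb) fun h => ha (hτ h ▸ hb)
    have hpast : past J τ a = J := Finset.filter_true_of_mem hmax'
    simp_rw [samp_insert (mom ν) τ ha hmax', postM_mom, hpast]
    have hq : Measurable fun s : V × ℕ → I => quant (post ν J a.1 s) (s a) :=
      measurable_quant.comp ((measurable_post ν J a.1).prodMk (measurable_pi_apply a))
    have hu : Measurable fun s : V × ℕ → I =>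
        Function.update s a (quant (post ν J a.1 s) (s a)) :=
      (measurePreserving_update a).measurable.comp (measurable_id.prodMk hq)
    rw [ih (f := fun s => f (Function.update s a (quant (post ν J a.1 s) (s a)))) (hf.comp hu)
      (fun s => hC _)]
    rw [integral_update_quant a hf (measurable_dens ν J ∅) (measurable_post ν J a.1) C _ hC
      (abs_dens_le ν J ∅) (post_nonneg ν J a.1) (post_le_one ν J a.1)
      (fun s y => dens_update ν ∅ s ha y)
      (fun s y => post_congr ν _ fun b hb =>
        Function.update_of_ne (fun h : b = a => ha (h ▸ hb)) _ _)]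
    simp_rw [dens_insert_empty ν _ ha]

/-! ### Decoding -/

/-- The likelihood ratio at the site `i` after `K` rounds. -/
def lratio (i : V) (K : ℕ) (s : V × ℕ → I) : ℝ := ∏ k ∈ Finset.range K, (1 + chan (s (i, k)))

omit [DecidableEq V] in
theorem lratio_pos (i : V) (K : ℕ) (s : V × ℕ → I) : 0 < lratio i K s :=
  Finset.prod_pos fun _ _ => one_add_chan_pos _

omit [DecidableEq V] in
theorem measurable_lratio (i : V) (K : ℕ) : Measurable (lratio i K) :=
  Finset.measurable_prod _ fun k _ =>
    measurable_const.add (measurable_chan.comp (measurable_pi_apply (i, k)))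

/-- The Hellinger-type majorant of the decoding error. -/
def hellProd (i : V) (K : ℕ) (s : V × ℕ → I) : ℝ := ∏ k ∈ Finset.range K, hell (s (i, k))

omit [DecidableEq V] in
theorem hellProd_pos (i : V) (K : ℕ) (s : V × ℕ → I) : 0 < hellProd i K s :=
  Finset.prod_pos fun _ _ => hell_pos _

omit [DecidableEq V] in
theorem abs_hellProd_le (i : V) (K : ℕ) (s : V × ℕ → I) : |hellProd i K s| ≤ 2 ^ K := by
  rw [abs_of_pos (hellProd_pos i K s)]
  unfold hellProd
  calc ∏ k ∈ Finset.range K, hell (s (i, k)) ≤ ∏ _k ∈ Finset.range K, (2 : ℝ) :=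
        Finset.prod_le_prod (fun _ _ => (hell_pos _).le) fun _ _ => hell_le _
    _ = 2 ^ K := by simp

omit [DecidableEq V] in
theorem measurable_hellProd (i : V) (K : ℕ) : Measurable (hellProd i K) :=
  Finset.measurable_prod _ fun k _ => measurable_hell.comp (measurable_pi_apply (i, k))

omit [DecidableEq V] in
theorem lratio_le_hellProd_sq (i : V) (K : ℕ) (s : V × ℕ → I) :
    lratio i K s ≤ hellProd i K s ^ 2 := by
  unfold lratio hellProd
  rw [← Finset.prod_pow]
  exact Finset.prod_le_prod (fun _ _ => (one_add_chan_pos _).le) fun _ _ =>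
    one_add_chan_le_hell_sq _

theorem integral_hellProd (i : V) (K : ℕ) :
    ∫ s, hellProd i K s ∂(labelMeasure (V × ℕ)) = rho ^ K := by
  induction K with
  | zero => simp [hellProd]
  | succ K ih =>
    rw [integral_eq_integral_update (i, K) (measurable_hellProd i (K + 1)) _
      (abs_hellProd_le i (K + 1))]
    have : ∀ s : V × ℕ → I, ∫ y : I, hellProd i (K + 1) (Function.update s (i, K) y) =
        hellProd i K s * rho := by
      intro s
      have e : ∀ y : I, hellProd i (K + 1) (Function.update s (i, K) y) =
          hellProd i K s * hell y := by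
        intro y
        unfold hellProd
        rw [Finset.prod_range_succ, Function.update_self]
        congr 1
        refine Finset.prod_congr rfl fun k hk => ?_
        rw [Function.update_of_ne]
        intro h
        exact (Finset.mem_range.1 hk).ne (Prod.ext_iff.1 h).2
      simp_rw [e]
      rw [integral_const_mul, integral_hell]
    simp_rw [this]
    rw [integral_mul_const, ih, pow_succ]

/-- The slots of the first `K` rounds on the sites of `F`. -/
def slots (F : Finset V) (K : ℕ) : Finset (V × ℕ) := F ×ˢ Finset.range K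

omit [DecidableEq V] in
theorem mem_slots {F : Finset V} {K : ℕ} {b : V × ℕ} : b ∈ slots F K ↔ b.1 ∈ F ∧ b.2 < K := by
  simp [slots]

omit [DecidableEq V] in
theorem slots_mono {F F' : Finset V} {K K' : ℕ} (hF : F ⊆ F') (hK : K ≤ K') :
    slots F K ⊆ slots F' K' := fun _ hb =>
  mem_slots.2 ⟨hF (mem_slots.1 hb).1, lt_of_lt_of_le (mem_slots.1 hb).2 hK⟩

omit [DecidableEq V] in
theorem lik_slots_singleton (i : V) (K : ℕ) (x : V → Bool) (s : V × ℕ → I) :
    lik (slots {i} K) x s = 1 + bitVal (x i) * (lratio i K s - 1) := by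
  unfold lik slots lratio
  rw [Finset.prod_product, Finset.prod_singleton]
  cases h : x i <;> simp [bitVal, h]

omit [DecidableEq V] in
theorem dens_slots_singleton (i : V) (K : ℕ) (s : V × ℕ → I) :
    dens ν (slots {i} K) {i} s = mom ν {i} * lratio i K s ∧
      dens ν (slots {i} K) ∅ s - dens ν (slots {i} K) {i} s = 1 - mom ν {i} := by
  have h1 : dens ν (slots {i} K) {i} s = mom ν {i} * lratio i K s := by
    unfold dens
    rw [← integral_ind, ← integral_mul_const]
    congr 1
    funext x
    rw [lik_slots_singleton, ind_singleton]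
    cases x i <;> simp [bitVal]
  refine ⟨h1, ?_⟩
  have h2 : dens ν (slots {i} K) ∅ s = 1 + mom ν {i} * (lratio i K s - 1) := by
    unfold dens
    simp_rw [lik_slots_singleton, ind_empty, one_mul, ← ind_singleton]
    rw [integral_add (integrable_const _) ((integrable_ind ν _).mul_const _), integral_mul_const,
      integral_ind]
    simp
  rw [h1, h2]; ring

/-- The density of the event that the likelihood ratio at `i` is not clearly on the side of the
true bit. -/
def bad (ν : Measure (V → Bool)) (J : Finset (V × ℕ)) (i : V) (K : ℕ) (s : V × ℕ → I) : ℝ :=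
  (if 1 / 2 ≤ lratio i K s then 1 else 0) * (dens ν J ∅ s - dens ν J {i} s) +
    (if lratio i K s ≤ 2 then 1 else 0) * dens ν J {i} s

omit [DecidableEq V] in
theorem measurable_ite_le_lratio (i : V) (K : ℕ) :
    Measurable fun s : V × ℕ → I => if 1 / 2 ≤ lratio i K s then (1 : ℝ) else 0 :=
  Measurable.ite (measurableSet_le measurable_const (measurable_lratio i K)) measurable_const
    measurable_const

omit [DecidableEq V] in
theorem measurable_ite_lratio_le (i : V) (K : ℕ) :
    Measurable fun s : V × ℕ → I => if lratio i K s ≤ 2 then (1 : ℝ) else 0 :=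
  Measurable.ite (measurableSet_le (measurable_lratio i K) measurable_const) measurable_const
    measurable_const

theorem le_of_sq_le_sq_of_nonneg' {a b : ℝ} (h : a ^ 2 ≤ b ^ 2) (hb : 0 ≤ b) : a ≤ b :=
  (abs_le_of_sq_le_sq' h hb).2

theorem abs_ite_le_one (p : Prop) [Decidable p] : |(if p then (1 : ℝ) else 0)| ≤ 1 := by
  split_ifs <;> simp

omit [DecidableEq V] in
theorem integrable_bad (J : Finset (V × ℕ)) (i : V) (K : ℕ) :
    Integrable (bad ν J i K) (labelMeasure (V × ℕ)) := by
  unfold bad
  simp_rw [mul_sub]
  refine Integrable.add (Integrable.sub ?_ ?_) ?_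
  · exact integrable_of_abs_le ((measurable_ite_le_lratio i K).mul (measurable_dens ν J _)) _
      fun s => abs_mul_le_mul_of (abs_ite_le_one _) (abs_dens_le ν J _ s)
  · exact integrable_of_abs_le ((measurable_ite_le_lratio i K).mul (measurable_dens ν J _)) _
      fun s => abs_mul_le_mul_of (abs_ite_le_one _) (abs_dens_le ν J _ s)
  · exact integrable_of_abs_le ((measurable_ite_lratio_le i K).mul (measurable_dens ν J _)) _
      fun s => abs_mul_le_mul_of (abs_ite_le_one _) (abs_dens_le ν J _ s)

omit [DecidableEq V] in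
theorem lratio_congr {i : V} {K : ℕ} {s s' : V × ℕ → I} (h : ∀ b ∈ slots {i} K, s b = s' b) :
    lratio i K s = lratio i K s' :=
  Finset.prod_congr rfl fun k hk => by
    rw [h (i, k) (mem_slots.2 ⟨Finset.mem_singleton_self _, Finset.mem_range.1 hk⟩)]

omit [DecidableEq V] in
theorem mom_nonneg (ν : Measure (V → Bool)) (A : Finset V) : 0 ≤ mom ν A := ENNReal.toReal_nonneg

omit [DecidableEq V] in
theorem mom_le_one (A : Finset V) : mom ν A ≤ 1 := by
  have := dens_le_dens_empty ν ∅ A (fun _ => 0)
  rwa [dens_empty, dens_empty, mom_empty] at this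

theorem integral_bad_le {J : Finset (V × ℕ)} {i : V} {K : ℕ} (hJ : slots {i} K ⊆ J) :
    ∫ s, bad ν J i K s ∂(labelMeasure (V × ℕ)) ≤ 2 * rho ^ K := by
  have hred : ∫ s, bad ν J i K s ∂(labelMeasure (V × ℕ)) =
      ∫ s, bad ν (slots {i} K) i K s ∂(labelMeasure (V × ℕ)) := by
    have e : ∀ J : Finset (V × ℕ), ∫ s, bad ν J i K s ∂(labelMeasure (V × ℕ)) =
        ∫ s, (if 1 / 2 ≤ lratio i K s then (1 : ℝ) else 0) * dens ν J ∅ s ∂(labelMeasure (V × ℕ)) -
        ∫ s, (if 1 / 2 ≤ lratio i K s then (1 : ℝ) else 0) * dens ν J {i} s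
          ∂(labelMeasure (V × ℕ)) +
        ∫ s, (if lratio i K s ≤ 2 then (1 : ℝ) else 0) * dens ν J {i} s
          ∂(labelMeasure (V × ℕ)) := by
      intro J
      have i1 : Integrable (fun s => (if 1 / 2 ≤ lratio i K s then (1 : ℝ) else 0) * dens ν J ∅ s)
          (labelMeasure (V × ℕ)) :=
        integrable_of_abs_le ((measurable_ite_le_lratio i K).mul (measurable_dens ν J _)) _
          fun s => abs_mul_le_mul_of (abs_ite_le_one _) (abs_dens_le ν J _ s)
      have i2 : Integrable
          (fun s => (if 1 / 2 ≤ lratio i K s then (1 : ℝ) else 0) * dens ν J {i} s)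
          (labelMeasure (V × ℕ)) :=
        integrable_of_abs_le ((measurable_ite_le_lratio i K).mul (measurable_dens ν J _)) _
          fun s => abs_mul_le_mul_of (abs_ite_le_one _) (abs_dens_le ν J _ s)
      have i3 : Integrable (fun s => (if lratio i K s ≤ 2 then (1 : ℝ) else 0) * dens ν J {i} s)
          (labelMeasure (V × ℕ)) :=
        integrable_of_abs_le ((measurable_ite_lratio_le i K).mul (measurable_dens ν J _)) _
          fun s => abs_mul_le_mul_of (abs_ite_le_one _) (abs_dens_le ν J _ s)
      have i4 : Integrable (fun s => (if 1 / 2 ≤ lratio i K s then (1 : ℝ) else 0) * dens ν J ∅ s -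
          (if 1 / 2 ≤ lratio i K s then (1 : ℝ) else 0) * dens ν J {i} s)
          (labelMeasure (V × ℕ)) := i1.sub i2
      rw [← integral_sub i1 i2, ← integral_add i4 i3]
      unfold bad
      simp_rw [mul_sub]
    rw [e, e,
      integral_mul_dens_marg ν hJ ∅ (measurable_ite_le_lratio i K) 1 (fun _ => abs_ite_le_one _)
        (fun _ _ h => by rw [lratio_congr h]),
      integral_mul_dens_marg ν hJ {i} (measurable_ite_le_lratio i K) 1 (fun _ => abs_ite_le_one _)
        (fun _ _ h => by rw [lratio_congr h]),
      integral_mul_dens_marg ν hJ {i} (measurable_ite_lratio_le i K) 1 (fun _ => abs_ite_le_one _)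
        (fun _ _ h => by rw [lratio_congr h])]
  rw [hred, ← integral_hellProd i K, ← integral_const_mul]
  refine integral_mono (integrable_bad ν _ i K) ((integrable_of_abs_le (measurable_hellProd i K) _
    (abs_hellProd_le i K)).const_mul 2) fun s => ?_
  have hm0 := mom_nonneg ν {i}
  have hm1 := mom_le_one ν {i}
  have hL := lratio_pos i K s
  have hH := hellProd_pos i K s
  have hLH := lratio_le_hellProd_sq i K s
  have h1 : (if 1 / 2 ≤ lratio i K s then (1 : ℝ) else 0) ≤ 2 * hellProd i K s := by
    split_ifs with h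
    · nlinarith
    · positivity
  have h2 : (if lratio i K s ≤ 2 then (1 : ℝ) else 0) * lratio i K s ≤ 2 * hellProd i K s := by
    split_ifs with h
    · rw [one_mul]
      exact le_of_sq_le_sq_of_nonneg' (by nlinarith) (by positivity)
    · rw [zero_mul]; positivity
  unfold bad
  rw [(dens_slots_singleton ν i K s).2, (dens_slots_singleton ν i K s).1]
  calc (if 1 / 2 ≤ lratio i K s then (1 : ℝ) else 0) * (1 - mom ν {i}) +
        (if lratio i K s ≤ 2 then (1 : ℝ) else 0) * (mom ν {i} * lratio i K s)
      = (if 1 / 2 ≤ lratio i K s then (1 : ℝ) else 0) * (1 - mom ν {i}) +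
        ((if lratio i K s ≤ 2 then (1 : ℝ) else 0) * lratio i K s) * mom ν {i} := by ring
    _ ≤ 2 * hellProd i K s * (1 - mom ν {i}) + 2 * hellProd i K s * mom ν {i} :=
        add_le_add (mul_le_mul_of_nonneg_right h1 (by linarith))
          (mul_le_mul_of_nonneg_right h2 hm0)
    _ = 2 * hellProd i K s := by ring

end Crest.Agent.R168

end
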