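import Crest.Agent.R168.Chan

/-!
Likelihoods and posterior means in the observation model.
-/

set_option autoImplicit false

open MeasureTheory unitInterval Filter Topology
open Crest.ProbabilityR Crest.ProbabilityR.Labels

noncomputable section

namespace Crest.Agent.R168

variable {V : Type*}

theorem bitVal_true : bitVal true = 1 := by simp [bitVal]
theorem bitVal_false : bitVal false = 0 := by simp [bitVal]
theorem bitVal_nonneg (b : Bool) : 0 ≤ bitVal b := by cases b <;> simp [bitVal]
theorem bitVal_le_one (b : Bool) : bitVal b ≤ 1 := by cases b <;> simp [bitVal]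
theorem bitVal_mul_self (b : Bool) : bitVal b * bitVal b = bitVal b := by cases b <;> simp [bitVal]
theorem measurable_bitVal : Measurable bitVal := Measurable.of_discrete

theorem measurable_bitVal_apply (i : V) : Measurable (fun x : V → Bool => bitVal (x i)) :=
  measurable_bitVal.comp (measurable_pi_apply i)

/-- The indicator that all of `A` is occupied. -/
def ind (A : Finset V) (x : V → Bool) : ℝ := ∏ i ∈ A, bitVal (x i)

theorem ind_eq (A : Finset V) (x : V → Bool) :
    ind A x = Set.indicator {ω : V → Bool | ∀ i ∈ A, ω i = true} 1 x := by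
  unfold ind
  by_cases h : ∀ i ∈ A, x i = true
  · rw [Set.indicator_of_mem (by exact h)]
    exact Finset.prod_eq_one fun i hi => by rw [h i hi, bitVal_true]
  · rw [Set.indicator_of_notMem (by exact h)]
    push Not at h
    obtain ⟨i, hi, hx⟩ := h
    exact Finset.prod_eq_zero hi (by simp [bitVal, hx])

theorem ind_nonneg (A : Finset V) (x : V → Bool) : 0 ≤ ind A x :=
  Finset.prod_nonneg fun _ _ => bitVal_nonneg _

theorem ind_le_one (A : Finset V) (x : V → Bool) : ind A x ≤ 1 :=
  Finset.prod_le_one (fun _ _ => bitVal_nonneg _) fun _ _ => bitVal_le_one _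

theorem ind_empty (x : V → Bool) : ind ∅ x = 1 := by simp [ind]

theorem ind_singleton (i : V) (x : V → Bool) : ind {i} x = bitVal (x i) := by simp [ind]

theorem measurable_ind (A : Finset V) : Measurable (ind A) :=
  Finset.measurable_prod _ fun i _ => measurable_bitVal_apply i

theorem measurableSet_occupied (A : Finset V) :
    MeasurableSet {ω : V → Bool | ∀ i ∈ A, ω i = true} := by
  have : {ω : V → Bool | ∀ i ∈ A, ω i = true} = ⋂ i ∈ A, {ω | ω i = true} := by ext; simp
  rw [this]
  exact Finset.measurableSet_biInter _ fun i _ =>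
    measurableSet_eq_fun (measurable_pi_apply i) measurable_const

theorem integral_ind (ν : Measure (V → Bool)) (A : Finset V) : ∫ x, ind A x ∂ν = mom ν A := by
  simp_rw [ind_eq]
  rw [integral_indicator_one (measurableSet_occupied A)]
  rfl

theorem ind_union [DecidableEq V] (A B : Finset V) (x : V → Bool) :
    ind (A ∪ B) x = ind A x * ind B x := by
  simp only [ind_eq]
  rw [← Set.inter_indicator_mul]
  · congr 1
    · ext ω
      simp only [Set.mem_ofPred_eq, Finset.mem_union, Set.mem_inter_iff]
      exact ⟨fun h => ⟨fun i hi => h i (Or.inl hi), fun i hi => h i (Or.inr hi)⟩,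
        fun h i hi => hi.elim (h.1 i) (h.2 i)⟩
    · funext _; simp

theorem ind_insert [DecidableEq V] (i : V) (A : Finset V) (x : V → Bool) :
    ind (insert i A) x = bitVal (x i) * ind A x := by
  rw [Finset.insert_eq, ind_union, ind_singleton]

theorem ind_image [DecidableEq V] (B : Finset (V × ℕ)) (x : V → Bool) :
    ind (B.image Prod.fst) x = ∏ b ∈ B, bitVal (x b.1) := by
  classical
  induction B using Finset.induction_on with
  | empty => simp [ind]
  | insert b B hb ih =>
    rw [Finset.image_insert, ind_insert, Finset.prod_insert hb, ih]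

/-- The likelihood of the signals in the slots `P` given the configuration `x`. -/
def lik (P : Finset (V × ℕ)) (x : V → Bool) (s : V × ℕ → I) : ℝ :=
  ∏ b ∈ P, (1 + bitVal (x b.1) * chan (s b))

theorem lik_factor_pos (b : Bool) (y : I) : 0 < 1 + bitVal b * chan y := by
  cases b
  · simp [bitVal]
  · simpa [bitVal] using one_add_chan_pos y

theorem lik_factor_le (b : Bool) (y : I) : 1 + bitVal b * chan y ≤ 2 := by
  cases b
  · simp [bitVal]
  · have := chan_le y
    simp only [bitVal_true]; linarith

theorem lik_pos (P : Finset (V × ℕ)) (x : V → Bool) (s : V × ℕ → I) : 0 < lik P x s :=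
  Finset.prod_pos fun _ _ => lik_factor_pos _ _

theorem lik_le (P : Finset (V × ℕ)) (x : V → Bool) (s : V × ℕ → I) : lik P x s ≤ 2 ^ P.card := by
  unfold lik
  rw [← Finset.prod_const]
  exact Finset.prod_le_prod (fun _ _ => (lik_factor_pos _ _).le) fun _ _ => lik_factor_le _ _

theorem measurable_lik (P : Finset (V × ℕ)) (s : V × ℕ → I) : Measurable (fun x => lik P x s) :=
  Finset.measurable_prod _ fun b _ =>
    measurable_const.add ((measurable_bitVal_apply b.1).mul measurable_const)

/-- The joint density of the event "`A` is occupied" and of the signals in the slots `P`. -/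
def dens (ν : Measure (V → Bool)) (P : Finset (V × ℕ)) (A : Finset V) (s : V × ℕ → I) : ℝ :=
  ∫ x, ind A x * lik P x s ∂ν

/-- The same quantity written with a moment function and arbitrary slot weights. -/
def zmom [DecidableEq V] (M : Finset V → ℝ) (J : Finset (V × ℕ)) (A : Finset V)
    (γ : V × ℕ → ℝ) : ℝ :=
  ∑ B ∈ J.powerset, (∏ b ∈ B, γ b) * M (A ∪ B.image Prod.fst)

theorem integrable_ind (ν : Measure (V → Bool)) [IsFiniteMeasure ν] (A : Finset V) :
    Integrable (ind A) ν :=
  integrable_of_abs_le (measurable_ind A) 1 fun x => by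
    rw [abs_of_nonneg (ind_nonneg A x)]; exact ind_le_one A x

theorem integrable_ind_mul_lik (ν : Measure (V → Bool)) [IsFiniteMeasure ν] (P : Finset (V × ℕ))
    (A : Finset V) (s : V × ℕ → I) : Integrable (fun x => ind A x * lik P x s) ν :=
  integrable_of_abs_le ((measurable_ind A).mul (measurable_lik P s)) (2 ^ P.card) fun x => by
    rw [abs_of_nonneg (mul_nonneg (ind_nonneg A x) (lik_pos P x s).le)]
    calc ind A x * lik P x s ≤ 1 * lik P x s :=
          mul_le_mul_of_nonneg_right (ind_le_one A x) (lik_pos P x s).le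
      _ ≤ 2 ^ P.card := by rw [one_mul]; exact lik_le P x s

theorem zmom_mom [DecidableEq V] (ν : Measure (V → Bool)) [IsFiniteMeasure ν]
    (J : Finset (V × ℕ)) (A : Finset V) (γ : V × ℕ → ℝ) :
    zmom (mom ν) J A γ = ∫ x, ind A x * ∏ b ∈ J, (1 + bitVal (x b.1) * γ b) ∂ν := by
  have : ∀ x : V → Bool, ind A x * ∏ b ∈ J, (1 + bitVal (x b.1) * γ b) =
      ∑ B ∈ J.powerset, (∏ b ∈ B, γ b) * ind (A ∪ B.image Prod.fst) x := by
    intro x
    rw [Finset.prod_one_add, Finset.mul_sum]
    refine Finset.sum_congr rfl fun B _ => ?_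
    rw [ind_union, ind_image, Finset.prod_mul_distrib]
    ring
  simp_rw [this]
  rw [integral_finsetSum _ fun B _ => (integrable_ind ν _).const_mul _]
  unfold zmom
  refine Finset.sum_congr rfl fun B _ => ?_
  rw [integral_const_mul, integral_ind]

variable (ν : Measure (V → Bool)) [IsProbabilityMeasure ν]

theorem dens_eq_zmom [DecidableEq V] (P : Finset (V × ℕ)) (A : Finset V) (s : V × ℕ → I) :
    dens ν P A s = zmom (mom ν) P A (fun b => chan (s b)) := by
  rw [zmom_mom]; rfl

theorem measurable_dens (P : Finset (V × ℕ)) (A : Finset V) : Measurable (dens ν P A) := by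
  classical
  have : dens ν P A = fun s => zmom (mom ν) P A (fun b => chan (s b)) :=
    funext fun s => dens_eq_zmom ν P A s
  rw [this]
  unfold zmom
  exact Finset.measurable_sum _ fun B _ =>
    (Finset.measurable_prod _ fun b _ => measurable_chan.comp (measurable_pi_apply b)).mul
      measurable_const

omit [IsProbabilityMeasure ν] in
theorem dens_congr {P : Finset (V × ℕ)} (A : Finset V) {s s' : V × ℕ → I}
    (h : ∀ b ∈ P, s b = s' b) : dens ν P A s = dens ν P A s' := by
  unfold dens lik
  congr 1
  funext x
  congr 1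
  exact Finset.prod_congr rfl fun b hb => by rw [h b hb]

omit [IsProbabilityMeasure ν] in
theorem dens_update [DecidableEq V] {P : Finset (V × ℕ)} (A : Finset V) (s : V × ℕ → I)
    {a : V × ℕ} (ha : a ∉ P) (y : I) : dens ν P A (Function.update s a y) = dens ν P A s :=
  dens_congr ν A fun b hb => Function.update_of_ne (fun h : b = a => ha (h ▸ hb)) _ _

theorem dens_insert [DecidableEq V] {P : Finset (V × ℕ)} (A : Finset V) (s : V × ℕ → I)
    {a : V × ℕ} (ha : a ∉ P) :
    dens ν (insert a P) A s = dens ν P A s + chan (s a) * dens ν P (insert a.1 A) s := by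
  unfold dens
  rw [← integral_const_mul, ← integral_add (integrable_ind_mul_lik ν P A s)
    ((integrable_ind_mul_lik ν P _ s).const_mul _)]
  congr 1
  funext x
  unfold lik
  rw [Finset.prod_insert ha, ind_insert]
  ring

omit [IsProbabilityMeasure ν] in
theorem dens_empty (A : Finset V) (s : V × ℕ → I) : dens ν ∅ A s = mom ν A := by
  unfold dens lik
  simp [integral_ind]

theorem mom_empty : mom ν ∅ = 1 := by simp [mom]

omit [IsProbabilityMeasure ν] in
theorem dens_nonneg (P : Finset (V × ℕ)) (A : Finset V) (s : V × ℕ → I) : 0 ≤ dens ν P A s :=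
  integral_nonneg fun x => mul_nonneg (ind_nonneg A x) (lik_pos P x s).le

theorem dens_le_dens_empty (P : Finset (V × ℕ)) (A : Finset V) (s : V × ℕ → I) :
    dens ν P A s ≤ dens ν P ∅ s :=
  integral_mono (integrable_ind_mul_lik ν P A s) (integrable_ind_mul_lik ν P ∅ s) fun x =>
    mul_le_mul_of_nonneg_right (by rw [ind_empty]; exact ind_le_one A x) (lik_pos P x s).le

theorem dens_pos (P : Finset (V × ℕ)) (s : V × ℕ → I) : 0 < dens ν P ∅ s := by
  unfold dens
  rw [integral_pos_iff_support_of_nonneg (fun x => mul_nonneg (ind_nonneg ∅ x) (lik_pos P x s).le)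
    (integrable_ind_mul_lik ν P ∅ s)]
  have : Function.support (fun x => ind ∅ x * lik P x s) = Set.univ := by
    ext x
    simp [ind_empty, (lik_pos P x s).ne']
  rw [this]; simp

theorem dens_le (P : Finset (V × ℕ)) (A : Finset V) (s : V × ℕ → I) :
    dens ν P A s ≤ 2 ^ P.card := by
  refine (dens_le_dens_empty ν P A s).trans ?_
  unfold dens
  calc ∫ x, ind ∅ x * lik P x s ∂ν ≤ ∫ _x, (2 : ℝ) ^ P.card ∂ν :=
        integral_mono (integrable_ind_mul_lik ν P ∅ s) (integrable_const _) fun x => by
          simp only [ind_empty, one_mul]; exact lik_le P x s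
    _ = 2 ^ P.card := by simp

theorem abs_dens_le (P : Finset (V × ℕ)) (A : Finset V) (s : V × ℕ → I) :
    |dens ν P A s| ≤ 2 ^ P.card := by
  rw [abs_of_nonneg (dens_nonneg ν P A s)]; exact dens_le ν P A s

/-- The posterior mean of the bit at `i` given the signals in the slots `P`. -/
def post (ν : Measure (V → Bool)) (P : Finset (V × ℕ)) (i : V) (s : V × ℕ → I) : ℝ :=
  dens ν P {i} s / dens ν P ∅ s

omit [IsProbabilityMeasure ν] in
theorem post_nonneg (P : Finset (V × ℕ)) (i : V) (s : V × ℕ → I) : 0 ≤ post ν P i s :=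
  div_nonneg (dens_nonneg ν P _ s) (dens_nonneg ν P _ s)

theorem post_le_one (P : Finset (V × ℕ)) (i : V) (s : V × ℕ → I) : post ν P i s ≤ 1 :=
  (div_le_one (dens_pos ν P s)).2 (dens_le_dens_empty ν P _ s)

theorem abs_post_le (P : Finset (V × ℕ)) (i : V) (s : V × ℕ → I) : |post ν P i s| ≤ 1 := by
  rw [abs_of_nonneg (post_nonneg ν P i s)]; exact post_le_one ν P i s

theorem measurable_post (P : Finset (V × ℕ)) (i : V) : Measurable (post ν P i) :=
  (measurable_dens ν P _).div (measurable_dens ν P _)

omit [IsProbabilityMeasure ν] in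
theorem post_congr {P : Finset (V × ℕ)} (i : V) {s s' : V × ℕ → I}
    (h : ∀ b ∈ P, s b = s' b) : post ν P i s = post ν P i s' := by
  unfold post; rw [dens_congr ν _ h, dens_congr ν _ h]

theorem post_mul_dens (P : Finset (V × ℕ)) (i : V) (s : V × ℕ → I) :
    post ν P i s * dens ν P ∅ s = dens ν P {i} s :=
  div_mul_cancel₀ _ (dens_pos ν P s).ne'

theorem dens_insert_empty [DecidableEq V] {P : Finset (V × ℕ)} (s : V × ℕ → I)
    {a : V × ℕ} (ha : a ∉ P) :
    dens ν (insert a P) ∅ s = dens ν P ∅ s * (1 + post ν P a.1 s * chan (s a)) := by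
  rw [dens_insert ν ∅ s ha, insert_empty_eq, ← post_mul_dens]
  ring

theorem abs_mul_le_mul_of {a b A B : ℝ} (ha : |a| ≤ A) (hb : |b| ≤ B) : |a * b| ≤ A * B := by
  rw [abs_mul]; exact mul_le_mul ha hb (abs_nonneg _) ((abs_nonneg _).trans ha)

/-- Integrating out slots on which the test function does not depend. -/
theorem integral_mul_dens_marg {P P' : Finset (V × ℕ)} (hP : P' ⊆ P) (A : Finset V)
    {g : (V × ℕ → I) → ℝ} (hg : Measurable g) (C : ℝ) (hC : ∀ s, |g s| ≤ C)
    (hdep : ∀ s s', (∀ b ∈ P', s b = s' b) → g s = g s') :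
    ∫ s, g s * dens ν P A s ∂(labelMeasure (V × ℕ)) =
      ∫ s, g s * dens ν P' A s ∂(labelMeasure (V × ℕ)) := by
  classical
  have key : ∀ R : Finset (V × ℕ), Disjoint R P' → ∀ A : Finset V,
      ∫ s, g s * dens ν (R ∪ P') A s ∂(labelMeasure (V × ℕ)) =
        ∫ s, g s * dens ν P' A s ∂(labelMeasure (V × ℕ)) := by
    intro R
    induction R using Finset.induction_on with
    | empty => intro _ A; rw [Finset.empty_union]
    | insert a R ha ih =>
      intro hd A
      rw [Finset.disjoint_insert_left] at hd
      have ha' : a ∉ R ∪ P' := by simp [ha, hd.1]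
      rw [Finset.insert_union, ← ih hd.2 A]
      have hm1 : Measurable fun s => g s * dens ν (R ∪ P') A s := hg.mul (measurable_dens ν _ _)
      have hm2 : Measurable fun s : V × ℕ → I =>
          g s * (chan (s a) * dens ν (R ∪ P') (insert a.1 A) s) :=
        hg.mul ((measurable_chan.comp (measurable_pi_apply a)).mul (measurable_dens ν _ _))
      have hb2 : ∀ s : V × ℕ → I, |g s * (chan (s a) * dens ν (R ∪ P') (insert a.1 A) s)| ≤
          C * (1 / 4 * 2 ^ (R ∪ P').card) := fun s =>
        abs_mul_le_mul_of (hC s) (abs_mul_le_mul_of (abs_chan_le _) (abs_dens_le ν _ _ s))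
      have h0 : ∫ s, g s * (chan (s a) * dens ν (R ∪ P') (insert a.1 A) s)
          ∂(labelMeasure (V × ℕ)) = 0 := by
        rw [integral_eq_integral_update a hm2 _ hb2]
        have : ∀ s : V × ℕ → I, ∫ y : I, g (Function.update s a y) *
            (chan (Function.update s a y a) *
              dens ν (R ∪ P') (insert a.1 A) (Function.update s a y)) = 0 := by
          intro s
          have e : ∀ y : I, g (Function.update s a y) * (chan (Function.update s a y a) *
              dens ν (R ∪ P') (insert a.1 A) (Function.update s a y)) =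
              (g s * dens ν (R ∪ P') (insert a.1 A) s) * chan y := by
            intro y
            rw [dens_update ν _ s ha', Function.update_self, hdep (Function.update s a y) s
              fun b hb => Function.update_of_ne (fun h : b = a => hd.1 (h ▸ hb)) _ _]
            ring
          simp_rw [e]
          rw [integral_const_mul, integral_chan, mul_zero]
        simp only [this, integral_zero]
      simp_rw [dens_insert ν A _ ha', mul_add]
      rw [integral_add (integrable_of_abs_le hm1 _ fun s =>
        abs_mul_le_mul_of (hC s) (abs_dens_le ν _ _ s)) (integrable_of_abs_le hm2 _ hb2), h0,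
        add_zero]
  have := key (P \ P') Finset.sdiff_disjoint A
  rwa [Finset.sdiff_union_of_subset hP] at this

theorem integral_dens (P : Finset (V × ℕ)) (A : Finset V) :
    ∫ s, dens ν P A s ∂(labelMeasure (V × ℕ)) = mom ν A := by
  have := integral_mul_dens_marg ν (Finset.empty_subset P) A (g := fun _ => 1) measurable_const 1
    (fun _ => by simp) (fun _ _ _ => rfl)
  simpa [dens_empty] using this

/-- The second moment of the posterior mean. -/
def energy (ν : Measure (V → Bool)) (P : Finset (V × ℕ)) (i : V) : ℝ :=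
  ∫ s, post ν P i s * dens ν P {i} s ∂(labelMeasure (V × ℕ))

theorem energy_le_one (P : Finset (V × ℕ)) (i : V) : energy ν P i ≤ 1 := by
  unfold energy
  rw [← mom_empty ν, ← integral_dens ν P ∅]
  refine integral_mono (integrable_of_abs_le ((measurable_post ν P i).mul (measurable_dens ν P _)) _
    fun s => abs_mul_le_mul_of (abs_post_le ν P i s) (abs_dens_le ν P _ s))
    (integrable_of_abs_le (measurable_dens ν P _) _ (abs_dens_le ν P _)) fun s => ?_
  calc post ν P i s * dens ν P {i} s ≤ 1 * dens ν P ∅ s :=
        mul_le_mul (post_le_one ν P i s) (dens_le_dens_empty ν P _ s) (dens_nonneg ν P _ s)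
          zero_le_one
    _ = dens ν P ∅ s := one_mul _

theorem integral_sq_post_sub {P P' : Finset (V × ℕ)} (hP : P' ⊆ P) (i : V) :
    ∫ s, (post ν P i s - post ν P' i s) ^ 2 * dens ν P ∅ s ∂(labelMeasure (V × ℕ)) =
      energy ν P i - energy ν P' i := by
  have hm := measurable_post ν P i
  have hm' := measurable_post ν P' i
  have e : ∀ s, (post ν P i s - post ν P' i s) ^ 2 * dens ν P ∅ s =
      post ν P i s * dens ν P {i} s - 2 * (post ν P' i s * dens ν P {i} s) +
        (post ν P' i s * post ν P' i s) * dens ν P ∅ s := by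
    intro s
    rw [← post_mul_dens ν P i s]
    ring
  simp_rw [e]
  have i1 : Integrable (fun s => post ν P i s * dens ν P {i} s) (labelMeasure (V × ℕ)) :=
    integrable_of_abs_le (hm.mul (measurable_dens ν P _)) _
      fun s => abs_mul_le_mul_of (abs_post_le ν P i s) (abs_dens_le ν P _ s)
  have i2 : Integrable (fun s => post ν P' i s * dens ν P {i} s) (labelMeasure (V × ℕ)) :=
    integrable_of_abs_le (hm'.mul (measurable_dens ν P _)) _
      fun s => abs_mul_le_mul_of (abs_post_le ν P' i s) (abs_dens_le ν P _ s)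
  have i3 : Integrable (fun s => (post ν P' i s * post ν P' i s) * dens ν P ∅ s)
      (labelMeasure (V × ℕ)) :=
    integrable_of_abs_le ((hm'.mul hm').mul (measurable_dens ν P _)) _
      fun s => abs_mul_le_mul_of (abs_mul_le_mul_of (abs_post_le ν P' i s) (abs_post_le ν P' i s))
        (abs_dens_le ν P _ s)
  have i4 : Integrable (fun s => post ν P i s * dens ν P {i} s -
      2 * (post ν P' i s * dens ν P {i} s)) (labelMeasure (V × ℕ)) := i1.sub (i2.const_mul 2)
  rw [integral_add i4 i3, integral_sub i1 (i2.const_mul 2),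
    integral_const_mul,
    integral_mul_dens_marg ν hP {i} hm' 1 (abs_post_le ν P' i) (fun _ _ h => post_congr ν i h),
    integral_mul_dens_marg ν hP ∅ (g := fun s => post ν P' i s * post ν P' i s) (hm'.mul hm') (1 * 1)
      (fun s => abs_mul_le_mul_of (abs_post_le ν P' i s) (abs_post_le ν P' i s))
      (fun _ _ h => by rw [post_congr ν i h])]
  have e2 : ∀ s, (post ν P' i s * post ν P' i s) * dens ν P' ∅ s =
      post ν P' i s * dens ν P' {i} s := by
    intro s
    rw [← post_mul_dens ν P' i s]
    ring
  simp_rw [e2]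
  unfold energy
  ring

theorem energy_mono {P P' : Finset (V × ℕ)} (hP : P' ⊆ P) (i : V) :
    energy ν P' i ≤ energy ν P i := by
  rw [← sub_nonneg, ← integral_sq_post_sub ν hP i]
  exact integral_nonneg fun s => mul_nonneg (sq_nonneg _) (dens_nonneg ν P ∅ s)

theorem abs_post_sub_le (P P' : Finset (V × ℕ)) (i : V) (s s' : V × ℕ → I) :
    |post ν P i s - post ν P' i s'| ≤ 1 := by
  have h1 := post_nonneg ν P i s
  have h2 := post_le_one ν P i s
  have h3 := post_nonneg ν P' i s'
  have h4 := post_le_one ν P' i s'
  rw [abs_le]; constructor <;> linarith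

theorem integral_abs_post_sub_le {J P P' : Finset (V × ℕ)} (hP : P' ⊆ P) (hJ : P ⊆ J) (i : V)
    {η : ℝ} (hη : 0 < η) :
    ∫ s, |post ν P i s - post ν P' i s| * dens ν J ∅ s ∂(labelMeasure (V × ℕ)) ≤
      η + (energy ν P i - energy ν P' i) / η := by
  have hm := measurable_post ν P i
  have hm' := measurable_post ν P' i
  have hma : Measurable fun s => |post ν P i s - post ν P' i s| := (hm.sub hm').abs
  have hba : ∀ s, |(|post ν P i s - post ν P' i s|)| ≤ 1 := fun s => by
    rw [abs_abs]; exact abs_post_sub_le ν P P' i s s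
  rw [integral_mul_dens_marg ν hJ ∅ hma 1 hba
    (fun _ _ h => by rw [post_congr ν i h, post_congr ν i fun b hb => h b (hP hb)]),
    ← integral_sq_post_sub ν hP i]
  have i1 : Integrable (dens ν P ∅) (labelMeasure (V × ℕ)) :=
    integrable_of_abs_le (measurable_dens ν P _) _ (abs_dens_le ν P _)
  have i2 : Integrable (fun s => (post ν P i s - post ν P' i s) ^ 2 * dens ν P ∅ s)
      (labelMeasure (V × ℕ)) :=
    integrable_of_abs_le (((hm.sub hm').pow_const 2).mul (measurable_dens ν P _)) (1 * _)
      fun s => abs_mul_le_mul_of (by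
        rw [abs_pow]; exact pow_le_one₀ (abs_nonneg _) (abs_post_sub_le ν P P' i s s))
        (abs_dens_le ν P _ s)
  calc ∫ s, |post ν P i s - post ν P' i s| * dens ν P ∅ s ∂(labelMeasure (V × ℕ))
      ≤ ∫ s, (η * dens ν P ∅ s + ((post ν P i s - post ν P' i s) ^ 2 * dens ν P ∅ s) / η)
          ∂(labelMeasure (V × ℕ)) := by
        refine integral_mono (integrable_of_abs_le (hma.mul (measurable_dens ν P _)) _
          fun s => abs_mul_le_mul_of (hba s) (abs_dens_le ν P _ s))
          ((i1.const_mul η).add (i2.div_const η)) fun s => ?_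
        have hd := dens_nonneg ν P ∅ s
        set t := post ν P i s - post ν P' i s
        have h1 : |t| ≤ η + t ^ 2 / η := by
          rw [← sq_abs t, ← sub_nonneg]
          have : η + |t| ^ 2 / η - |t| = ((η - |t|) ^ 2 + η * |t|) / η := by field_simp; ring
          rw [this]; positivity
        calc |t| * dens ν P ∅ s ≤ (η + t ^ 2 / η) * dens ν P ∅ s :=
              mul_le_mul_of_nonneg_right h1 hd
          _ = η * dens ν P ∅ s + (t ^ 2 * dens ν P ∅ s) / η := by ring
    _ = η + (∫ s, (post ν P i s - post ν P' i s) ^ 2 * dens ν P ∅ s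
          ∂(labelMeasure (V × ℕ))) / η := by
        rw [integral_add (i1.const_mul η) (i2.div_const η), integral_const_mul, integral_div,
          integral_dens, mom_empty, mul_one]

/-- The log-likelihood field at the site `j` produced by the signals in the slots `P`. -/
def field [DecidableEq V] (P : Finset (V × ℕ)) (s : V × ℕ → I) (j : V) : ℝ :=
  ∑ b ∈ P.filter (fun b => b.1 = j), Real.log (1 + chan (s b))

theorem lik_eq_exp [DecidableEq V] (P : Finset (V × ℕ)) (x : V → Bool) (s : V × ℕ → I) :
    lik P x s = Real.exp (∑ j ∈ P.image Prod.fst, field P s j * bitVal (x j)) := by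
  have : ∑ j ∈ P.image Prod.fst, field P s j * bitVal (x j) =
      ∑ b ∈ P, Real.log (1 + chan (s b)) * bitVal (x b.1) := by
    rw [← Finset.sum_fiberwise_of_maps_to (s := P) (t := P.image Prod.fst) (g := Prod.fst)
      (fun b hb => Finset.mem_image_of_mem _ hb)]
    refine Finset.sum_congr rfl fun j _ => ?_
    unfold field
    rw [Finset.sum_mul]
    refine Finset.sum_congr rfl fun b hb => ?_
    rw [(Finset.mem_filter.1 hb).2]
  rw [this, Real.exp_sum]
  unfold lik
  refine Finset.prod_congr rfl fun b _ => ?_
  cases x b.1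
  · simp [bitVal]
  · simp [bitVal, Real.exp_log (one_add_chan_pos _)]

omit [IsProbabilityMeasure ν] in
theorem post_eq_tiltMean [DecidableEq V] (P : Finset (V × ℕ)) (i : V) (s : V × ℕ → I) :
    post ν P i s = tiltMean ν (P.image Prod.fst) i (field P s) := by
  unfold post dens tiltMean
  simp_rw [lik_eq_exp, ind_singleton, ind_empty, one_mul]

omit [IsProbabilityMeasure ν] in
theorem abs_post_sub_post_le [DecidableEq V] {C : ℝ} (hν : TiltLip ν C) (P : Finset (V × ℕ))
    (i : V) (s s' : V × ℕ → I) {δ : ℝ} (hδ : 0 ≤ δ)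
    (h : ∀ j, ∑ b ∈ P.filter (fun b => b.1 = j), |(s b : ℝ) - s' b| ≤ δ) :
    |post ν P i s - post ν P i s'| ≤ C * (2 / 3 * δ) := by
  rw [post_eq_tiltMean, post_eq_tiltMean]
  refine hν _ i _ _ _ (by positivity) fun j _ => ?_
  unfold field
  rw [← Finset.sum_sub_distrib]
  refine (Finset.abs_sum_le_sum_abs _ _).trans ?_
  refine (Finset.sum_le_sum fun b _ => abs_log_chan_sub_le (s b) (s' b)).trans ?_
  rw [← Finset.mul_sum]
  exact mul_le_mul_of_nonneg_left (h j) (by norm_num)

end Crest.Agent.R168

end
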