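import Crest.Agent.R168.Post

/-!
The finite-volume sequential sampler, defined canonically from a moment function, a finite set of
slots, a real key ordering the slots, and noise labels.
-/

set_option autoImplicit false

open MeasureTheory unitInterval Filter Topology
open Crest.ProbabilityR Crest.ProbabilityR.Labels

noncomputable section

namespace Crest.Agent.R168

variable {V : Type*} [DecidableEq V]

/-- The slots of `J` that come strictly before `a`. -/
def past (J : Finset (V × ℕ)) (τ : V × ℕ → ℝ) (a : V × ℕ) : Finset (V × ℕ) :=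
  J.filter (fun b => τ b < τ a)

/-- The posterior mean at the slot `a` given the earlier slots of `J`, in moment form. -/
def postM (M : Finset V → ℝ) (J : Finset (V × ℕ)) (τ : V × ℕ → ℝ) (a : V × ℕ)
    (s : V × ℕ → I) : ℝ :=
  zmom M J {a.1} (fun b => if τ b < τ a then chan (s b) else 0) /
    zmom M J ∅ (fun b => if τ b < τ a then chan (s b) else 0)

/-- One Picard step of the sampler. -/
def stepM (M : Finset V → ℝ) (J : Finset (V × ℕ)) (τ : V × ℕ → ℝ) (u s : V × ℕ → I) :
    V × ℕ → I :=
  fun a => if a ∈ J then quant (postM M J τ a s) (u a) else u a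

/-- The sampler. -/
def samp (M : Finset V → ℝ) (J : Finset (V × ℕ)) (τ : V × ℕ → ℝ) (u : V × ℕ → I) :
    V × ℕ → I :=
  (stepM M J τ u)^[J.card] u

theorem zmom_filter (M : Finset V → ℝ) (J : Finset (V × ℕ)) (A : Finset V) (γ : V × ℕ → ℝ)
    (p : V × ℕ → Prop) [DecidablePred p] :
    zmom M J A (fun b => if p b then γ b else 0) = zmom M (J.filter p) A γ := by
  unfold zmom
  symm
  refine Finset.sum_subset_zero_on_sdiff (Finset.powerset_mono.2 (Finset.filter_subset _ _)) ?_ ?_
  · intro B hB
    rw [Finset.mem_sdiff, Finset.mem_powerset, Finset.mem_powerset] at hB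
    obtain ⟨b, hb, hb'⟩ := Finset.not_subset.1 hB.2
    have : ¬ p b := fun h => hb' (Finset.mem_filter.2 ⟨hB.1 hb, h⟩)
    rw [Finset.prod_eq_zero hb (by simp [this]), zero_mul]
  · intro B hB
    rw [Finset.mem_powerset] at hB
    congr 1
    exact Finset.prod_congr rfl fun b hb => by simp [(Finset.mem_filter.1 (hB hb)).2]

theorem zmom_congr (M : Finset V → ℝ) {J : Finset (V × ℕ)} (A : Finset V) {γ γ' : V × ℕ → ℝ}
    (h : ∀ b ∈ J, γ b = γ' b) : zmom M J A γ = zmom M J A γ' := by
  unfold zmom
  refine Finset.sum_congr rfl fun B hB => ?_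
  congr 1
  exact Finset.prod_congr rfl fun b hb => h b (Finset.mem_powerset.1 hB hb)

theorem postM_eq (M : Finset V → ℝ) (J : Finset (V × ℕ)) (τ : V × ℕ → ℝ) (a : V × ℕ)
    (s : V × ℕ → I) : postM M J τ a s =
      zmom M (past J τ a) {a.1} (fun b => chan (s b)) / zmom M (past J τ a) ∅ (fun b => chan (s b)) := by
  unfold postM past
  rw [zmom_filter, zmom_filter]

theorem postM_congr (M : Finset V → ℝ) {J J' : Finset (V × ℕ)} (τ : V × ℕ → ℝ) (a : V × ℕ)
    {s s' : V × ℕ → I} (hJ : past J τ a = past J' τ a) (h : ∀ b ∈ past J τ a, s b = s' b) :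
    postM M J τ a s = postM M J' τ a s' := by
  rw [postM_eq, postM_eq, ← hJ, zmom_congr M _ (fun b hb => by rw [h b hb]),
    zmom_congr M ∅ (fun b hb => by rw [h b hb])]

theorem postM_mom (ν : Measure (V → Bool)) [IsProbabilityMeasure ν] (J : Finset (V × ℕ))
    (τ : V × ℕ → ℝ) (a : V × ℕ) (s : V × ℕ → I) :
    postM (mom ν) J τ a s = post ν (past J τ a) a.1 s := by
  rw [postM_eq, post, dens_eq_zmom, dens_eq_zmom]

omit [DecidableEq V] in
theorem card_past_lt {J : Finset (V × ℕ)} (τ : V × ℕ → ℝ) {a b : V × ℕ} (hb : b ∈ past J τ a) :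
    (past J τ b).card < (past J τ a).card := by
  rw [past, Finset.mem_filter] at hb
  refine Finset.card_lt_card ⟨fun c hc => ?_, fun h => ?_⟩
  · rw [past, Finset.mem_filter] at hc ⊢
    exact ⟨hc.1, hc.2.trans hb.2⟩
  · have := h (Finset.mem_filter.2 hb)
    rw [past, Finset.mem_filter] at this
    exact lt_irrefl _ this.2

omit [DecidableEq V] in
theorem card_past_lt_card {J : Finset (V × ℕ)} (τ : V × ℕ → ℝ) {a : V × ℕ} (ha : a ∈ J) :
    (past J τ a).card < J.card := by
  refine Finset.card_lt_card ⟨Finset.filter_subset _ _, fun h => ?_⟩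
  have := h ha
  rw [past, Finset.mem_filter] at this
  exact lt_irrefl _ this.2

theorem iterate_stepM_agree (M : Finset V → ℝ) (J : Finset (V × ℕ)) (τ : V × ℕ → ℝ)
    (u s s' : V × ℕ → I) (n : ℕ) (a : V × ℕ) (hn : (past J τ a).card < n) (ha : a ∈ J) :
    (stepM M J τ u)^[n] s a = (stepM M J τ u)^[n] s' a := by
  induction n generalizing a with
  | zero => exact absurd hn (Nat.not_lt_zero _)
  | succ n ih =>
    rw [Function.iterate_succ_apply', Function.iterate_succ_apply']
    unfold stepM
    rw [if_pos ha, if_pos ha]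
    congr 1
    refine postM_congr M τ a rfl fun b hb => ?_
    exact ih b (lt_of_lt_of_le (card_past_lt τ hb) (Nat.lt_succ_iff.1 hn))
      (Finset.mem_filter.1 hb).1

theorem samp_of_notMem (M : Finset V → ℝ) {J : Finset (V × ℕ)} (τ : V × ℕ → ℝ)
    (u : V × ℕ → I) {a : V × ℕ} (ha : a ∉ J) : samp M J τ u a = u a := by
  unfold samp
  cases J.card with
  | zero => rfl
  | succ n => rw [Function.iterate_succ_apply']; unfold stepM; rw [if_neg ha]

theorem stepM_samp (M : Finset V → ℝ) (J : Finset (V × ℕ)) (τ : V × ℕ → ℝ) (u : V × ℕ → I) :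
    stepM M J τ u (samp M J τ u) = samp M J τ u := by
  funext a
  by_cases ha : a ∈ J
  · have : stepM M J τ u (samp M J τ u) = (stepM M J τ u)^[J.card] (stepM M J τ u u) := by
      unfold samp
      rw [← Function.iterate_succ_apply' (stepM M J τ u), Function.iterate_succ_apply]
    rw [this]
    exact iterate_stepM_agree M J τ u _ _ _ a (card_past_lt_card τ ha) ha
  · rw [samp_of_notMem M τ u ha]
    unfold stepM
    rw [if_neg ha]

theorem samp_of_mem (M : Finset V → ℝ) {J : Finset (V × ℕ)} (τ : V × ℕ → ℝ)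
    (u : V × ℕ → I) {a : V × ℕ} (ha : a ∈ J) :
    samp M J τ u a = quant (postM M J τ a (samp M J τ u)) (u a) := by
  conv_lhs => rw [← stepM_samp]
  unfold stepM
  rw [if_pos ha]

theorem eq_samp_of_fixed (M : Finset V → ℝ) (J : Finset (V × ℕ)) (τ : V × ℕ → ℝ)
    (u s : V × ℕ → I) (hs : stepM M J τ u s = s) : s = samp M J τ u := by
  funext a
  by_cases ha : a ∈ J
  · have : s = (stepM M J τ u)^[J.card] s := (Function.iterate_fixed hs _).symm
    rw [this]
    exact iterate_stepM_agree M J τ u _ _ _ a (card_past_lt_card τ ha) ha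
  · rw [samp_of_notMem M τ u ha, ← hs]
    unfold stepM
    rw [if_neg ha]

/-- On a lower set of slots the sampler does not see the later slots. -/
theorem samp_lower (M : Finset V → ℝ) {J J' : Finset (V × ℕ)} (τ : V × ℕ → ℝ) (hJ : J ⊆ J')
    (hlow : ∀ a ∈ J, ∀ b ∈ J', τ b < τ a → b ∈ J) (u : V × ℕ → I) {a : V × ℕ} (ha : a ∈ J) :
    samp M J' τ u a = samp M J τ u a := by
  have hpast : ∀ c ∈ J, past J τ c = past J' τ c := by
    intro c hc
    ext b
    simp only [past, Finset.mem_filter]
    exact ⟨fun h => ⟨hJ h.1, h.2⟩, fun h => ⟨hlow c hc b h.1 h.2, h.2⟩⟩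
  have := eq_samp_of_fixed M J τ u (fun c => if c ∈ J then samp M J' τ u c else u c) (by
    funext c
    unfold stepM
    by_cases hc : c ∈ J
    · rw [if_pos hc, if_pos hc, samp_of_mem M τ u (hJ hc)]
      congr 1
      refine postM_congr M τ c (hpast c hc) fun b hb => ?_
      rw [if_pos (Finset.mem_filter.1 hb).1]
    · rw [if_neg hc, if_neg hc])
  rw [← this]
  simp only [if_pos ha]

theorem samp_insert (M : Finset V → ℝ) {J : Finset (V × ℕ)} (τ : V × ℕ → ℝ) {a : V × ℕ}
    (ha : a ∉ J) (hmax : ∀ b ∈ J, τ b < τ a) (u : V × ℕ → I) :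
    samp M (insert a J) τ u = Function.update (samp M J τ u) a
      (quant (postM M J τ a (samp M J τ u)) (samp M J τ u a)) := by
  have hlow : ∀ c ∈ J, ∀ b ∈ insert a J, τ b < τ c → b ∈ J := by
    intro c hc b hb hbc
    rcases Finset.mem_insert.1 hb with rfl | hb
    · exact absurd (hbc.trans (hmax c hc)) (lt_irrefl _)
    · exact hb
  funext c
  by_cases hca : c = a
  · subst hca
    rw [Function.update_self, samp_of_mem M τ u (Finset.mem_insert_self _ _),
      samp_of_notMem M τ u ha]
    congr 1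
    refine postM_congr M τ c ?_ fun b hb => ?_
    · ext b
      simp only [past, Finset.mem_filter, Finset.mem_insert]
      refine ⟨fun h => ⟨h.1.resolve_left fun h' => ?_, h.2⟩, fun h => ⟨Or.inr h.1, h.2⟩⟩
      rw [h'] at h
      exact lt_irrefl _ h.2
    · rw [past, Finset.mem_filter, Finset.mem_insert] at hb
      have hb' : b ∈ J := hb.1.resolve_left fun h' => by
        rw [h'] at hb
        exact lt_irrefl _ hb.2
      exact samp_lower M τ (Finset.subset_insert _ _) hlow u hb'
  · rw [Function.update_of_ne hca]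
    by_cases hc : c ∈ J
    · exact samp_lower M τ (Finset.subset_insert _ _) hlow u hc
    · rw [samp_of_notMem M τ u hc, samp_of_notMem M τ u (by simp [hca, hc])]

/-! ### Measurability -/

theorem measurable_zmom {Θ : Type*} [MeasurableSpace Θ] {M : Θ → Finset V → ℝ}
    (hM : ∀ A, Measurable fun θ => M θ A) (J : Finset (V × ℕ)) (A : Finset V)
    {γ : Θ → V × ℕ → ℝ} (hγ : ∀ b, Measurable fun θ => γ θ b) :
    Measurable fun θ => zmom (M θ) J A (γ θ) := by
  unfold zmom
  exact Finset.measurable_sum _ fun B _ =>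
    (Finset.measurable_prod _ fun b _ => hγ b).mul (hM _)

theorem measurable_stepM {Θ : Type*} [MeasurableSpace Θ] {M : Θ → Finset V → ℝ}
    (hM : ∀ A, Measurable fun θ => M θ A) (J : Finset (V × ℕ)) {τ : Θ → V × ℕ → ℝ}
    (hτ : ∀ b, Measurable fun θ => τ θ b) {u s : Θ → V × ℕ → I} (hu : Measurable u)
    (hs : Measurable s) : Measurable fun θ => stepM (M θ) J (τ θ) (u θ) (s θ) := by
  refine measurable_pi_lambda _ fun a => ?_
  have hua : Measurable fun θ => u θ a := (measurable_pi_apply a).comp hu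
  unfold stepM
  by_cases ha : a ∈ J
  · simp only [if_pos ha]
    have hγ : ∀ b, Measurable fun θ => if τ θ b < τ θ a then chan (s θ b) else 0 := fun b =>
      Measurable.ite (measurableSet_lt (hτ b) (hτ a))
        (measurable_chan.comp ((measurable_pi_apply b).comp hs)) measurable_const
    have hp : Measurable fun θ => postM (M θ) J (τ θ) a (s θ) :=
      (measurable_zmom hM J _ hγ).div (measurable_zmom hM J _ hγ)
    exact measurable_quant.comp (hp.prodMk hua)
  · simp only [if_neg ha]
    exact hua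

theorem measurable_samp {Θ : Type*} [MeasurableSpace Θ] {M : Θ → Finset V → ℝ}
    (hM : ∀ A, Measurable fun θ => M θ A) (J : Finset (V × ℕ)) {τ : Θ → V × ℕ → ℝ}
    (hτ : ∀ b, Measurable fun θ => τ θ b) {u : Θ → V × ℕ → I} (hu : Measurable u) :
    Measurable fun θ => samp (M θ) J (τ θ) (u θ) := by
  unfold samp
  generalize J.card = n
  induction n with
  | zero => exact hu
  | succ n ih =>
    simp_rw [Function.iterate_succ_apply']
    exact measurable_stepM hM J hτ hu ih

/-! ### Naturality -/

variable {W : Type*} [DecidableEq W]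

/-- The action of a bijection of sites on slots. -/
def slotEquiv (e : W ≃ V) : W × ℕ ≃ V × ℕ := e.prodCongr (Equiv.refl ℕ)

omit [DecidableEq V] [DecidableEq W] in
@[simp] theorem slotEquiv_apply (e : W ≃ V) (b : W × ℕ) : slotEquiv e b = (e b.1, b.2) := rfl

theorem zmom_map (e : W ≃ V) (M : Finset V → ℝ) (J : Finset (W × ℕ)) (A : Finset W)
    (γ : V × ℕ → ℝ) :
    zmom M (J.map (slotEquiv e).toEmbedding) (A.map e.toEmbedding) γ =
      zmom (fun B => M (B.map e.toEmbedding)) J A (γ ∘ slotEquiv e) := by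
  unfold zmom
  symm
  refine Finset.sum_equiv (slotEquiv e).finsetCongr (fun B => ?_) (fun B _ => ?_)
  · simp [Finset.map_subset_map]
  · rw [Equiv.finsetCongr_apply, Finset.prod_map]
    beta_reduce
    rw [Finset.map_union]
    congr 3
    ext v
    simp only [Finset.mem_map, Finset.mem_image, Equiv.coe_toEmbedding]
    constructor
    · rintro ⟨w, ⟨b, hb, rfl⟩, rfl⟩
      exact ⟨_, ⟨b, hb, rfl⟩, rfl⟩
    · rintro ⟨_, ⟨b, hb, rfl⟩, rfl⟩
      exact ⟨_, ⟨b, hb, rfl⟩, rfl⟩

theorem postM_map (e : W ≃ V) (M : Finset V → ℝ) (J : Finset (W × ℕ)) (τ : V × ℕ → ℝ)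
    (a : W × ℕ) (s : V × ℕ → I) :
    postM M (J.map (slotEquiv e).toEmbedding) τ (slotEquiv e a) s =
      postM (fun B => M (B.map e.toEmbedding)) J (τ ∘ slotEquiv e) a (s ∘ slotEquiv e) := by
  unfold postM
  have h1 := zmom_map e M J {a.1} (fun b => if τ b < τ (slotEquiv e a) then chan (s b) else 0)
  have h2 := zmom_map e M J ∅ (fun b => if τ b < τ (slotEquiv e a) then chan (s b) else 0)
  rw [Finset.map_singleton] at h1
  rw [Finset.map_empty] at h2
  exact congrArg₂ (· / ·) h1 h2

theorem samp_map (e : W ≃ V) (M : Finset V → ℝ) (J : Finset (W × ℕ)) (τ : V × ℕ → ℝ)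
    (u : V × ℕ → I) :
    samp M (J.map (slotEquiv e).toEmbedding) τ u ∘ slotEquiv e =
      samp (fun B => M (B.map e.toEmbedding)) J (τ ∘ slotEquiv e) (u ∘ slotEquiv e) := by
  apply eq_samp_of_fixed
  funext a
  unfold stepM
  by_cases ha : a ∈ J
  · rw [if_pos ha, ← postM_map, Function.comp_apply, Function.comp_apply]
    exact (samp_of_mem M τ u (Finset.mem_map_of_mem (slotEquiv e).toEmbedding ha)).symm
  · rw [if_neg ha, Function.comp_apply, Function.comp_apply, samp_of_notMem M τ u]
    intro h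
    exact ha ((Finset.mem_map' (slotEquiv e).toEmbedding).1 h)

end Crest.Agent.R168

end
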